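import Vale.Agent.P167.N.H955.MshX

/-!
# P167, `0 < q < 1`: the two inputs of the transfer for the families
-/

set_option autoImplicit false

namespace Vale.Agent.P167.N.H955

open Finset Filter Vale.Agent.P167 Vale.Agent.P167.BR Vale.Agent.P167.FK
open Vale.Agent.P167.CA (cms)
open Vale.Agent.P167.E6 (IsPolygon Encloses)
open Vale.Agent.P167.H365.NQ (XW TW)
open Vale.Agent.P167.H542.Q (BD)
open Vale.Agent.P167.H718 (Dob wn wn')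
open Vale.Agent.P167.H760.Q (MajY Fp BaseQ JunQ)
open Vale.Agent.P167.N.QL (cP phP rhoP Rf Rf_sub V0 BcX JunP exists_sc mem_JPc hlarge VP_ex cP_nil)

variable {S : CA.Dat} {θ β : ℝ} {f : ℂ → ℝ}

theorem MajY.mono {Q : ℝ} {D : Finset (ℤ × ℤ)} {η : Cfg} {w w' : Finset Ed → ℝ} {z : ℤ × ℤ}
    {R : ℤ} {M M' : ℝ} (h : MajY Q D η w w' z R M) (hM : M ≤ M') : MajY Q D η w w' z R M' := by
  obtain ⟨Y, h1, h2, h3, h4⟩ := h
  exact ⟨Y, h1, h2, h3, h4.trans hM⟩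

theorem dl_monoC {A C C' C2 p ε : ℝ} {k : ℕ} (hA : 1 ≤ A) (hC2 : 0 ≤ C2) (hε : 0 ≤ ε)
    (h : C ≤ C') : Dl A C C2 p ε k ≤ Dl A C' C2 p ε k := by
  unfold Dl
  have h1 := Real.sqrt_le_sqrt h
  have hAk : 0 ≤ A ^ k := pow_nonneg (by linarith) _
  have hk : 1 ≤ (1 + ε) ^ k := one_le_pow₀ (by linarith)
  gcongr

/-- The junction. -/
theorem exists_jun {X : BD S θ β} {s : ℕ → ℕ} (hB : BcX X s) : ∃ ja, JunP X ja := by
  rcases hB with h | h | ⟨-, ia, h1, h2, h3⟩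
  · exact ⟨∅, Or.inl ⟨rfl, h.mono fun n hn => Or.inr hn⟩⟩
  · exact ⟨∅, Or.inl ⟨rfl, h.mono fun n hn => Or.inl hn⟩⟩
  · refine ⟨{ia}, Or.inr ⟨ia, 0, h1, h2, rfl, ?_⟩⟩
    filter_upwards [h3] with n hn
    rw [hn]
    push_cast
    rw [sub_self, abs_zero]

/-- **The reflex corners are far from the flat boundary points.** -/
theorem far_cor (X : BD S θ β) {s : ℕ → ℕ} (hb : BaseQ X s) (hB : BcX X s) {δ : ℝ} (hδ : 0 < δ) :
    ∀ᶠ n : ℕ in X.L, (IsPolygon (X.q n) ∧ Encloses (X.q n) (S.D n)) ∧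
      ∀ z, Fp S δ n z → ∀ c ∈ Ic S s n, δ / 4 * n < nm (X.q n (c : ZMod (X.N n)) - z) := by
  have htp0 := S.tp0
  obtain ⟨ja, hj⟩ := exists_jun hB
  obtain ⟨e, he, e1, e2⟩ : ∃ e : ℝ, 0 < e ∧ 2 * e ≤ S.tp ∧ e ≤ δ / 4 := by
    refine ⟨min (S.tp / 2) (δ / 4), by positivity, ?_, min_le_right _ _⟩
    have := min_le_left (S.tp / 2) (δ / 4)
    linarith
  obtain ⟨C, hC⟩ := exists_sc X hb he (Rs := ∅) (empty_subset _) hj
  filter_upwards [hC, hlarge X ((8 * (C + 1) + 1) / δ)] with n hn hb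
  rw [div_le_iff₀ hδ] at hb
  refine ⟨⟨hn.poly, hn.enc⟩, fun z hz c hc => ?_⟩
  unfold Ic at hc
  obtain ⟨i, hi, rfl⟩ := mem_image.1 hc
  exact hn.far he e1 (empty_subset _) hδ e2 (by linarith) hz (mem_JPc (Rf_sub S hi))

/-- The value of the reference functional. -/
theorem v0_eq (h1 : Ang θ) (hβ : Real.cos (θ / 2 + β) = Real.sin θ) (X : BD S θ β) {s : ℕ → ℕ}
    {e : ℝ} {n : ℕ} (hq : IsPolygon (X.q n)) (hD : Encloses (X.q n) (S.D n))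
    (hk : X.k n ≤ X.N n) {η : Cfg} (hη : Dob η (S.D n) (X.q n) (X.k n)) :
    Ex (2 * Real.cos θ) (S.D n) η (XW (S.D n) (wn θ β (X.q n) (S.D n) (X.k n)
      (cP (X.q n) (phP θ (X.q n) (X.k n) (Ic S s n) (QL.me e n)) 0))) =
      V0 X (rhoP X s e (Rf S)) n := by
  have h2 := VP_ex (ρ := phP θ (X.q n) (X.k n) (Ic S s n) (QL.me e n)) hq hD h1.sin_pos h1.cos_pos
    hβ hk hη ∅
  rw [← cP_nil] at h2
  exact h2

/-- **Majorants, uniformly in `e`.** -/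
theorem maj_nu (_h0 : 0 < θ) (h1 : Ang θ) (hβ : Real.cos (θ / 2 + β) = Real.sin θ) (X : BD S θ β)
    {s : ℕ → ℕ} (hb : BaseQ X s) (hB : BcX X s) (hf : S.FF f) {δ : ℝ} (hδ : 0 < δ) :
    MajNU X s f δ := by
  obtain ⟨C2, ρ, κ₁, hC2, hρ, hρ0, hκ₁, H⟩ := msh_X h1 hβ X hb hB hf hδ
    (by positivity : 0 < δ / 32)
  obtain ⟨c, C, hc, hcρ, hC, H⟩ := H κ₁ hκ₁ le_rfl
  obtain ⟨e0, he0, H⟩ := H (1 / 2) (by norm_num)
  have hA : 1 ≤ (2 * Real.cos θ)⁻¹ := (one_le_inv₀ h1.kit.pos).2 h1.kit.lt.le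
  refine ⟨c, max (Real.sqrt C) (Real.sqrt C * (2 * C2)), e0, hc,
    lt_max_of_lt_left (Real.sqrt_pos.2 (by linarith)), he0, fun e he hee => ?_⟩
  filter_upwards [H e he hee, far_cor X hb hB hδ, X.kle, hlarge X 1] with n Hn hfar hk hn1
  obtain ⟨⟨hq, hD⟩, hfar⟩ := hfar
  obtain ⟨η₀, T, T', b0, b1, b2, b3, p, ε, hd, Hm⟩ := Hn
  have hM0 := Hm 0 (-1) (Or.inl (by norm_num))
  have hd' : Dl (2 * Real.cos θ)⁻¹ C C2 p ε (Rf S).card ≤ 1 / 2 :=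
    (dl_monoC hA hC2.le hM0.clo.ε0 (by linarith)).trans hd
  have hv := hM0.val hd'
  have hV := v0_eq h1 hβ X (s := s) (e := e) hq hD hk hM0.dob
  have hV0 : 0 < V0 X (rhoP X s e (Rf S)) n := by
    rw [← hV]
    exact hv.1
  refine ⟨hV0, fun z hz R hR η hη => ?_⟩
  have hM := Hm z R (Or.inr ⟨hz, hR⟩)
  have hn' : (0 : ℝ) < n := by linarith
  have a1 : c * n ≤ δ / 32 * n := mul_le_mul_of_nonneg_right hcρ hn'.le
  have a2 : ρ * n ≤ δ / 32 * n := mul_le_mul_of_nonneg_right hρ0 hn'.le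
  have a0 : 0 < δ * n := mul_pos hδ hn'
  have w1 : ∀ c' ∈ Ic S s n, ∀ u : ℤ × ℤ,
      (nm (u - X.q n (c' : ZMod (X.N n))) : ℝ) ≤ c * n → R < nm (u - z) := by
    intro c' hc' u hu
    have h2 := hfar z hz c' hc'
    have h3 := H601.LG.nm_tri' (X.q n (c' : ZMod (X.N n))) u z
    rw [H601.LG.nm_comm (X.q n (c' : ZMod (X.N n))) u] at h3
    have h4 : (nm (X.q n (c' : ZMod (X.N n)) - z) : ℝ) ≤
        nm (u - X.q n (c' : ZMod (X.N n))) + nm (u - z) := by exact_mod_cast h3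
    have h5 : (R : ℝ) < nm (u - z) := by linarith
    exact_mod_cast h5
  have w2 : ∀ c' ∈ Ic S s n,
      3 * R + ⌊ρ * (n : ℝ)⌋ < nm (X.q n (c' : ZMod (X.N n)) - z) := by
    intro c' hc'
    have h2 := hfar z hz c' hc'
    have h3 := Int.floor_le (ρ * (n : ℝ))
    have h5 : ((3 * R + ⌊ρ * (n : ℝ)⌋ : ℤ) : ℝ) < nm (X.q n (c' : ZMod (X.N n)) - z) := by
      push_cast
      linarith
    exact_mod_cast h5
  obtain ⟨m1, m2⟩ := hM.majY hq hD hk hd' w1 w2 hη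
  refine ⟨MajY.mono m2 (le_max_left _ _), MajY.mono m1 ?_⟩
  rw [hV]
  exact mul_le_mul_of_nonneg_right (le_max_right _ _) hV0.le

/-- **Closeness.** -/
theorem clo_n (_h0 : 0 < θ) (h1 : Ang θ) (hβ : Real.cos (θ / 2 + β) = Real.sin θ) (X : BD S θ β)
    {s : ℕ → ℕ} (hb : BaseQ X s) (hB : BcX X s) (hf : S.FF f) {δ : ℝ} (hδ : 0 < δ) :
    CloN X s f δ := by
  intro μ ε' hμ hε'
  obtain ⟨C2, ρ, κ₁, hC2, hρ, hρ0, hκ₁, H⟩ := msh_X h1 hβ X hb hB hf hδ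
    (by positivity : 0 < δ / 32)
  obtain ⟨c, C, hc, hcρ, hC, H⟩ := H (min κ₁ (μ / 4)) (by positivity) (min_le_left _ _)
  have hA : 1 ≤ (2 * Real.cos θ)⁻¹ := (one_le_inv₀ h1.kit.pos).2 h1.kit.lt.le
  have hsq := Real.sqrt_nonneg (4 * C)
  obtain ⟨δ1, hδ1, d1, d2⟩ : ∃ δ1 : ℝ, 0 < δ1 ∧ δ1 ≤ 1 / 2 ∧
      2 * δ1 * (1 + Real.sqrt (4 * C)) ≤ ε' := by
    refine ⟨min (1 / 2) (ε' / (2 * (1 + Real.sqrt (4 * C)))), by positivity, min_le_left _ _, ?_⟩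
    have h2 := min_le_right (1 / 2) (ε' / (2 * (1 + Real.sqrt (4 * C))))
    rw [le_div_iff₀ (by positivity)] at h2
    linarith
  obtain ⟨e0, he0, H⟩ := H δ1 hδ1
  refine ⟨e0, he0, fun e he hee => ?_⟩
  filter_upwards [H e he hee, far_cor X hb hB hδ, X.kle, hlarge X 1, hlarge X (24 / μ),
    hlarge X (48 / δ)] with n Hn hfar hk hn1 hn2 hn3 m hm1 hm2 η hη
  rw [div_le_iff₀ hμ] at hn2
  rw [div_le_iff₀ hδ] at hn3
  obtain ⟨⟨hq, hD⟩, hfar⟩ := hfar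
  obtain ⟨η₀, T, T', b0, b1, b2, b3, p, ε, hd, Hm⟩ := Hn
  have hM := Hm 0 (-1) (Or.inl (by norm_num))
  have hn' : (0 : ℝ) < n := by linarith
  have hdd : Dl (2 * Real.cos θ)⁻¹ C C2 p ε (Rf S).card ≤
      Dl (2 * Real.cos θ)⁻¹ (4 * C) C2 p ε (Rf S).card :=
    dl_monoC hA hC2.le hM.clo.ε0 (by linarith)
  have hd0 : 0 ≤ Dl (2 * Real.cos θ)⁻¹ (4 * C) C2 p ε (Rf S).card :=
    dl_nonneg hM.clo.A1 hC2.le hM.clo.ε0
  have hV := v0_eq h1 hβ X (s := s) (e := e) hq hD hk hM.dob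
  have a1 : min κ₁ (μ / 4) * n ≤ μ / 4 * n := mul_le_mul_of_nonneg_right (min_le_right _ _) hn'.le
  have a2 : ρ * n ≤ δ / 32 * n := mul_le_mul_of_nonneg_right hρ0 hn'.le
  have a0 : 0 < δ * n := mul_pos hδ hn'
  have b1' : (((m / 4 : ℤ) * 4 : ℤ) : ℝ) ≤ (m : ℝ) := by
    exact_mod_cast Int.ediv_mul_le m (by norm_num : (4 : ℤ) ≠ 0)
  push_cast at b1'
  have key := hM.cloP (Zs := {z | Fp S δ n z}) (m := m) (ε' := ε') hC (hd.trans d1)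
    (le_trans (by
      refine mul_le_mul_of_nonneg_right (mul_le_mul_of_nonneg_left hd (by norm_num)) ?_
      linarith) d2) hdd (by linarith) (fun z0 hz0 c' hc' => ?_)
  · refine CloP.eta (q := X.q n) (k := X.k n) ?_ h1.kit.pos hq hD hk hM.dob hη
    rw [← hV]
    exact key
  · have h2 := hfar z0 hz0 c' hc'
    rw [H601.LG.nm_comm (X.q n (c' : ZMod (X.N n))) z0] at h2
    have h3 := Int.floor_le (ρ * (n : ℝ))
    have h5 : ((m / 4 + ⌊ρ * (n : ℝ)⌋ + 3 : ℤ) : ℝ) < nm (z0 - X.q n (c' : ZMod (X.N n))) := by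
      push_cast
      linarith
    exact_mod_cast h5

end Vale.Agent.P167.N.H955
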