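import Vale.Agent.P167.N.H955.Tr
import Vale.Agent.P167.H760.Q.Bs5

/-!
# P167, `0 < q < 1`: the averaged Neumann condition by transfer

`TrIn` is the local input: near every flat part of a side, the functional `w` (whose flux is the flux
of `H n`), a modification `v` of `w` which has a parity image and is close to `w`, and a reference
functional `r` with a parity image.
-/

set_option autoImplicit false

namespace Vale.Agent.P167.N.H955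

open Finset Filter Topology Vale.Agent.P167 Vale.Agent.P167.BR Vale.Agent.P167.FK
open Vale.Agent.P167.FKA
open Vale.Agent.P167.H365.NQ (EnvQ XW TW XTW SW NREDQ OF sx)
open Vale.Agent.P167.H318 (CoConn)
open Vale.Agent.P167.H760.Q (flx NeuH sum_add_Icc)
open Vale.Agent.P167.H760 (Num sum_range_Icc exists_margin)
open Vale.Agent.P167.N.H365.NQ (NREDC StagQ)
open scoped ContDiff

theorem ImgQ.mono {Q : ℝ} {t : Fin 3 → ℝ} {K R : ℤ} {D : Finset (ℤ × ℤ)} {η : Cfg} {p : ℤ × ℤ}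
    {v v' : Finset Ed → ℝ} {M M' : ℝ} {k : ℕ} {a b : ℤ} (h : ImgQ Q t K R D η p v v' M k a b)
    (hM : M ≤ M') : ImgQ Q t K R D η p v v' M' k a b := by
  obtain ⟨D1, η1, p1, w1, w1', h1, h2, h3, h4, h5⟩ := h.ex
  exact ⟨⟨D1, η1, p1, w1, w1', h1, fun x hx => envQ_mono (h2 x hx) hM, h3, h4, h5⟩⟩

/-- The functional `w` with the flux `Fl`, its modification `v`, and the reference `r`. The
majorants of the images are given at the radius `R'`. -/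
structure TrW (Q : ℝ) (t : Fin 3 → ℝ) (K R R' m : ℤ) (M M' ε : ℝ) (k : ℕ) (Fl : ℤ → ℝ)
    (a b : ℤ) : Prop where
  ex : ∃ (D : Finset (ℤ × ℤ)) (η : Cfg) (p : ℤ × ℤ) (w w' v v' r r' : Finset Ed → ℝ), CoConn D ∧
    (∀ x ∈ Icc a b, EnvQ Q t K R D η p w w' M (x, 0)) ∧
    (∀ x ∈ Icc a b, EnvQ Q t K R D η p v v' M (x, 0)) ∧
    (∀ x ∈ Icc a b, EnvQ Q t K R D η p r r' M (x, 0)) ∧
    ImgQ Q t K R' D η p v v' M' k a b ∧ ImgQ Q t K R' D η p r r' M' k a b ∧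
    CloQ Q D η p w w' v v' m a b ε ∧ Ex Q D η (XW D r) = 1 ∧
    ∀ x ∈ Icc a b, flW Q D η p w w' k x = Fl x

/-- **The local input** on the part `(α, β)` of the side `(w, r)`. The majorant `M` of the
functionals and the window `c` do not depend on the closeness `ε'`, the majorant `M'` and the window
`c'` of the images may. -/
def TrIn (Q : ℝ) (L : Filter ℕ) (w : ℤ × ℤ) (r : Fin 4) (α β : ℝ) (H : ℕ → ℤ × ℤ → ℝ) : Prop :=
  ∃ t : Fin 3 → ℝ, ∀ δ : ℝ, 0 < δ → ∃ c M : ℝ, 0 < c ∧ 0 ≤ M ∧ ∀ μ ε' : ℝ, 0 < μ → 0 < ε' →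
    ∃ c' M' : ℝ, 0 < c' ∧ ∀ᶠ n : ℕ in L, ∀ (R R' m : ℤ) (k : ℕ), 1 ≤ R' → R' ≤ R →
    (R : ℝ) ≤ c * n → (R' : ℝ) ≤ c' * n → (k : ℝ) ≤ R' →
    μ * n ≤ m → 32 ≤ m → 4 * m ≤ R → ∀ a b : ℤ, a ≤ b → (α + δ) * n ≤ a →
    (b : ℝ) ≤ (β - δ) * n → ∃ j : ℤ,
      TrW Q t 8 R R' m M M' ε' k (fun x => flx n w r k (H n) (x + j)) (a - j) (b - j)

variable {Q : ℝ} {L : Filter ℕ} {w : ℤ × ℤ} {r : Fin 4} {H : ℕ → ℤ × ℤ → ℝ}

/-- The choice of the ratio of the scales and of the closeness. -/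
theorem tr_scales {C γ M e : ℝ} (hC : 0 ≤ C) (hγ : 0 < γ) (hM0 : 0 ≤ M) (he : 0 < e) :
    ∃ ρ ε' : ℝ, 0 < ρ ∧ ρ ≤ 1 / 4 ∧ 0 < ε' ∧ ε' ≤ 1 ∧ C * ((M + 1) * ρ ^ γ) ≤ e ∧
      C * ((M + 1) * (ε' * (2 / ρ))) ≤ e := by
  obtain ⟨ρ, hρ0, hρ1, hρ2⟩ : ∃ ρ : ℝ, 0 < ρ ∧ ρ ≤ 1 / 4 ∧ C * ((M + 1) * ρ ^ γ) ≤ e := by
    have h1 : Tendsto (fun ρ : ℝ => C * ((M + 1) * ρ ^ γ)) (𝓝[>] 0) (𝓝 0) := by
      have h2 : Tendsto (fun ρ : ℝ => ρ ^ γ) (𝓝[>] 0) (𝓝 0) := by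
        have := (Real.continuousAt_rpow_const 0 γ (Or.inr hγ.le)).tendsto
        rw [Real.zero_rpow hγ.ne'] at this
        exact this.mono_left nhdsWithin_le_nhds
      have h3 := (h2.const_mul (M + 1)).const_mul C
      simpa using h3
    have h4 : ∀ᶠ ρ in 𝓝[>] (0 : ℝ), C * ((M + 1) * ρ ^ γ) < e :=
      h1.eventually (gt_mem_nhds he)
    have h5 : ∀ᶠ ρ in 𝓝[>] (0 : ℝ), ρ < 1 / 4 :=
      (eventually_lt_nhds (show (0 : ℝ) < 1 / 4 by norm_num)).filter_mono nhdsWithin_le_nhds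
    obtain ⟨ρ, ⟨h6, h7⟩, h8⟩ := ((h4.and h5).and (eventually_mem_nhdsWithin)).exists
    exact ⟨ρ, h8, h7.le, h6.le⟩
  have hp : 0 < (M + 1) * (2 / ρ) := by positivity
  obtain ⟨d, hd⟩ : ∃ d, d = min 1 (e / ((C + 1) * ((M + 1) * (2 / ρ)))) := ⟨_, rfl⟩
  have h0 : 0 < d := by rw [hd]; positivity
  have h1 : d ≤ e / ((C + 1) * ((M + 1) * (2 / ρ))) := by rw [hd]; exact min_le_right _ _
  rw [le_div_iff₀ (by positivity)] at h1
  refine ⟨ρ, d, hρ0, hρ1, h0, by rw [hd]; exact min_le_left _ _, hρ2, ?_⟩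
  have h2 : 0 ≤ (M + 1) * (2 / ρ) * d := by positivity
  nlinarith

/-- The sum of the errors. -/
theorem tr_err {C γ M e ε' ρ R m x : ℝ} (hC : 0 ≤ C) (hγ : 0 < γ) (hM0 : 0 ≤ M)
    (he : 0 < e) (hρ0 : 0 < ρ) (hε'0 : 0 < ε') (hε'1 : ε' ≤ 1) (h1 : C * ((M + 1) * ρ ^ γ) ≤ e)
    (h2 : C * ((M + 1) * (ε' * (2 / ρ))) ≤ e) (hR : 0 < R) (hm : 0 < m) (hmR : m ≤ ρ * R)
    (hRm : ρ * R ≤ 2 * m) (hx : x ≤ e) :
    x * (1 + ε') + C * ((M + 1) * (ε' * (R / m) + (m / R) ^ γ)) ≤ 4 * e := by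
  have a1 : R / m ≤ 2 / ρ := by
    rw [div_le_div_iff₀ hm hρ0]
    linarith
  have a2 : m / R ≤ ρ := by
    rw [div_le_iff₀ hR]
    exact hmR
  have e1 : C * ((M + 1) * (ε' * (R / m))) ≤ C * ((M + 1) * (ε' * (2 / ρ))) :=
    mul_le_mul_of_nonneg_left (mul_le_mul_of_nonneg_left
      (mul_le_mul_of_nonneg_left a1 hε'0.le) (by linarith)) hC
  have e2 : C * ((M + 1) * (m / R) ^ γ) ≤ C * ((M + 1) * ρ ^ γ) := by
    refine mul_le_mul_of_nonneg_left (mul_le_mul_of_nonneg_left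
      (Real.rpow_le_rpow (by positivity) a2 hγ.le) (by linarith)) hC
  have e3 : C * ((M + 1) * (ε' * (R / m) + (m / R) ^ γ)) =
      C * ((M + 1) * (ε' * (R / m))) + C * ((M + 1) * (m / R) ^ γ) := by ring
  have e4 : x * (1 + ε') ≤ e * (1 + ε') := mul_le_mul_of_nonneg_right hx (by linarith)
  rw [e3]
  nlinarith

/-- **The final inequality** with the choice of the scales. -/
theorem tr_k (hQ : 0 < Q) {t : Fin 3 → ℝ} {K : ℤ} (hN : NREDC Q t K) (hS : StagQ Q t K) (M : ℝ)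
    (hM0 : 0 ≤ M) (ε : ℝ) (hε : 0 < ε) : ∃ ρ ε' : ℝ, 0 < ρ ∧ ρ ≤ 1 / 4 ∧ 0 < ε' ∧ ∀ M' Λ : ℝ,
    ∃ κ : ℝ, ∃ k0 : ℕ, 0 < κ ∧ ∀ (R R' m : ℤ) (k : ℕ), k0 ≤ k → (k : ℝ) ≤ κ * R' → 1 ≤ R' →
    R' ≤ R → (R : ℝ) ≤ Λ * R' → 32 ≤ m →
    4 * m ≤ R → (m : ℝ) ≤ ρ * R → ρ * R ≤ 2 * m → ∀ (Fl φ : ℤ → ℝ) (a b : ℤ), a ≤ b →
    TrW Q t K R R' m M M' ε' k Fl a b → (∀ x, |φ x| ≤ 1) →
    (∀ x x' : ℤ, |φ x - φ x'| ≤ |(x : ℝ) - x'| / R) →
    (∀ x, φ x ≠ 0 → a + R ≤ x ∧ x ≤ b - R) →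
    |∑ x ∈ Icc a b, φ x * Fl x| ≤ ε * k * (((b - a : ℤ) : ℝ) / R + 1) := by
  obtain ⟨C, γ, hC, hγ, hK⟩ := tr_le hQ hN hS
  obtain ⟨ρ, ε', hρ0, hρ1, hε0, hε1, h1, h2⟩ := tr_scales hC hγ hM0 (e := ε / 4) (by positivity)
  refine ⟨ρ, ε', hρ0, hρ1, hε0, fun M' Λ => ?_⟩
  obtain ⟨M1, hM1⟩ : ∃ M1 : ℝ, M1 = max M M' := ⟨_, rfl⟩
  have hM1a : M ≤ M1 := by rw [hM1]; exact le_max_left _ _
  have hM1b : M' ≤ M1 := by rw [hM1]; exact le_max_right _ _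
  obtain ⟨Λ1, hΛ1⟩ : ∃ Λ1 : ℝ, Λ1 = max 1 Λ := ⟨_, rfl⟩
  have hΛ1a : 1 ≤ Λ1 := by rw [hΛ1]; exact le_max_left _ _
  have hΛ1b : Λ ≤ Λ1 := by rw [hΛ1]; exact le_max_right _ _
  have hM1p : 0 < M1 + 1 := by linarith
  have hΛ1p : 0 < Λ1 := by linarith
  obtain ⟨κ, k0, hκ, hK⟩ := hK (ε / 4 / ((M1 + 1) * Λ1)) (by positivity)
  refine ⟨κ, k0, hκ, fun R R' m k hk hkR hR' hR'R hRΛ hm hmR hmρ hρm Fl φ a b hab hT hφ1 hφ2
    hφ3 => ?_⟩
  obtain ⟨D, η, p, w0, w0', v, v', r0, r0', hco, hEw, hEv, hEr, hIv, hIr, hcl, hV, hfl⟩ := hT.ex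
  have hfin := hK R R' m k hk hkR hR' hR'R hm hmR D η p w0 w0' v v' r0 r0' M M1 ε' a b φ hco hab
    hEw hEv hEr (hIv.mono hM1b) (hIr.mono hM1b) hM1a hcl hV hφ1 hφ2 hφ3
  have hR1 := (hEw a (mem_Icc.2 ⟨le_rfl, hab⟩)).R1
  have hR1' : (1 : ℝ) ≤ R := by exact_mod_cast hR1
  have hR'' : (1 : ℝ) ≤ R' := by exact_mod_cast hR'
  have hm' : (32 : ℝ) ≤ m := by exact_mod_cast hm
  have hsw : ∑ x ∈ Icc a b, φ x * flW Q D η p w0 w0' k x = ∑ x ∈ Icc a b, φ x * Fl x :=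
    sum_congr rfl fun x hx => by rw [hfl x hx]
  rw [hsw] at hfin
  have hx : ε / 4 / ((M1 + 1) * Λ1) * ((M1 + 1) * ((R : ℝ) / R')) ≤ ε / 4 := by
    have h3 : (R : ℝ) / R' ≤ Λ1 := by
      rw [div_le_iff₀ (by linarith)]
      exact hRΛ.trans (mul_le_mul_of_nonneg_right hΛ1b (by linarith))
    have h4 : (M1 + 1) * ((R : ℝ) / R') ≤ (M1 + 1) * Λ1 := mul_le_mul_of_nonneg_left h3 hM1p.le
    refine (mul_le_mul_of_nonneg_left h4 (by positivity)).trans (le_of_eq ?_)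
    field_simp
  have herr := tr_err hC hγ hM0 (e := ε / 4) (by positivity) hρ0 hε0 hε1
    h1 h2 (R := R) (m := m) (by linarith) (by linarith) hmρ hρm hx
  have hba : (0 : ℝ) ≤ ((b - a : ℤ) : ℝ) / R + 1 := by
    have : (0 : ℝ) ≤ ((b - a : ℤ) : ℝ) := by exact_mod_cast (by omega : 0 ≤ b - a)
    positivity
  have hk0 : (0 : ℝ) ≤ k := Nat.cast_nonneg _
  refine hfin.trans ((mul_le_mul_of_nonneg_left herr (by positivity)).trans (le_of_eq ?_))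
  ring

/-- The scales for one mesh. -/
theorem scales_n {c δ ρ α β : ℝ} {n : ℕ} (hcp : 0 < c) (hcδ : c ≤ δ / 512) (hc1 : c ≤ 1)
    (hρ0 : 0 < ρ) (hρ1 : ρ ≤ 1 / 4) (n1 : 2 ≤ n * c) (n4 : 66 ≤ n * (ρ * c)) (n3 : 8 ≤ n * δ)
    (hα : 0 ≤ α) (hβ : β ≤ 1) (hδ : 0 < δ) :
    ∃ R m a b : ℤ, 1 ≤ R ∧ (R : ℝ) ≤ c * n ∧ c * n / 2 ≤ R ∧ (R : ℝ) ≤ n ∧ 32 ≤ m ∧ 4 * m ≤ R ∧
      (m : ℝ) ≤ ρ * R ∧ ρ * R ≤ 2 * m ∧ ρ * c / 4 * n ≤ m ∧ (α + δ / 2) * n ≤ a ∧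
      (b : ℝ) ≤ (β - δ / 2) * n ∧ 0 < a ∧ b < n ∧
      ∀ x : ℤ, (α + δ) * n ≤ x → (x : ℝ) ≤ (β - δ) * n → a + R ≤ x ∧ x ≤ b - R := by
  have hn0 : (0 : ℝ) ≤ n := Nat.cast_nonneg _
  obtain ⟨R, hR⟩ : ∃ R : ℤ, R = ⌊c * n⌋ := ⟨_, rfl⟩
  obtain ⟨m, hm⟩ : ∃ m : ℤ, m = ⌊ρ * R⌋ := ⟨_, rfl⟩
  obtain ⟨a, ha⟩ : ∃ a : ℤ, a = ⌈(α + δ / 2) * n⌉ := ⟨_, rfl⟩
  obtain ⟨b, hb⟩ : ∃ b : ℤ, b = ⌊(β - δ / 2) * n⌋ := ⟨_, rfl⟩
  have hR1 : (R : ℝ) ≤ c * n := by rw [hR]; exact Int.floor_le _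
  have hR2 : c * n < R + 1 := by rw [hR]; exact Int.lt_floor_add_one _
  have hRp : 1 ≤ R := by
    rw [hR, Int.le_floor]
    push_cast
    linarith
  have hRp' : (1 : ℝ) ≤ R := by exact_mod_cast hRp
  have m1 : (m : ℝ) ≤ ρ * R := by rw [hm]; exact Int.floor_le _
  have m2 : ρ * R < m + 1 := by rw [hm]; exact Int.lt_floor_add_one _
  have hcn2 : c * n / 2 ≤ R := by linarith
  have hρcn : ρ * (c * n / 2) ≤ ρ * R := mul_le_mul_of_nonneg_left hcn2 hρ0.le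
  have hρR : 33 ≤ ρ * R := by
    have : ρ * (c * n / 2) = n * (ρ * c) / 2 := by ring
    linarith
  have hm32 : 32 ≤ m := by
    rw [hm, Int.le_floor]
    push_cast
    linarith
  have hm32' : (32 : ℝ) ≤ m := by exact_mod_cast hm32
  have hmR : 4 * m ≤ R := by
    have h1 : ρ * R ≤ 1 / 4 * R := mul_le_mul_of_nonneg_right hρ1 (by linarith)
    have : ((4 * m : ℤ) : ℝ) ≤ R := by
      push_cast
      linarith
    exact_mod_cast this
  have a1 : (α + δ / 2) * n ≤ a := by rw [ha]; exact Int.le_ceil _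
  have a2 : (a : ℝ) < (α + δ / 2) * n + 1 := by rw [ha]; exact Int.ceil_lt_add_one _
  have b1 : (b : ℝ) ≤ (β - δ / 2) * n := by rw [hb]; exact Int.floor_le _
  have b2 : (β - δ / 2) * n < b + 1 := by rw [hb]; exact Int.lt_floor_add_one _
  have hcδn : c * n ≤ δ / 512 * n := mul_le_mul_of_nonneg_right hcδ hn0
  have hαn : 0 ≤ α * n := by positivity
  have hβn : β * n ≤ n := by nlinarith
  refine ⟨R, m, a, b, hRp, hR1, hcn2, ?_, hm32, hmR, m1, by linarith, ?_, a1, b1, ?_, ?_, ?_⟩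
  · have : c * n ≤ 1 * n := mul_le_mul_of_nonneg_right hc1 hn0
    linarith
  · have : ρ * (c * n / 2) = 2 * (ρ * c / 4 * n) := by ring
    linarith
  · have : (0 : ℝ) < ((a : ℤ) : ℝ) := by linarith
    exact_mod_cast this
  · have : (b : ℝ) < ((n : ℤ) : ℝ) := by push_cast; linarith
    exact_mod_cast this
  · intro x h1 h2
    constructor
    · have : ((a + R : ℤ) : ℝ) < x + 1 := by push_cast; linarith
      have : a + R < x + 1 := by exact_mod_cast this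
      omega
    · have : (x : ℝ) < ((b - R + 1 : ℤ) : ℝ) := by push_cast; linarith
      have : x < b - R + 1 := by exact_mod_cast this
      omega

/-- **A part of a side.** -/
theorem half_flux (hQ : 0 < Q) (hN : ∀ t, NREDC Q t 8) (hS : ∀ t, StagQ Q t 8) (hL : L ≤ atTop)
    {α β δ A : ℝ} (hα : 0 ≤ α) (hβ : β ≤ 1) (hH : TrIn Q L w r α β H) (hδ : 0 < δ) (hδ1 : δ ≤ 1)
    (ψ : ℝ → ℝ) (hA : 1 ≤ A) (hψ1 : ∀ t, |ψ t| ≤ A) (hψ2 : ∀ t t', |ψ t - ψ t'| ≤ A * |t - t'|)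
    (hψ3 : ∀ t, ψ t ≠ 0 → α + δ ≤ t ∧ t ≤ β - δ) {ε : ℝ} (hε : 0 < ε) :
    ∃ r₀ > 0, ∀ h : ℝ, 0 < h → h < r₀ → ∀ᶠ n : ℕ in L,
      |(∑ x ∈ range n, ψ (x / n) * flx n w r ⌊h * n⌋₊ (H n) x) / n| ≤ ε * h := by
  obtain ⟨t, hH⟩ := hH
  obtain ⟨c1, M, hc1, hM0, hH⟩ := hH (δ / 2) (by positivity)
  -- the scale
  obtain ⟨c, hcp, hcδ, hcc⟩ : ∃ c : ℝ, 0 < c ∧ c ≤ δ / 512 ∧ c ≤ c1 :=
    ⟨min (δ / 512) c1, by positivity, min_le_left _ _, min_le_right _ _⟩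
  have hc1' : c ≤ 1 := by linarith
  have hAp : 0 < A := by linarith
  obtain ⟨ρ, ε', hρ0, hρ1, hε0, hK⟩ := tr_k hQ (hN t) (hS t) M hM0 (ε / (A * (2 / c + 1)))
    (by positivity)
  obtain ⟨c2, M', hc2, hH⟩ := hH (ρ * c / 4) ε' (by positivity) hε0
  -- the second scale
  obtain ⟨c', hc'p, hc'c, hc'2⟩ : ∃ c' : ℝ, 0 < c' ∧ c' ≤ c / 2 ∧ c' ≤ c2 :=
    ⟨min (c / 2) c2, by positivity, min_le_left _ _, min_le_right _ _⟩
  obtain ⟨κ, k0, hκ, hK⟩ := hK M' (2 * c / c')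
  refine ⟨min (κ * c' / 2) (c' / 2), by positivity, fun h hh hhr => ?_⟩
  have hhr1 : h < κ * c' / 2 := hhr.trans_le (min_le_left _ _)
  have hhr2 : h < c' / 2 := hhr.trans_le (min_le_right _ _)
  have hN1 : ∀ᶠ n : ℕ in L, max (max (max (2 / c) (2 / c')) (66 / (ρ * c)))
      (max ((k0 + 1) / h) (8 / δ)) ≤ n :=
    (eventually_atTop.2 ⟨⌈max (max (max (2 / c) (2 / c')) (66 / (ρ * c)))
      (max ((k0 + 1) / h) (8 / δ))⌉₊,
      fun n hn => (Nat.le_ceil _).trans (by exact_mod_cast hn)⟩ : ∀ᶠ n : ℕ in atTop, _).filter_mono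
      hL
  filter_upwards [hH, hN1] with n hM hn1
  rw [max_le_iff, max_le_iff, max_le_iff, max_le_iff] at hn1
  obtain ⟨⟨⟨n1, n1'⟩, n4⟩, n2, n3⟩ := hn1
  have hnp : (0 : ℝ) < n := lt_of_lt_of_le (by positivity) n1
  have hn0 : 0 < n := by exact_mod_cast hnp
  rw [div_le_iff₀ hc'p] at n1'
  rw [div_le_iff₀ hcp] at n1
  rw [div_le_iff₀ hh] at n2
  rw [div_le_iff₀ hδ] at n3
  rw [div_le_iff₀ (by positivity)] at n4
  obtain ⟨R, m, a, b, hRp, hR1, hcn2, hRn, hm32, hmR, m1, hmρ, hμm, a1, b1, ha0, hbn, hsupp⟩ :=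
    scales_n hcp hcδ hc1' hρ0 hρ1 n1 n4 n3 hα hβ hδ
  obtain ⟨k, hk⟩ : ∃ k, k = ⌊h * n⌋₊ := ⟨_, rfl⟩
  have hRp' : (1 : ℝ) ≤ R := by exact_mod_cast hRp
  have hk1 : (k : ℝ) ≤ h * n := by rw [hk]; exact Nat.floor_le (by positivity)
  have hk0 : k0 ≤ k := by
    rw [hk]
    exact Nat.le_floor (by linarith)
  obtain ⟨R', hR'⟩ : ∃ R' : ℤ, R' = ⌊c' * n⌋ := ⟨_, rfl⟩
  have hR'1 : (R' : ℝ) ≤ c' * n := by rw [hR']; exact Int.floor_le _
  have hR'2 : c' * n < R' + 1 := by rw [hR']; exact Int.lt_floor_add_one _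
  have hR'p : 1 ≤ R' := by
    rw [hR', Int.le_floor]
    push_cast
    linarith
  have hR'p' : (1 : ℝ) ≤ R' := by exact_mod_cast hR'p
  have hcn2' : c' * n / 2 ≤ R' := by linarith
  have hR'R : R' ≤ R := by
    have h3 : c' * n ≤ c / 2 * n := mul_le_mul_of_nonneg_right hc'c hnp.le
    have h4 : (R' : ℝ) ≤ R := by linarith
    exact_mod_cast h4
  have hRΛ : (R : ℝ) ≤ 2 * c / c' * R' := by
    have h3 : 2 * c / c' * (c' * n / 2) ≤ 2 * c / c' * R' :=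
      mul_le_mul_of_nonneg_left hcn2' (by positivity)
    have h4 : 2 * c / c' * (c' * n / 2) = c * n := by field_simp
    linarith
  have hkR : (k : ℝ) ≤ R' := by
    have h3 : h * n ≤ c' / 2 * n := mul_le_mul_of_nonneg_right hhr2.le hnp.le
    linarith
  have hkκ : (k : ℝ) ≤ κ * R' := by
    have h3 : h * n ≤ κ * c' / 2 * n := mul_le_mul_of_nonneg_right hhr1.le hnp.le
    have h5 : κ * (c' * n / 2) ≤ κ * R' := mul_le_mul_of_nonneg_left hcn2' hκ.le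
    linarith
  -- the sum over the interval
  obtain ⟨g, hg⟩ : ∃ g : ℤ → ℝ, g = flx n w r k (H n) := ⟨_, rfl⟩
  have hsum : ∑ x ∈ range n, ψ (x / n) * flx n w r k (H n) x =
      ∑ x ∈ Icc a b, ψ (x / n) * g x := by
    rw [hg]
    have := sum_range_Icc (n := n) (a := a) (b := b) ha0.le hbn
      (fun x => ψ (x / n) * flx n w r k (H n) x)
      (fun x hx => by
        obtain ⟨h3, h4⟩ := hψ3 _ (left_ne_zero_of_mul hx)
        rw [le_div_iff₀ hnp] at h3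
        rw [div_le_iff₀ hnp] at h4
        have h5 := hsupp x h3 h4
        omega)
    refine (sum_congr rfl fun x _ => ?_).trans this
    rw [Int.cast_natCast]
  rw [← hk, hsum, abs_div, abs_of_pos hnp, div_le_iff₀ hnp]
  rcases lt_or_ge b a with hab | hab
  · rw [Icc_eq_empty (by omega), sum_empty, abs_zero]
    positivity
  obtain ⟨j, hT⟩ := hM R R' m k hR'p hR'R (hR1.trans (mul_le_mul_of_nonneg_right hcc hnp.le))
    (hR'1.trans (mul_le_mul_of_nonneg_right hc'2 hnp.le)) hkR hμm hm32 hmR a b hab a1 b1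
  have hfin := hK R R' m k hk0 hkκ hR'p hR'R hRΛ hm32 hmR m1 hmρ _
    (fun x => ψ (((x + j : ℤ) : ℝ) / n) / A) (a - j) (b - j) (by omega) hT
    (fun x => by
      rw [abs_div, abs_of_pos hAp, div_le_one hAp]
      exact hψ1 _)
    (fun x x' => by
      rw [← sub_div, abs_div, abs_of_pos hAp, div_le_iff₀ hAp]
      refine (hψ2 _ _).trans ?_
      rw [← sub_div, abs_div, abs_of_pos hnp, mul_comm A]
      refine mul_le_mul_of_nonneg_right ?_ hAp.le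
      have e : ((x + j : ℤ) : ℝ) - ((x' + j : ℤ) : ℝ) = x - x' := by push_cast; ring
      rw [e]
      exact div_le_div_of_nonneg_left (abs_nonneg _) (by linarith) hRn)
    (fun x hx => by
      obtain ⟨h3, h4⟩ := hψ3 _ fun h0 => hx (by rw [h0, zero_div])
      rw [le_div_iff₀ hnp] at h3
      rw [div_le_iff₀ hnp] at h4
      have := hsupp (x + j) h3 h4
      omega)
  rw [← hg, sum_add_Icc a b j fun x => ψ ((x : ℝ) / n) / A * g x,
    show b - j - (a - j) = b - a by ring] at hfin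
  have h3 : ((b - a : ℤ) : ℝ) / R + 1 ≤ 2 / c + 1 := by
    have h4 : ((b - a : ℤ) : ℝ) ≤ n := by
      have : b - a ≤ n := by omega
      exact_mod_cast this
    have h5 : ((b - a : ℤ) : ℝ) / R ≤ 2 / c := by
      rw [div_le_div_iff₀ (by linarith) hcp]
      have h6 : ((b - a : ℤ) : ℝ) * c ≤ n * c := mul_le_mul_of_nonneg_right h4 hcp.le
      linarith
    linarith
  have h5 : (0 : ℝ) ≤ ((b - a : ℤ) : ℝ) / R + 1 := by
    have : (0 : ℝ) ≤ ((b - a : ℤ) : ℝ) := by exact_mod_cast (by omega : 0 ≤ b - a)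
    positivity
  have hfac : ∑ x ∈ Icc a b, ψ (x / n) * g x = A * ∑ x ∈ Icc a b, ψ (x / n) / A * g x := by
    rw [mul_sum]
    refine sum_congr rfl fun x _ => ?_
    field_simp
  rw [hfac, abs_mul, abs_of_pos hAp]
  refine (mul_le_mul_of_nonneg_left hfin hAp.le).trans ?_
  have h6 : ε / (A * (2 / c + 1)) * k * (((b - a : ℤ) : ℝ) / R + 1) ≤
      ε / (A * (2 / c + 1)) * (h * n) * (2 / c + 1) := by
    gcongr
  refine (mul_le_mul_of_nonneg_left h6 hAp.le).trans (le_of_eq ?_)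
  have : 0 < 2 / c + 1 := by positivity
  field_simp

/-- **The averaged Neumann condition of a function.** -/
theorem neuH (hQ : 0 < Q) (hN : ∀ t, NREDC Q t 8) (hS : ∀ t, StagQ Q t 8) (hL : L ≤ atTop) {tp : ℝ}
    (h0 : 0 < tp)
    (h1 : tp < 1) (hH1 : TrIn Q L w r 0 tp H) (hH2 : TrIn Q L w r tp 1 H) (φ : ℝ → ℝ)
    (hφ : ContDiff ℝ ∞ φ) (hs : tsupport φ ⊆ Set.Ioo 0 1 \ {tp}) (ε : ℝ) (hε : 0 < ε) :
    ∃ r₀ > 0, ∀ h : ℝ, 0 < h → h < r₀ → ∀ᶠ n : ℕ in L,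
      |(∑ x ∈ range n, φ (x / n) * flx n w r ⌊h * n⌋₊ (H n) x) / n| ≤ ε * h := by
  obtain ⟨δ, A, hδ, hδ1, hA, hφ1, hφ2, hφ3⟩ := exists_margin hφ hs
  -- the two halves
  obtain ⟨φa, hφa⟩ : ∃ φa : ℝ → ℝ, φa = fun t => if t < tp then φ t else 0 := ⟨_, rfl⟩
  obtain ⟨φb, hφb⟩ : ∃ φb : ℝ → ℝ, φb = fun t => if t < tp then 0 else φ t := ⟨_, rfl⟩
  have hz : φ tp = 0 := by
    by_contra h
    have := (hφ3 _ h).2.2
    rw [sub_self, abs_zero] at this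
    linarith
  obtain ⟨r1, hr1, H1⟩ := half_flux hQ hN hS hL le_rfl h1.le hH1
    hδ hδ1 φa hA (fun t => by
      simp only [hφa]
      split_ifs
      · exact hφ1 t
      · rw [abs_zero]; linarith)
    (fun t t' => by
      have hA0 : 0 ≤ A := by linarith
      simp only [hφa]
      split_ifs with e1 e2 e2
      · exact hφ2 _ _
      · rw [sub_zero]
        have h3 := hφ2 t tp
        rw [hz, sub_zero] at h3
        refine h3.trans (mul_le_mul_of_nonneg_left ?_ hA0)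
        rw [abs_of_nonpos (by linarith), abs_of_nonpos (by linarith)]
        linarith
      · rw [zero_sub, abs_neg]
        have h3 := hφ2 t' tp
        rw [hz, sub_zero] at h3
        refine h3.trans (mul_le_mul_of_nonneg_left ?_ hA0)
        rw [abs_of_nonpos (by linarith), abs_of_nonneg (by linarith)]
        linarith
      · rw [sub_self, abs_zero]; positivity)
    (fun t ht => by
      simp only [hφa] at ht
      split_ifs at ht with e1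
      · obtain ⟨h3, h4, h5⟩ := hφ3 t ht
        rw [abs_of_neg (by linarith)] at h5
        exact ⟨by linarith, by linarith⟩
      · exact absurd rfl ht) (half_pos hε)
  obtain ⟨r2, hr2, H2⟩ := half_flux hQ hN hS hL h0.le le_rfl hH2
    hδ hδ1 φb hA (fun t => by
      simp only [hφb]
      split_ifs
      · rw [abs_zero]; linarith
      · exact hφ1 t)
    (fun t t' => by
      have hA0 : 0 ≤ A := by linarith
      simp only [hφb]
      split_ifs with e1 e2 e2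
      · rw [sub_self, abs_zero]; positivity
      · rw [zero_sub, abs_neg]
        have h3 := hφ2 t' tp
        rw [hz, sub_zero] at h3
        refine h3.trans (mul_le_mul_of_nonneg_left ?_ hA0)
        rw [abs_of_nonneg (by linarith), abs_of_nonpos (by linarith)]
        linarith
      · rw [sub_zero]
        have h3 := hφ2 t tp
        rw [hz, sub_zero] at h3
        refine h3.trans (mul_le_mul_of_nonneg_left ?_ hA0)
        rw [abs_of_nonneg (by linarith), abs_of_nonneg (by linarith)]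
        linarith
      · exact hφ2 _ _)
    (fun t ht => by
      simp only [hφb] at ht
      split_ifs at ht with e1
      · exact absurd rfl ht
      · obtain ⟨h3, h4, h5⟩ := hφ3 t ht
        rw [abs_of_nonneg (by linarith)] at h5
        exact ⟨by linarith, by linarith⟩) (half_pos hε)
  refine ⟨min r1 r2, lt_min hr1 hr2, fun h hh hhr => ?_⟩
  filter_upwards [H1 h hh (hhr.trans_le (min_le_left _ _)),
    H2 h hh (hhr.trans_le (min_le_right _ _))] with n hn1 hn2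
  have hsplit : ∀ G : ℕ → ℝ, (∑ x ∈ range n, φ (x / n) * G x) / n =
      (∑ x ∈ range n, φa (x / n) * G x) / n + (∑ x ∈ range n, φb (x / n) * G x) / n := by
    intro G
    rw [← add_div, ← sum_add_distrib]
    congr 1
    refine sum_congr rfl fun x _ => ?_
    simp only [hφa, hφb]
    split_ifs <;> ring
  rw [hsplit]
  refine (abs_add_le _ _).trans ?_
  linarith

/-- The local input at all sides. -/
def TrAll (Q : ℝ) (S : CA.Dat) (L : Filter ℕ) (H : ℕ → ℤ × ℤ → ℝ) : Prop :=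
  ∀ (w : ℤ × ℤ) (r : Fin 4), E6.face w r ∈ S.Q → E6.face w (r - 1) ∉ S.Q →
    TrIn Q L w r 0 S.tp H ∧ TrIn Q L w r S.tp 1 H

/-- **The averaged Neumann condition from the local input of the transfer.** -/
theorem neuh_of_tr {S : CA.Dat} (hQ : 0 < Q) (hN : ∀ t, NREDC Q t 8) (hS : ∀ t, StagQ Q t 8)
    (hL : L ≤ atTop) (hT : TrAll Q S L H) : NeuH S L H :=
  fun w r h1 h2 φ hφ hs ε hε => neuH hQ hN hS hL S.tp0 S.tp1 (hT w r h1 h2).1 (hT w r h1 h2).2 φ hφ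
    hs ε hε

end Vale.Agent.P167.N.H955
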