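import Vale.Agent.P167.H562.Q.MQ3
import Vale.Agent.P167.H167.Q.JunMix

/-!
# P167, `0 < q < 1`: closeness of the means of two functionals which differ near some boundary points

`X` natural, `X'` modified near the points `x i`. `T i`: the local factor, `T' i`: a majorant of the
local factor which is local in a much smaller box. Off the arm events `𝓐 i` one has
`X' = (∏ T i) X`, off the arm events `𝓑 i` the function `X` does not read the boxes. Then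
`E X'` is close to `∏ E (T i) * E X`.
-/

set_option autoImplicit false

namespace Vale.Agent.P167.N.H955

open Finset Vale.Agent.P167 Vale.Agent.P167.BR Vale.Agent.P167.FK Vale.Agent.P167.FKA
open Vale.Agent.P167.H167.Q (MxA)
open Vale.Agent.P167.H259 (f_markov)
open Vale.Agent.P167.H562.QM (ex_cs)

variable {Q ε p C : ℝ} {D : Finset (ℤ × ℤ)} {η : Cfg} {x : ℤ × ℤ} {r R : ℤ} {F G : Cfg → ℝ}

/-- Mixing: nonnegative functions of the box of radius `r`, any functions off the box of radius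
`R`. -/
def MixAt (Q : ℝ) (D : Finset (ℤ × ℤ)) (η : Cfg) (x : ℤ × ℤ) (r R : ℤ) (ε : ℝ) : Prop :=
  ∀ F G : Cfg → ℝ, (∀ ω, 0 ≤ F ω) → Loc (Bq x r ∩ D) F → Ind (Bq x R ∩ D) G →
    |Ex Q D η (fun ω => G ω * F ω) - Ex Q D η G * Ex Q D η F| ≤
      ε * (Ex Q D η (fun ω => |G ω|) * Ex Q D η F)

theorem close_of' {a b : ℝ} (h1 : a ≤ (1 + ε) * b) (h2 : b ≤ (1 + ε) * a) (hε : 0 ≤ ε) :
    |a - b| ≤ ε * b := by
  rw [abs_le]
  constructor
  · rcases le_total a b with h | h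
    · nlinarith
    · nlinarith
  · linarith

/-- From the ratio mixing `MxA` in the box. -/
theorem mixAt_of (hQ0 : 0 < Q) (hε : 0 ≤ ε) (h : MxA Q D η x r R ε) (hη : Good η) :
    MixAt Q D η x r R ε := by
  intro F G hF0 hF hG
  have hcf : ∀ S : Finset (ℤ × ℤ), ∀ v ∈ Bq x R, v ∉ D → cf D η S v = η v := by
    intro S v _ hvD
    rw [cf_out hvD]
  have key : ∀ S, |Ex Q (Bq x R ∩ D) (cf D η S) F - Ex Q D η F| ≤ ε * Ex Q D η F := by
    intro S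
    refine close_of' ?_ ?_ hε
    · rw [f_markov Q _ D η F hQ0 Finset.inter_subset_right hη, ← Ex_mul_left,
        ← Ex_const (Q := Q) (D := D) (η := η) hQ0 (Ex Q (Bq x R ∩ D) (cf D η S) F)]
      exact Ex_mono hQ0 fun S' _ => h _ _ (f_good.1 _ _ _ hη) (f_good.1 _ _ _ hη) (hcf S) (hcf S') F
        hF0 hF
    · rw [f_markov Q _ D η F hQ0 Finset.inter_subset_right hη,
        ← Ex_const (Q := Q) (D := D) (η := η) hQ0 ((1 + ε) * Ex Q (Bq x R ∩ D) (cf D η S) F)]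
      exact Ex_mono hQ0 fun S' _ => h _ _ (f_good.1 _ _ _ hη) (f_good.1 _ _ _ hη) (hcf S') (hcf S) F
        hF0 hF
  have e0 : Ex Q D η G * Ex Q D η F = Ex Q D η (fun ω => Ex Q D η F * G ω) := by
    rw [Ex_mul_left, mul_comm]
  rw [markov f_markov hQ0 (A := Bq x R ∩ D) Finset.inter_subset_right hη hG, e0, ← Ex_sub]
  refine (abs_Ex_le hQ0 _).trans ?_
  have e : ε * (Ex Q D η (fun ω => |G ω|) * Ex Q D η F) =
      Ex Q D η (fun ω => (ε * Ex Q D η F) * |G ω|) := by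
    rw [Ex_mul_left]; ring
  rw [e]
  refine Ex_mono hQ0 fun S _ => ?_
  have e1 : G (cf D η S) * Ex Q (Bq x R ∩ D) (cf D η S) F - Ex Q D η F * G (cf D η S) =
      (Ex Q (Bq x R ∩ D) (cf D η S) F - Ex Q D η F) * G (cf D η S) := by ring
  rw [e1, abs_mul]
  exact mul_le_mul_of_nonneg_right (key S) (abs_nonneg _)

section multi

variable {ι : Type*} {I : Finset ι} {z : ι → ℤ × ℤ} {T T' : ι → Cfg → ℝ}

theorem prod_nn (hT0 : ∀ i ∈ I, ∀ ω, 0 ≤ T i ω) (ω : Cfg) : 0 ≤ ∏ i ∈ I, T i ω :=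
  prod_nonneg fun i hi => hT0 i hi ω

theorem prod_ex_nn (hQ : 0 < Q) (hT0 : ∀ i ∈ I, ∀ ω, 0 ≤ T i ω) : 0 ≤ ∏ i ∈ I, Ex Q D η (T i) :=
  prod_nonneg fun i hi => Ex_nonneg hQ fun _ _ => hT0 i hi _

/-- **Mixing at several points.** -/
theorem mix_prod [DecidableEq ι] (hQ : 0 < Q) (hε : 0 ≤ ε) (I : Finset ι)
    (hT0 : ∀ i ∈ I, ∀ ω, 0 ≤ T i ω) (hTl : ∀ i ∈ I, Loc (Bq (z i) r ∩ D) (T i))
    (hrR : r ≤ R) (hd : ∀ i ∈ I, ∀ j ∈ I, i ≠ j → ∀ v ∈ Bq (z i) r, v ∉ Bq (z j) R)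
    (hM : ∀ i ∈ I, MixAt Q D η (z i) r R ε) (G : Cfg → ℝ)
    (hG : Loc (D \ I.biUnion fun i => Bq (z i) R) G) :
    |Ex Q D η (fun ω => (∏ i ∈ I, T i ω) * G ω) - (∏ i ∈ I, Ex Q D η (T i)) * Ex Q D η G| ≤
      ((1 + ε) ^ I.card - 1) * ((∏ i ∈ I, Ex Q D η (T i)) * Ex Q D η fun ω => |G ω|) := by
  induction I using Finset.induction_on generalizing G with
  | empty => simp
  | insert a I ha ih =>
    have hT0' : ∀ i ∈ I, ∀ ω, 0 ≤ T i ω := fun i hi => hT0 i (mem_insert_of_mem hi)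
    have ih' := ih hT0' (fun i hi => hTl i (mem_insert_of_mem hi))
      (fun i hi j hj => hd i (mem_insert_of_mem hi) j (mem_insert_of_mem hj))
      (fun i hi => hM i (mem_insert_of_mem hi))
    -- the product over `I` times `G` does not read the box of `a`
    have hIa : ∀ i ∈ I, i ≠ a := fun i hi h => ha (h ▸ hi)
    have hGI : Loc (D \ I.biUnion fun i => Bq (z i) R) G := by
      refine fun ω ω' h => hG ω ω' fun v hv => h v ?_
      rw [mem_sdiff] at hv ⊢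
      exact ⟨hv.1, fun h' => hv.2 (by
        rw [mem_biUnion] at h' ⊢
        obtain ⟨i, hi, h'⟩ := h'
        exact ⟨i, mem_insert_of_mem hi, h'⟩)⟩
    have hind : ∀ H : Cfg → ℝ, Loc (D \ (insert a I).biUnion fun i => Bq (z i) R) H →
        Ind (Bq (z a) R ∩ D) (fun ω => (∏ i ∈ I, T i ω) * H ω) := by
      intro H hH ω ω' h
      have e1 : ∏ i ∈ I, T i ω = ∏ i ∈ I, T i ω' := by
        refine prod_congr rfl fun i hi => hTl i (mem_insert_of_mem hi) ω ω' fun v hv => h v ?_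
        intro h'
        exact hd i (mem_insert_of_mem hi) a (mem_insert_self a I) (hIa i hi) v
          (mem_inter.1 hv).1 (mem_inter.1 h').1
      have e2 : H ω = H ω' := hH ω ω' fun v hv => h v fun h' => (mem_sdiff.1 hv).2 (by
        rw [mem_biUnion]
        exact ⟨a, mem_insert_self a I, (mem_inter.1 h').1⟩)
      show (∏ i ∈ I, T i ω) * H ω = (∏ i ∈ I, T i ω') * H ω'
      rw [e1, e2]
    have hGa : Loc (D \ (insert a I).biUnion fun i => Bq (z i) R) G := hG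
    have hGabs : Loc (D \ (insert a I).biUnion fun i => Bq (z i) R) (fun ω => |G ω|) :=
      fun ω ω' h => by simp only [hG ω ω' h]
    have m1 := hM a (mem_insert_self a I) (T a) _ (hT0 a (mem_insert_self a I))
      (hTl a (mem_insert_self a I)) (hind G hGa)
    have e1 : (fun ω => (∏ i ∈ insert a I, T i ω) * G ω) =
        fun ω => (∏ i ∈ I, T i ω) * G ω * T a ω := by
      funext ω
      rw [prod_insert ha]; ring
    have e2 : ∀ ω, |(∏ i ∈ I, T i ω) * G ω| = (∏ i ∈ I, T i ω) * |G ω| := fun ω => by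
      rw [abs_mul, abs_of_nonneg (prod_nn hT0' ω)]
    rw [e1, prod_insert ha, card_insert_of_notMem ha, pow_succ]
    simp only [e2] at m1
    have i1 := ih' G hGI
    have i2 := ih' (fun ω => |G ω|) (fun ω ω' h => by simp only [hGI ω ω' h])
    simp only [abs_abs] at i2
    obtain ⟨A, hA⟩ : ∃ A, A = Ex Q D η fun ω => (∏ i ∈ I, T i ω) * G ω := ⟨_, rfl⟩
    obtain ⟨B, hB⟩ : ∃ B, B = Ex Q D η fun ω => (∏ i ∈ I, T i ω) * |G ω| := ⟨_, rfl⟩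
    obtain ⟨P, hP⟩ : ∃ P, P = ∏ i ∈ I, Ex Q D η (T i) := ⟨_, rfl⟩
    obtain ⟨t, ht⟩ : ∃ t, t = Ex Q D η (T a) := ⟨_, rfl⟩
    obtain ⟨g, hg⟩ : ∃ g, g = Ex Q D η G := ⟨_, rfl⟩
    obtain ⟨g', hg'⟩ : ∃ g', g' = Ex Q D η fun ω => |G ω| := ⟨_, rfl⟩
    obtain ⟨e, he⟩ : ∃ e, e = (1 + ε) ^ I.card := ⟨_, rfl⟩
    have hP0 : 0 ≤ P := by rw [hP]; exact prod_ex_nn hQ hT0'
    have ht0 : 0 ≤ t := by
      rw [ht]; exact Ex_nonneg hQ fun _ _ => hT0 a (mem_insert_self a I) _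
    have hg0 : 0 ≤ g' := by rw [hg']; exact Ex_nonneg hQ fun _ _ => abs_nonneg _
    rw [← hA, ← hB, ← ht] at m1
    rw [← hA, ← hP, ← hg, ← hg', ← he] at i1
    rw [← hB, ← hP, ← hg', ← he] at i2
    rw [← ht, ← hP, ← hg, ← hg', ← he]
    have hB' : B ≤ e * (P * g') := by
      have := (abs_le.1 i2).2
      nlinarith
    have k1 : Ex Q D η (fun ω => (∏ i ∈ I, T i ω) * G ω * T a ω) - t * P * g =
        (Ex Q D η (fun ω => (∏ i ∈ I, T i ω) * G ω * T a ω) - A * t) + t * (A - P * g) := by ring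
    rw [k1]
    refine (abs_add_le _ _).trans ?_
    rw [abs_mul, abs_of_nonneg ht0]
    have k2 : t * |A - P * g| ≤ t * ((e - 1) * (P * g')) := mul_le_mul_of_nonneg_left i1 ht0
    have k3 : ε * (B * t) ≤ ε * (e * (P * g') * t) :=
      mul_le_mul_of_nonneg_left (mul_le_mul_of_nonneg_right hB' ht0) hε
    nlinarith

/-- The mean of a function on the union of some events, by the Cauchy-Schwarz inequality. -/
theorem arm_cs (hQ : 0 < Q) {P Y : Cfg → ℝ} (hP0 : ∀ ω, 0 ≤ P ω) {𝓐 : Set Cfg} (hC : 0 ≤ C)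
    (hp : 0 ≤ p) (hY : Ex Q D η (fun ω => P ω * Y ω ^ 2) ≤ C * Ex Q D η P)
    (hA : Ex Q D η (fun ω => P ω * 𝓐.indicator 1 ω) ≤ p * Ex Q D η P) :
    Ex Q D η (fun ω => P ω * (Y ω * 𝓐.indicator 1 ω)) ≤ Real.sqrt C * Real.sqrt p * Ex Q D η P := by
  have hE : 0 ≤ Ex Q D η P := Ex_nonneg hQ fun _ _ => hP0 _
  refine ex_cs hQ hP0 (Real.sqrt_nonneg _) (Real.sqrt_nonneg _) hE ?_ ?_
  · rw [Real.sq_sqrt hC]
    exact hY
  · rw [Real.sq_sqrt hp]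
    refine le_trans (le_of_eq ?_) hA
    congr 1
    funext ω
    congr 1
    by_cases h : ω ∈ 𝓐
    · rw [Set.indicator_of_mem h]; simp
    · rw [Set.indicator_of_notMem h]; simp

open Classical in
/-- The sum over the events. -/
theorem ind_union {𝓐 : ι → Set Cfg} {ω : Cfg} (h : ∃ i ∈ I, ω ∈ 𝓐 i) :
    (1 : ℝ) ≤ ∑ i ∈ I, (𝓐 i).indicator 1 ω := by
  obtain ⟨i, hi, h⟩ := h
  have h1 : (𝓐 i).indicator (1 : Cfg → ℝ) ω = 1 := by
    rw [Set.indicator_of_mem h]; rfl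
  rw [← h1]
  exact single_le_sum (f := fun i => (𝓐 i).indicator (1 : Cfg → ℝ) ω)
    (fun j _ => Set.indicator_nonneg (fun _ _ => zero_le_one) _) hi

/-- A bounded error on the union of the events. -/
theorem err_arm (hQ : 0 < Q) {P Y Z : Cfg → ℝ} (hP0 : ∀ ω, 0 ≤ P ω) (hY0 : ∀ ω, 0 ≤ Y ω)
    {𝓐 : ι → Set Cfg} (hC : 0 ≤ C) (hp : 0 ≤ p)
    (hY : Ex Q D η (fun ω => P ω * Y ω ^ 2) ≤ C * Ex Q D η P)
    (hA : ∀ i ∈ I, Ex Q D η (fun ω => P ω * (𝓐 i).indicator 1 ω) ≤ p * Ex Q D η P)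
    (hZ1 : ∀ ω, (∀ i ∈ I, ω ∉ 𝓐 i) → Z ω = 0) {a : ℝ} (ha : 0 ≤ a)
    (hZ2 : ∀ ω, |Z ω| ≤ a * (P ω * Y ω)) :
    |Ex Q D η Z| ≤ a * (I.card * (Real.sqrt C * Real.sqrt p * Ex Q D η P)) := by
  refine (abs_Ex_le hQ _).trans ?_
  have h1 : ∀ ω, |Z ω| ≤ ∑ i ∈ I, a * (P ω * (Y ω * (𝓐 i).indicator 1 ω)) := by
    intro ω
    have e : ∑ i ∈ I, a * (P ω * (Y ω * (𝓐 i).indicator 1 ω)) =
        (a * (P ω * Y ω)) * ∑ i ∈ I, (𝓐 i).indicator 1 ω := by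
      rw [mul_sum]
      exact sum_congr rfl fun i _ => by ring
    rw [e]
    have h0 : 0 ≤ a * (P ω * Y ω) := mul_nonneg ha (mul_nonneg (hP0 _) (hY0 _))
    by_cases h : ∃ i ∈ I, ω ∈ 𝓐 i
    · exact (hZ2 ω).trans (le_mul_of_one_le_right h0 (ind_union h))
    · push Not at h
      rw [hZ1 ω h, abs_zero]
      exact mul_nonneg h0 (sum_nonneg fun i _ => Set.indicator_nonneg (fun _ _ => zero_le_one) _)
  have h2 : Ex Q D η (fun ω => |Z ω|) ≤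
      Ex Q D η (fun ω => ∑ i ∈ I, a * (P ω * (Y ω * (𝓐 i).indicator 1 ω))) :=
    Ex_mono hQ fun S _ => h1 _
  refine h2.trans ?_
  rw [Ex_sum]
  have h3 : ∀ i ∈ I, Ex Q D η (fun ω => a * (P ω * (Y ω * (𝓐 i).indicator 1 ω))) ≤
      a * (Real.sqrt C * Real.sqrt p * Ex Q D η P) := fun i hi => by
    rw [Ex_mul_left]
    exact mul_le_mul_of_nonneg_left (arm_cs hQ hP0 hC hp hY (hA i hi)) ha
  refine (sum_le_sum h3).trans (le_of_eq ?_)
  rw [sum_const, nsmul_eq_mul]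
  ring

/-- The local data: local factors `T`, their majorants `T'`, arm events `𝓐` (inner) and `𝓑`
(outer), mixing between the radii `r` and `R`. -/
structure CloH (Q : ℝ) (D : Finset (ℤ × ℤ)) (η : Cfg) (I : Finset ι) (z : ι → ℤ × ℤ)
    (T T' : ι → Cfg → ℝ) (r R : ℤ) (𝓐 𝓑 : ι → Set Cfg) (A p ε : ℝ) : Prop where
  A1 : 1 ≤ A
  p0 : 0 ≤ p
  ε0 : 0 ≤ ε
  rR : r ≤ R
  T0 : ∀ i ∈ I, ∀ ω, 0 ≤ T i ω
  TT : ∀ i ∈ I, ∀ ω, T i ω ≤ A * T' i ω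
  loc : ∀ i ∈ I, Loc (Bq (z i) r ∩ D) (T i)
  far : ∀ i ∈ I, ∀ j ∈ I, i ≠ j → ∀ v ∈ Bq (z i) r, v ∉ Bq (z j) R
  mix : ∀ i ∈ I, MixAt Q D η (z i) r R ε
  armA : ∀ i ∈ I, Ex Q D η (fun ω => (∏ j ∈ I, T' j ω) * (𝓐 i).indicator 1 ω) ≤
    p * Ex Q D η fun ω => ∏ j ∈ I, T' j ω
  armB : ∀ i ∈ I, Ex Q D η (fun ω => (∏ j ∈ I, T' j ω) * (𝓑 i).indicator 1 ω) ≤
    p * Ex Q D η fun ω => ∏ j ∈ I, T' j ω
  armB1 : ∀ i ∈ I, Ex Q D η (fun ω => (𝓑 i).indicator 1 ω) ≤ p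

theorem CloH.T'0 {𝓐 𝓑 : ι → Set Cfg} {A : ℝ} (h : CloH Q D η I z T T' r R 𝓐 𝓑 A p ε) {i : ι}
    (hi : i ∈ I) (ω : Cfg) : 0 ≤ T' i ω := by
  have h1 := (h.T0 i hi ω).trans (h.TT i hi ω)
  by_contra hcon
  push Not at hcon
  have := h.A1
  nlinarith

/-- **Closeness of the means.** -/
theorem clo_abs [DecidableEq ι] (hQ : 0 < Q) {𝓐 𝓑 : ι → Set Cfg} {A : ℝ}
    (h : CloH Q D η I z T T' r R 𝓐 𝓑 A p ε) {X X' Y : Cfg → ℝ} (hC : 0 ≤ C)
    (hX' : ∀ ω, |X' ω| ≤ (∏ i ∈ I, T' i ω) * Y ω) (hX : ∀ ω, |X ω| ≤ Y ω)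
    (hY : Ex Q D η (fun ω => (∏ i ∈ I, T' i ω) * Y ω ^ 2) ≤
      C * Ex Q D η fun ω => ∏ i ∈ I, T' i ω)
    (hY1 : Ex Q D η (fun ω => Y ω ^ 2) ≤ C)
    (h1 : ∀ ω, (∀ i ∈ I, ω ∉ 𝓐 i) → X' ω = (∏ i ∈ I, T i ω) * X ω)
    (h2 : Loc (D \ I.biUnion fun i => Bq (z i) R)
      (fun ω => X ω * {ω | ∀ i ∈ I, ω ∉ 𝓑 i}.indicator 1 ω)) :
    |Ex Q D η X' - (∏ i ∈ I, Ex Q D η (T i)) * Ex Q D η X| ≤
      (1 + 2 * A ^ I.card) * (I.card * (Real.sqrt C * Real.sqrt p *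
        Ex Q D η fun ω => ∏ i ∈ I, T' i ω)) +
      (∏ i ∈ I, Ex Q D η (T i)) * (((1 + ε) ^ I.card - 1) * Real.sqrt C +
        I.card * (Real.sqrt C * Real.sqrt p)) := by
  have hY0 : ∀ ω, 0 ≤ Y ω := fun ω => (abs_nonneg _).trans (hX ω)
  have hP0 : ∀ ω, 0 ≤ ∏ i ∈ I, T' i ω := fun ω => prod_nonneg fun i hi => h.T'0 hi ω
  have hT0 : ∀ ω, 0 ≤ ∏ i ∈ I, T i ω := fun ω => prod_nn h.T0 ω
  have hA0 : 0 ≤ A ^ I.card := pow_nonneg (by linarith [h.A1]) _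
  have hTT : ∀ ω, ∏ i ∈ I, T i ω ≤ A ^ I.card * ∏ i ∈ I, T' i ω := fun ω => by
    rw [← prod_const, ← prod_mul_distrib]
    exact prod_le_prod (fun i hi => h.T0 i hi ω) fun i hi => h.TT i hi ω
  obtain ⟨G, hG⟩ : ∃ G : Cfg → ℝ, G = fun ω => X ω * {ω | ∀ i ∈ I, ω ∉ 𝓑 i}.indicator 1 ω :=
    ⟨_, rfl⟩
  have hGX : ∀ ω, |G ω| ≤ Y ω := fun ω => by
    rw [hG]
    show |X ω * _| ≤ _
    by_cases hω : ω ∈ {ω | ∀ i ∈ I, ω ∉ 𝓑 i}
    · rw [Set.indicator_of_mem hω]; simpa using hX ω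
    · rw [Set.indicator_of_notMem hω]; simpa using hY0 ω
  have hGn : ∀ ω, (∀ i ∈ I, ω ∉ 𝓑 i) → X ω - G ω = 0 := fun ω hω => by
    rw [hG]
    show X ω - X ω * _ = 0
    rw [Set.indicator_of_mem (show ω ∈ {ω | ∀ i ∈ I, ω ∉ 𝓑 i} from hω)]
    simp
  have hGd : ∀ ω, |X ω - G ω| ≤ Y ω := fun ω => by
    rw [hG]
    show |X ω - X ω * _| ≤ _
    by_cases hω : ω ∈ {ω | ∀ i ∈ I, ω ∉ 𝓑 i}
    · rw [Set.indicator_of_mem hω]; simpa using hY0 ω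
    · rw [Set.indicator_of_notMem hω]; simpa using hX ω
  -- the three errors
  have z1 := err_arm hQ (I := I) (Z := fun ω => X' ω - (∏ i ∈ I, T i ω) * X ω) hP0 hY0 hC h.p0 hY
    h.armA (fun ω hω => by rw [h1 ω hω]; ring) (a := 1 + A ^ I.card) (by linarith) (fun ω => by
      refine (abs_sub _ _).trans ?_
      rw [add_mul, one_mul]
      refine add_le_add (hX' ω) ?_
      rw [abs_mul, abs_of_nonneg (hT0 ω), ← mul_assoc]
      exact mul_le_mul (hTT ω) (hX ω) (abs_nonneg _) (mul_nonneg hA0 (hP0 ω)))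
  have z2 := err_arm hQ (I := I) (Z := fun ω => (∏ i ∈ I, T i ω) * (X ω - G ω)) hP0 hY0 hC h.p0 hY
    h.armB (fun ω hω => by rw [hGn ω hω, mul_zero]) (a := A ^ I.card) hA0 (fun ω => by
      rw [abs_mul, abs_of_nonneg (hT0 ω), ← mul_assoc]
      exact mul_le_mul (hTT ω) (hGd ω) (abs_nonneg _) (mul_nonneg hA0 (hP0 ω)))
  have z3 := err_arm hQ (I := I) (Z := fun ω => X ω - G ω) (P := fun _ => 1)
    (fun _ => zero_le_one) hY0 hC h.p0 (by rw [Ex_const hQ, mul_one]; simpa using hY1)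
    (fun i hi => by rw [Ex_const hQ, mul_one]; simpa using h.armB1 i hi) hGn (a := 1) zero_le_one
    (fun ω => by rw [one_mul, one_mul]; exact hGd ω)
  rw [Ex_const hQ, mul_one, one_mul] at z3
  rw [Ex_sub] at z1 z3
  have e2 : Ex Q D η (fun ω => (∏ i ∈ I, T i ω) * (X ω - G ω)) =
      Ex Q D η (fun ω => (∏ i ∈ I, T i ω) * X ω) -
      Ex Q D η (fun ω => (∏ i ∈ I, T i ω) * G ω) := by
    rw [← Ex_sub]
    congr 1
    funext ω
    ring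
  rw [e2] at z2
  have z4 := mix_prod hQ h.ε0 I h.T0 h.loc h.rR h.far h.mix G (by rw [hG]; exact h2)
  have hGY : Ex Q D η (fun ω => |G ω|) ≤ Real.sqrt C := by
    refine (Ex_mono hQ fun S _ => hGX _).trans ?_
    have h5 := ex_cs (Q := Q) (D := D) (η := η) hQ (G := fun _ => 1) (F1 := Y) (F2 := fun _ => 1)
      (fun _ => zero_le_one) (Real.sqrt_nonneg C) zero_le_one (E := 1) zero_le_one
      (by rw [Real.sq_sqrt hC, mul_one]; simpa using hY1)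
      (by simp only [one_pow, mul_one]; rw [Ex_const hQ])
    simpa using h5
  obtain ⟨τ, hτ⟩ : ∃ τ, τ = ∏ i ∈ I, Ex Q D η (T i) := ⟨_, rfl⟩
  have hτ0 : 0 ≤ τ := by rw [hτ]; exact prod_ex_nn hQ h.T0
  rw [← hτ] at z4 ⊢
  have he : 0 ≤ (1 + ε) ^ I.card - 1 := by
    have := one_le_pow₀ (by linarith [h.ε0] : 1 ≤ 1 + ε) (n := I.card)
    linarith
  have z4' : ((1 + ε) ^ I.card - 1) * (τ * Ex Q D η fun ω => |G ω|) ≤
      τ * (((1 + ε) ^ I.card - 1) * Real.sqrt C) := by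
    have := mul_le_mul_of_nonneg_left hGY (mul_nonneg he hτ0)
    nlinarith
  have z3' : |τ * (Ex Q D η X - Ex Q D η G)| ≤ τ * (I.card * (Real.sqrt C * Real.sqrt p)) := by
    rw [abs_mul, abs_of_nonneg hτ0]
    exact mul_le_mul_of_nonneg_left z3 hτ0
  have key : Ex Q D η X' - τ * Ex Q D η X =
      (Ex Q D η X' - Ex Q D η (fun ω => (∏ i ∈ I, T i ω) * X ω)) +
      (Ex Q D η (fun ω => (∏ i ∈ I, T i ω) * X ω) - Ex Q D η (fun ω => (∏ i ∈ I, T i ω) * G ω)) +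
      (Ex Q D η (fun ω => (∏ i ∈ I, T i ω) * G ω) - τ * Ex Q D η G) -
      τ * (Ex Q D η X - Ex Q D η G) := by ring
  rw [key]
  refine (abs_sub _ _).trans ?_
  have t1 := abs_add_le ((Ex Q D η X' - Ex Q D η (fun ω => (∏ i ∈ I, T i ω) * X ω)) +
      (Ex Q D η (fun ω => (∏ i ∈ I, T i ω) * X ω) - Ex Q D η (fun ω => (∏ i ∈ I, T i ω) * G ω)))
      (Ex Q D η (fun ω => (∏ i ∈ I, T i ω) * G ω) - τ * Ex Q D η G)
  have t2 := abs_add_le (Ex Q D η X' - Ex Q D η (fun ω => (∏ i ∈ I, T i ω) * X ω))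
      (Ex Q D η (fun ω => (∏ i ∈ I, T i ω) * X ω) - Ex Q D η (fun ω => (∏ i ∈ I, T i ω) * G ω))
  linarith

end multi

end Vale.Agent.P167.N.H955
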