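import Vale.Agent.P167.N.H955.Um2
import Vale.Agent.P167.N.KitQ
import Vale.Agent.P167.N.Base.ArmM

/-!
# P167, `0 < q < 1`: closeness, the probabilities

`arm_ex`: arms, weighted by a function which does not read the annulus. `cloH_of`: the local data of the
closeness from the shapes and the mixing. `cloH_cr`: the same for the reflex corners. `ek_le`: the mean
value of the product of the indicators of the corners.
-/

set_option autoImplicit false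

namespace Vale.Agent.P167.N.H955

open Finset Vale.Agent.P167 Vale.Agent.P167.BR Vale.Agent.P167.FK Vale.Agent.P167.FKA
open Vale.Agent.P167.H635 (Ann mem_Ann)
open Vale.Agent.P167.H259 (f_markov)
open Vale.Agent.P167.H975 (TX)
open Vale.Agent.P167.H718 (wn wn')
open Vale.Agent.P167.N (ArmE ArmM)
open Vale.Agent.P167.N.QL (NS NS_loc rI rI_or)

variable {Q : ℝ} {D : Finset (ℤ × ℤ)} {η : Cfg} {x : ℤ × ℤ} {r R b0 b1 b2 b3 : ℤ} {ε p A : ℝ}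

/-- **Arms**, weighted by a function which does not read the annulus. -/
theorem arm_ex (hQ : Kit Q) : ∃ α C : ℝ, 0 < α ∧ 0 < C ∧ ∀ (D : Finset (ℤ × ℤ)) (η : Cfg)
    (x : ℤ × ℤ) (r R : ℤ), Good η → H635.Shp D x (r + 1) (R - 1) → 0 ≤ r → r + 2 ≤ R →
    ∀ G : Cfg → ℝ, (∀ ω, 0 ≤ G ω) →
    (∀ ω ω' : Cfg, (∀ v ∈ D, v ∉ Ann x (r + 1) (R - 1) → ω v = ω' v) → G ω = G ω') →
    Ex Q D η (fun ω => G ω * (Arm D x r R).indicator 1 ω) ≤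
      C * (((r + 1 : ℤ) : ℝ) / ((R - 1 : ℤ) : ℝ)) ^ α * Ex Q D η G := by
  obtain ⟨α, C, hα, hC, H⟩ := hQ.armM
  refine ⟨α, C, hα, hC, fun D η x r R hη hS h0 hrR G hG0 hG => ?_⟩
  exact markov_le f_markov f_good hQ.pos (A := D ∩ Ann x (r + 1) (R - 1)) inter_subset_left hη
    (G := G) (F := (Arm D x r R).indicator 1)
    (fun ω ω' h => hG ω ω' fun v _ hv' => h v fun h' => hv' (mem_inter.1 h').2) hG0
    (fun ω hω => H true x (r + 1) (R - 1) D ω (by omega) (by omega) hω hS)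

section gen

variable {ι : Type*} [DecidableEq ι] {I : Finset ι} {z : ι → ℤ × ℤ} {T T' : ι → Cfg → ℝ}

/-- The product of the local functions does not read the annulus. -/
theorem prod_ind (hr : r ≤ b0 + 1) (hb : b0 + 1 ≤ b3)
    (hT'l : ∀ i ∈ I, Loc (Bq (z i) r ∩ D) (T' i))
    (hfar : ∀ i ∈ I, ∀ j ∈ I, i ≠ j → ∀ u ∈ Bq (z i) b3, u ∉ Bq (z j) b3) {i : ι} (hi : i ∈ I)
    {a b : ℤ} (ha : b0 + 1 ≤ a) (hbb : b ≤ b3) (ω ω' : Cfg)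
    (h : ∀ v ∈ D, v ∉ Ann (z i) a b → ω v = ω' v) :
    ∏ j ∈ I, T' j ω = ∏ j ∈ I, T' j ω' := by
  refine prod_congr rfl fun j hj => hT'l j hj ω ω' fun v hv => ?_
  obtain ⟨h1, h2⟩ := mem_inter.1 hv
  refine h v h2 fun h3 => ?_
  rw [mem_Ann] at h3
  by_cases hij : i = j
  · subst hij
    exact h3.2 (Bq_mono' (by omega) h1)
  · exact hfar i hi j hj hij v (Bq_mono' hbb h3.1) (Bq_mono' (by omega) h1)

/-- **The local data of the closeness.** -/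
theorem cloH_of (hQ : Kit Q) : ∃ α C : ℝ, 0 < α ∧ 0 < C ∧ ∀ {ι : Type} [DecidableEq ι]
    {I : Finset ι} {z : ι → ℤ × ℤ} {T T' : ι → Cfg → ℝ} {D : Finset (ℤ × ℤ)} {η : Cfg}
    {r b0 b1 b2 b3 : ℤ} {A ε : ℝ}, Good η → (∀ i ∈ I, H635.Shp D (z i) 0 b3) → 0 ≤ b0 → r ≤ b0 + 1 →
    b0 + 2 ≤ b1 → b1 ≤ b2 → b2 + 2 ≤ b3 → 1 ≤ A → 0 ≤ ε →
    (∀ i ∈ I, ∀ ω, 0 ≤ T i ω) → (∀ i ∈ I, ∀ ω, 0 ≤ T' i ω) → (∀ i ∈ I, ∀ ω, T i ω ≤ A * T' i ω) →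
    (∀ i ∈ I, Loc (Bq (z i) b1 ∩ D) (T i)) → (∀ i ∈ I, Loc (Bq (z i) r ∩ D) (T' i)) →
    (∀ i ∈ I, ∀ j ∈ I, i ≠ j → ∀ u ∈ Bq (z i) b3, u ∉ Bq (z j) b3) →
    (∀ i ∈ I, MixAt Q D η (z i) b1 b2 ε) →
    CloH Q D η I z T T' b1 b2 (fun i => Arm D (z i) b0 b1) (fun i => Arm D (z i) b2 b3) A
      (C * (((b0 + 1 : ℤ) : ℝ) / ((b1 - 1 : ℤ) : ℝ)) ^ α +
        C * (((b2 + 1 : ℤ) : ℝ) / ((b3 - 1 : ℤ) : ℝ)) ^ α) ε := by
  obtain ⟨α, C, hα, hC, H⟩ := arm_ex hQ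
  refine ⟨α, C, hα, hC, ?_⟩
  intro ι _ I z T T' D η r b0 b1 b2 b3 A ε hη hS h0 hr h01 h12 h23 hA hε hT0 hT'0 hTT hTl hT'l hfar
    hmix
  have p1 : 0 ≤ C * (((b0 + 1 : ℤ) : ℝ) / ((b1 - 1 : ℤ) : ℝ)) ^ α := by
    have e1 : (0 : ℝ) ≤ ((b0 + 1 : ℤ) : ℝ) := by exact_mod_cast (by omega : 0 ≤ b0 + 1)
    have e2 : (0 : ℝ) ≤ ((b1 - 1 : ℤ) : ℝ) := by exact_mod_cast (by omega : 0 ≤ b1 - 1)
    positivity
  have p2 : 0 ≤ C * (((b2 + 1 : ℤ) : ℝ) / ((b3 - 1 : ℤ) : ℝ)) ^ α := by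
    have e1 : (0 : ℝ) ≤ ((b2 + 1 : ℤ) : ℝ) := by exact_mod_cast (by omega : 0 ≤ b2 + 1)
    have e2 : (0 : ℝ) ≤ ((b3 - 1 : ℤ) : ℝ) := by exact_mod_cast (by omega : 0 ≤ b3 - 1)
    positivity
  have hpr : ∀ ω, 0 ≤ ∏ j ∈ I, T' j ω := fun ω => prod_nonneg fun j hj => hT'0 j hj ω
  have hE : 0 ≤ Ex Q D η fun ω => ∏ j ∈ I, T' j ω := Ex_nonneg hQ.pos fun _ _ => hpr _
  refine ⟨hA, by linarith, hε, h12, hT0, hTT, hTl, fun i hi j hj hij v hv hv' =>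
    hfar i hi j hj hij v (Bq_mono' (by omega) hv) (Bq_mono' (by omega) hv'), hmix,
    fun i hi => ?_, fun i hi => ?_, fun i hi => ?_⟩
  · have h1 := H D η (z i) b0 b1 hη ((hS i hi).mono (by omega) (by omega)) h0 h01
      (fun ω => ∏ j ∈ I, T' j ω) hpr fun ω ω' h =>
        prod_ind (b3 := b3) hr (by omega) hT'l hfar hi le_rfl (by omega) ω ω' h
    refine h1.trans (mul_le_mul_of_nonneg_right (by linarith) hE)
  · have h1 := H D η (z i) b2 b3 hη ((hS i hi).mono (by omega) (by omega)) (by omega) h23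
      (fun ω => ∏ j ∈ I, T' j ω) hpr fun ω ω' h =>
        prod_ind (b3 := b3) hr (by omega) hT'l hfar hi (a := b2 + 1) (by omega) (by omega) ω ω' h
    refine h1.trans (mul_le_mul_of_nonneg_right (by linarith) hE)
  · have h1 := H D η (z i) b2 b3 hη ((hS i hi).mono (by omega) (by omega)) (by omega) h23
      (fun _ => 1) (fun _ => zero_le_one) fun _ _ _ => rfl
    rw [Ex_const hQ.pos, mul_one] at h1
    simp only [one_mul] at h1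
    linarith

/-- **The product of the local functions.** -/
theorem ek_le (hQ : 0 < Q) (hε : 0 ≤ ε) (hε1 : ε ≤ 1) (hT'0 : ∀ i ∈ I, ∀ ω, 0 ≤ T' i ω)
    (hT'l : ∀ i ∈ I, Loc (Bq (z i) r ∩ D) (T' i)) (hrR : r ≤ R)
    (hfar : ∀ i ∈ I, ∀ j ∈ I, i ≠ j → ∀ v ∈ Bq (z i) r, v ∉ Bq (z j) R)
    (hmix : ∀ i ∈ I, MixAt Q D η (z i) r R ε) :
    Ex Q D η (fun ω => ∏ i ∈ I, T' i ω) ≤ 2 ^ I.card * ∏ i ∈ I, Ex Q D η (T' i) := by
  have h := mix_prod hQ hε I hT'0 hT'l hrR hfar hmix (fun _ => 1) fun _ _ _ => rfl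
  simp only [mul_one, abs_one, Ex_const hQ] at h
  have hP : 0 ≤ ∏ i ∈ I, Ex Q D η (T' i) := prod_ex_nn hQ hT'0
  have h1 := (abs_le.1 h).2
  have h2 : (1 + ε) ^ I.card ≤ 2 ^ I.card := pow_le_pow_left₀ (by linarith) (by linarith) _
  nlinarith

end gen

section cr

variable {n N L k m : ℕ} {g : ℤ} {q : ZMod N → ℤ × ℤ} {I : Finset ℕ}

/-- The boxes around different corners are disjoint. -/
theorem Cr.disj (H : Cr n L g q D k I) (hn : 6 * r < n) (hL : 4 * r ≤ L) : ∀ c ∈ I, ∀ c' ∈ I,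
    c ≠ c' → ∀ u ∈ Bq (q (c : ZMod N)) r, u ∉ Bq (q (c' : ZMod N)) r := by
  intro c hc c' hc' hne u hu hu'
  obtain ⟨r1, r2, r3⟩ := H.rng c hc
  obtain ⟨s1, s2, s3⟩ := H.rng c' hc'
  have hd : nm (q (c : ZMod N) - q (c' : ZMod N)) ≤ 2 * r := by
    rw [mem_BqX] at hu hu'
    rw [H365.nm_le']
    simp only [Prod.fst_sub, Prod.snd_sub]
    omega
  have hsep : c + L < c' ∨ c' + L < c := by
    rcases Nat.lt_or_gt_of_ne hne with h | h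
    · exact Or.inl (H.sep c hc c' hc' h)
    · exact Or.inr (H.sep c' hc' c hc h)
  rcases H.geo.near (by omega) (by omega) (d := 2 * r) (by omega) hd with h | h
  · rw [abs_le] at h
    omega
  · rcases abs_cases ((c : ℤ) - c') with ⟨e, -⟩ | ⟨e, -⟩ <;> rw [e] at h <;> omega

/-- The event at the corner is local. -/
theorem Cr.ns_loc (H : Cr n L g q D k I) (hW : ∀ c ∈ I, QL.Wn q c ((m : ℤ) + 1)) {c : ℕ} (hc : c ∈ I)
    (hL : 1 ≤ L) : Loc (Bq (q (c : ZMod N)) m ∩ D)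
      ((NS q D c (rI q k c) m).indicator (1 : Cfg → ℝ)) := by
  obtain ⟨r1, r2, r3⟩ := H.rng c hc
  have h := rI_or q k c
  exact NS_loc H.poly H.enc (hW c hc) (by omega) le_rfl (by omega)

/-- **The local data of the closeness at the reflex corners.** -/
theorem cloH_cr (hQ : Kit Q) : ∃ α C : ℝ, 0 < α ∧ 0 < C ∧ ∀ {n N L k m : ℕ} {g : ℤ}
    {q : ZMod N → ℤ × ℤ} {D : Finset (ℤ × ℤ)} {I : Finset ℕ} {η : Cfg} {b0 b1 b2 b3 : ℤ}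
    {A ε : ℝ} {v : Finset Ed → ℝ}, Cr n L g q D k I → (∀ c ∈ I, QL.Wn q c ((m : ℤ) + 1)) →
    Good η → (∀ c ∈ I, H635.Shp D (q (c : ZMod N)) 0 b3) → 1 ≤ L → (m : ℤ) ≤ b0 + 1 → 0 ≤ b0 →
    b0 + 2 ≤ b1 → b1 ≤ b2 → b2 + 2 ≤ b3 → 6 * b3 < n → 4 * b3 ≤ L → 1 ≤ A → 0 ≤ ε →
    (∀ c ∈ I, ∀ ω, 0 ≤ Tl v D (q (c : ZMod N)) b0 b1 ω) →
    (∀ c ∈ I, ∀ ω, Tl v D (q (c : ZMod N)) b0 b1 ω ≤
      A * (NS q D c (rI q k c) m).indicator 1 ω) →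
    (∀ c ∈ I, MixAt Q D η (q (c : ZMod N)) b1 b2 ε) →
    CloH Q D η I (fun c : ℕ => q (c : ZMod N)) (fun c : ℕ => Tl v D (q (c : ZMod N)) b0 b1)
      (fun c : ℕ => (NS q D c (rI q k c) m).indicator (1 : Cfg → ℝ)) b1 b2
      (fun c : ℕ => Arm D (q (c : ZMod N)) b0 b1) (fun c : ℕ => Arm D (q (c : ZMod N)) b2 b3) A
      (C * (((b0 + 1 : ℤ) : ℝ) / ((b1 - 1 : ℤ) : ℝ)) ^ α +
        C * (((b2 + 1 : ℤ) : ℝ) / ((b3 - 1 : ℤ) : ℝ)) ^ α) ε := by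
  obtain ⟨α, C, hα, hC, H⟩ := cloH_of hQ
  refine ⟨α, C, hα, hC, ?_⟩
  intro n N L k m g q D I η b0 b1 b2 b3 A ε v hCr hW hη hS hL hm h0 h01 h12 h23 hn hL4 hA hε hT0 hTT
    hmix
  exact H (z := fun c : ℕ => q (c : ZMod N)) hη hS h0 (r := m) hm h01 h12 h23 hA hε hT0
    (fun _ _ ω => Set.indicator_nonneg (fun _ _ => zero_le_one) ω) hTT
    (fun c _ => Tl_loc v D _ (by omega)) (fun c hc => hCr.ns_loc hW hc hL) (hCr.disj hn hL4) hmix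

/-- **The product of the indicators of the corners.** -/
theorem Cr.ek_le (H : Cr n L g q D k I) (hQ : 0 < Q) (hW : ∀ c ∈ I, QL.Wn q c ((m : ℤ) + 1))
    (hL : 1 ≤ L) (hm : (m : ℤ) ≤ R) (hn : 6 * R < n) (hL4 : 4 * R ≤ L) (hε : 0 ≤ ε) (hε1 : ε ≤ 1)
    (hmix : ∀ c ∈ I, MixAt Q D η (q (c : ZMod N)) m R ε) :
    Ex Q D η (fun ω => ∏ c ∈ I, (NS q D c (rI q k c) m).indicator 1 ω) ≤
      2 ^ I.card * ∏ c ∈ I, Ex Q D η ((NS q D c (rI q k c) m).indicator 1) := by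
  have h := H955.ek_le (z := fun c : ℕ => q (c : ZMod N)) hQ hε hε1
    (T' := fun c : ℕ => (NS q D c (rI q k c) m).indicator (1 : Cfg → ℝ)) (I := I)
    (fun _ _ ω => Set.indicator_nonneg (fun _ _ => zero_le_one) ω)
    (fun c hc => H.ns_loc hW hc hL) hm (fun c hc c' hc' hne u hu hu' =>
      H.disj hn hL4 c hc c' hc' hne u (Bq_mono' hm hu) hu') hmix
  exact h

end cr

end Vale.Agent.P167.N.H955
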