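import Vale.Agent.P167.N.H955.Um2

/-!
# P167, `0 < q < 1`: closeness, the local factors at the corners

`modW_cr`: the functionals with and without the pairs of charges at the corners, off the boxes.
`tl_wP`: the local factor does not read the interior charge. `tl_bd`: the bounds of the local factor.
`tl_ge`: its mean is at least a constant times the probability of the event at the corner.
-/

set_option autoImplicit false

namespace Vale.Agent.P167.N.H955

open Finset Filter Topology Relation Vale.Agent.P167 Vale.Agent.P167.BR Vale.Agent.P167.FK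
open Vale.Agent.P167.E6 (IsPolygon Encloses)
open Vale.Agent.P167.FKA (Loc Ex_mono Ex_congr Ex_mul_left Ex_nonneg)
open Vale.Agent.P167.H365.NQ (XW TW)
open Vale.Agent.P167.H718 (Dob wn wn' wn_eq Wt Wt')
open Vale.Agent.P167.H601.LG (nm_of_Bq nm_tri' nm_comm)
open Vale.Agent.P167.H975 (TX)
open Vale.Agent.P167.H852.Q (ZG)
open Vale.Agent.P167.H632 (pr)
open Vale.Agent.P167.N.QL (wP cP rI rI_or phP Wn NS NZ GdR PhZ Ld Lnd TX_nz NZ_sub_NS Ld_sub_NZ
  wn_cP mass_cP_lp mass_cP_st)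
open Vale.Agent.P167.QX (lo hi wB_zero)

variable {Z D : Finset (ℤ × ℤ)} {h : ℤ × ℤ → ℝ} {κ κ0 Mf R1 θ β M Q c1 p : ℝ} {n N k m L c : ℕ}
  {kz r R g b0 b1 b3 : ℤ} {q : ZMod N → ℤ × ℤ} {I : Finset ℕ} {ω η : Cfg} {A : Finset Ed} {b : Bool}

/-- Far from the corners the charges at the corners have no mass. -/
theorem mass_far (H : Cr n L g q D k I) (hb0 : (m : ℤ) + 2 ≤ b0) (hA : A ∈ pcs ω D)
    (hfar : ∀ c ∈ I, ∀ e ∈ A, b0 < nm (hdv e - q (c : ZMod N))) :
    mass D (q 0) (cP q (phP θ q k I m) h) A = mass D (q 0) h A := by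
  by_cases hl : IsLp D A
  · exact mass_cP_lp H.poly H.enc hA hl
  · rw [mass_cP_st H.poly H.enc hA hl]
    have h1 : phP θ q k I m (hi q A) = phP θ q k I m (lo q A) := by
      by_contra hne
      obtain ⟨c, hc, h2⟩ := H.of_ne hA hl hne
      obtain ⟨e, he, h3⟩ := H.one_vis hA hl h2
      have h4 := hfar c hc e he
      omega
    rw [h1, sub_self, add_zero]

/-- The boxes around the corners are disjoint. -/
theorem Cr.far (H : Cr n L g q D k I) (hrn : 6 * r < n) (hrL : 4 * r ≤ L) :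
    ∀ i ∈ I, ∀ j ∈ I, i ≠ j → ∀ u ∈ Bq (q (i : ZMod N)) r, u ∉ Bq (q (j : ZMod N)) r := by
  have key : ∀ i j : ℕ, i < j → i ∈ I → j ∈ I → ∀ u ∈ Bq (q (i : ZMod N)) r,
      u ∉ Bq (q (j : ZMod N)) r := by
    intro i j hij hi hj u h2 h3
    obtain ⟨r1, r2, r3⟩ := H.rng j hj
    obtain ⟨t1, t2, t3⟩ := H.rng i hi
    have h4 := nm_of_Bq h2
    have h5 := nm_of_Bq h3
    have h6 : nm (q (i : ZMod N) - q (j : ZMod N)) ≤ 2 * r := by
      have h7 := nm_tri' (q (i : ZMod N)) u (q (j : ZMod N))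
      rw [nm_comm (q (i : ZMod N)) u] at h7
      linarith
    have s1 := H.sep i hi j hj hij
    rcases H.geo.near (by omega) (by omega) (d := 2 * r) (by linarith) h6 with h7 | h7
    · rcases abs_cases ((i : ℤ) - j) with ⟨a1, a2⟩ | ⟨a1, a2⟩ <;> rw [a1] at h7 <;> omega
    · rcases abs_cases ((i : ℤ) - j) with ⟨a1, a2⟩ | ⟨a1, a2⟩ <;> rw [a1] at h7 <;> omega
  intro i hi j hj hij u hu
  rcases Nat.lt_or_gt_of_ne hij with h5 | h5
  · exact key i j h5 hi hj u hu
  · exact fun h3 => key j i h5 hj hi u h3 hu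

/-- **The functionals off the boxes around the corners.** -/
theorem modW_cr (HZ : ZG D h κ κ0 Mf R1 n Z kz) (h1 : Ang θ)
    (hβ : Real.cos (θ / 2 + β) = Real.sin θ) (H : Cr n L g q D k I) (hb0 : (m : ℤ) + 2 ≤ b0)
    (hbk : (b3 : ℝ) + 1 + 1 ≤ kz) (hbn : 6 * b3 < n) (hbL : 4 * b3 ≤ L) :
    ModW D I (fun c => q (c : ZMod N)) (wn θ β q D k h) (wn' θ β q D k h)
      (wn θ β q D k (cP q (phP θ q k I m) h)) (wn' θ β q D k (cP q (phP θ q k I m) h)) b0 b3 := by
  refine ⟨fun ω A hA hfar => ?_, fun ω A hA i hi hin => ?_, H.far hbn hbL⟩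
  · have h2 := mass_far (θ := θ) (h := h) H hb0 hA hfar
    unfold wn wn' Wt Wt'
    rw [h2]
    exact ⟨rfl, rfl⟩
  · rw [wn_eq H.poly H.enc h1.sin_pos.ne' h1.cos_pos hβ hA,
      mass_inC HZ H.poly H.enc hbk ⟨i, hi, hin⟩, wB_zero h1.sin_pos.ne' h1.cos_pos.ne' hβ]

/-- **The local factor does not read the interior charge.** -/
theorem tl_wP (HZ : ZG D h κ κ0 Mf R1 n Z kz) (h1 : Ang θ)
    (hβ : Real.cos (θ / 2 + β) = Real.sin θ) (H : Cr n L g q D k I) (hbk : (b1 : ℝ) + 1 + 1 ≤ kz)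
    (hc : c ∈ I) (ω : Cfg) :
    Tl (wn θ β q D k (cP q (phP θ q k I m) h)) D (q (c : ZMod N)) b0 b1 ω =
      Tl (wP θ β q D k (phP θ q k I m)) D (q (c : ZMod N)) b0 b1 ω := by
  have h1_lt := h1.lt
  unfold Tl TX
  congr 1
  refine prod_congr rfl fun A hA => ?_
  obtain ⟨hA1, hA2⟩ := mem_filter.1 hA
  exact wn_cP H.poly H.enc h1.pos h1_lt hβ hA1 (mass_inC HZ H.poly H.enc hbk ⟨c, hc, hA2⟩)

section

variable (H : Cr n L g q D k I) (HW : CrW q k I R) (h1 : Ang θ)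
  (hβ : Real.cos (θ / 2 + β) = Real.sin θ) (hc : c ∈ I) (hm : 0 < m) (hR : R + m + 1 < L)
  (hmb : (m : ℤ) ≤ b1) (hbR : b1 + 1 ≤ R)

include H HW h1 hβ hc hm hR hmb hbR

/-- **The bounds of the local factor.** -/
theorem tl_bd : 0 ≤ Tl (wP θ β q D k (phP θ q k I m)) D (q (c : ZMod N)) b0 b1 ω ∧
    Tl (wP θ β q D k (phP θ q k I m)) D (q (c : ZMod N)) b0 b1 ω ≤
      (2 * Real.cos θ)⁻¹ * (NS q D c (rI q k c) m).indicator 1 ω := by
  have hQ := h1.kit.pos
  have hr := rI_or q k c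
  have h3 := TX_nz H.poly H.enc h1.sin_pos.ne' h1.cos_pos.ne' hβ (HW.win c hc) (r := b1) (by omega)
    hbR (H.phZ (θ := θ) hc hm hR (by omega)) (H.gdR hc (by omega)) (by omega) (HW.arc c hc)
    (ω := ω)
  have h4 := tx_le (ω := ω) H HW h1 hβ hc hm hR hmb (by omega) hbR
  have h5 : 0 ≤ TX (wP θ β q D k (phP θ q k I m)) D (q (c : ZMod N)) b1 ω := by
    by_cases hω : ω ∈ NZ q D c (rI q k c) (rI q k c + m) b1
    · obtain ⟨e, -, h6⟩ := h3.2 hω
      rw [h6]
      exact (zpow_pos hQ _).le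
    · rw [h3.1 hω]
  have h6 : 0 ≤ (Arm D (q (c : ZMod N)) b0 b1)ᶜ.indicator (1 : Cfg → ℝ) ω :=
    Set.indicator_nonneg (fun _ _ => zero_le_one) _
  have h7 : (Arm D (q (c : ZMod N)) b0 b1)ᶜ.indicator (1 : Cfg → ℝ) ω ≤ 1 :=
    Set.indicator_le_self' (fun _ _ => zero_le_one) _
  unfold Tl
  refine ⟨mul_nonneg h6 h5, ?_⟩
  calc _ ≤ 1 * TX (wP θ β q D k (phP θ q k I m)) D (q (c : ZMod N)) b1 ω :=
        mul_le_mul_of_nonneg_right h7 h5
    _ ≤ _ := by
        rw [one_mul]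
        exact (le_abs_self _).trans h4

/-- **The lower bound of the local factor** on the landing event. -/
theorem tl_low (h4R : 4 * (m : ℤ) + 1 ≤ R) :
    2 * Real.cos θ * ((Ld q D c (rI q k c) m b).indicator 1 ω *
      (Arm D (q (c : ZMod N)) b0 b1)ᶜ.indicator 1 ω) ≤
    Tl (wP θ β q D k (phP θ q k I m)) D (q (c : ZMod N)) b0 b1 ω := by
  have hQ := h1.kit.pos
  have hQ1 : 2 * Real.cos θ < 1 := h1.kit.lt
  have hr := rI_or q k c
  by_cases h2 : ω ∈ Ld q D c (rI q k c) m b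
  · have h3 := TX_nz H.poly H.enc h1.sin_pos.ne' h1.cos_pos.ne' hβ (HW.win c hc) (r := b1)
      (by omega) hbR (H.phZ (θ := θ) hc hm hR (by omega)) (H.gdR hc (by omega)) (by omega)
      (HW.arc c hc) (ω := ω)
    have h4 : ω ∈ NZ q D c (rI q k c) (rI q k c + m) b1 :=
      Ld_sub_NZ H.poly H.enc (HW.win c hc) h4R hm (by omega) (by omega) (by omega) h2
    obtain ⟨e, he, h5⟩ := h3.2 h4
    have h6 : 2 * Real.cos θ ≤ (2 * Real.cos θ) ^ e := by
      conv_lhs => rw [← zpow_one (2 * Real.cos θ)]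
      exact zpow_le_zpow_right_of_le_one₀ hQ hQ1.le (by have := abs_le.1 he; omega)
    have h7 : 0 ≤ (Arm D (q (c : ZMod N)) b0 b1)ᶜ.indicator (1 : Cfg → ℝ) ω :=
      Set.indicator_nonneg (fun _ _ => zero_le_one) _
    unfold Tl
    rw [Set.indicator_of_mem h2, Pi.one_apply, one_mul, h5, mul_comm]
    exact mul_le_mul_of_nonneg_left h6 h7
  · rw [Set.indicator_of_notMem h2, zero_mul, mul_zero]
    exact (tl_bd H HW h1 hβ hc hm hR hmb hbR).1

omit hβ hR hmb hbR h1 in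
/-- The landing event excludes the strands over the corner. -/
theorem ld_sub_ns (h4R : 4 * (m : ℤ) + 1 ≤ R) :
    Ld q D c (rI q k c) m b ⊆ NS q D c (rI q k c) m := by
  have hr := rI_or q k c
  exact (Ld_sub_NZ (r := (m : ℤ)) (z := rI q k c + m) H.poly H.enc (HW.win c hc) h4R hm (by omega)
    (by omega) (by omega)).trans
    (NZ_sub_NS H.poly H.enc (HW.win c hc) (by omega) (by push_cast; omega) le_rfl)

/-- **The mean of the local factor.** -/
theorem tl_ge (h4R : 4 * (m : ℤ) + 1 ≤ R)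
    (hL : Lnd (2 * Real.cos θ) q D η c (rI q k c) m b c1)
    (hA : Ex (2 * Real.cos θ) D η (fun ω => (NS q D c (rI q k c) m).indicator 1 ω *
      (Arm D (q (c : ZMod N)) b0 b1).indicator 1 ω) ≤
      p * Ex (2 * Real.cos θ) D η ((NS q D c (rI q k c) m).indicator 1)) (hp : p ≤ c1 / 2) :
    Real.cos θ * c1 * Ex (2 * Real.cos θ) D η ((NS q D c (rI q k c) m).indicator 1) ≤
      Ex (2 * Real.cos θ) D η (Tl (wP θ β q D k (phP θ q k I m)) D (q (c : ZMod N)) b0 b1) := by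
  have hQ := h1.kit.pos
  have h2 : c1 * Ex (2 * Real.cos θ) D η ((NS q D c (rI q k c) m).indicator 1) ≤
      Ex (2 * Real.cos θ) D η ((Ld q D c (rI q k c) m b).indicator 1) := by
    have h3 := hL (fun _ => 1) (fun _ => zero_le_one) fun _ _ _ => rfl
    simp only [one_mul] at h3
    exact h3
  have hK0 : 0 ≤ Ex (2 * Real.cos θ) D η ((NS q D c (rI q k c) m).indicator 1) :=
    Ex_nonneg hQ fun _ _ => Set.indicator_nonneg (fun _ _ => zero_le_one) _
  have h3 : Ex (2 * Real.cos θ) D η ((Ld q D c (rI q k c) m b).indicator 1) ≤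
      Ex (2 * Real.cos θ) D η (fun ω => (Ld q D c (rI q k c) m b).indicator 1 ω *
        (Arm D (q (c : ZMod N)) b0 b1)ᶜ.indicator 1 ω) +
      Ex (2 * Real.cos θ) D η (fun ω => (NS q D c (rI q k c) m).indicator 1 ω *
        (Arm D (q (c : ZMod N)) b0 b1).indicator 1 ω) := by
    rw [← FKA.Ex_add]
    refine Ex_mono hQ fun S _ => ?_
    have h4 := Set.indicator_compl_add_self (Arm D (q (c : ZMod N)) b0 b1) (1 : Cfg → ℝ)
    have h5 := congrFun h4 (cf D η S)
    rw [Pi.add_apply, Pi.one_apply] at h5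
    have h6 : (Ld q D c (rI q k c) m b).indicator (1 : Cfg → ℝ) (cf D η S) ≤
        (NS q D c (rI q k c) m).indicator 1 (cf D η S) :=
      Set.indicator_le_indicator_of_subset (ld_sub_ns H HW hc hm h4R) (fun _ => zero_le_one) _
    have h7 : 0 ≤ (Arm D (q (c : ZMod N)) b0 b1).indicator (1 : Cfg → ℝ) (cf D η S) :=
      Set.indicator_nonneg (fun _ _ => zero_le_one) _
    have h8 := mul_le_mul_of_nonneg_right h6 h7
    have h9 : (Ld q D c (rI q k c) m b).indicator (1 : Cfg → ℝ) (cf D η S) =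
        (Ld q D c (rI q k c) m b).indicator (1 : Cfg → ℝ) (cf D η S) *
          ((Arm D (q (c : ZMod N)) b0 b1)ᶜ.indicator (1 : Cfg → ℝ) (cf D η S) +
            (Arm D (q (c : ZMod N)) b0 b1).indicator (1 : Cfg → ℝ) (cf D η S)) := by
      rw [h5, mul_one]
    rw [mul_add] at h9
    linarith
  have h4 : 2 * Real.cos θ * Ex (2 * Real.cos θ) D η (fun ω =>
      (Ld q D c (rI q k c) m b).indicator 1 ω *
        (Arm D (q (c : ZMod N)) b0 b1)ᶜ.indicator 1 ω) ≤
      Ex (2 * Real.cos θ) D η (Tl (wP θ β q D k (phP θ q k I m)) D (q (c : ZMod N)) b0 b1) := by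
    rw [← Ex_mul_left]
    exact Ex_mono hQ fun S _ => tl_low H HW h1 hβ hc hm hR hmb hbR h4R
  have h5 : p * Ex (2 * Real.cos θ) D η ((NS q D c (rI q k c) m).indicator 1) ≤
      c1 / 2 * Ex (2 * Real.cos θ) D η ((NS q D c (rI q k c) m).indicator 1) :=
    mul_le_mul_of_nonneg_right hp hK0
  have h6 : 2 * Real.cos θ * (c1 / 2 *
      Ex (2 * Real.cos θ) D η ((NS q D c (rI q k c) m).indicator 1)) ≤
      2 * Real.cos θ * Ex (2 * Real.cos θ) D η (fun ω =>
      (Ld q D c (rI q k c) m b).indicator 1 ω *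
        (Arm D (q (c : ZMod N)) b0 b1)ᶜ.indicator 1 ω) :=
    mul_le_mul_of_nonneg_left (by linarith) hQ.le
  linarith

end

end Vale.Agent.P167.N.H955
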