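import Vale.Agent.P167.N.H955.Clo

/-!
# P167, `0 < q < 1`: closeness, division by the value of the reference functional
-/

set_option autoImplicit false

namespace Vale.Agent.P167.N.H955

open Finset Filter Topology Vale.Agent.P167 Vale.Agent.P167.FK Vale.Agent.P167.FKA

variable {Q ε p A C C2 : ℝ} {D : Finset (ℤ × ℤ)} {η : Cfg} {r R : ℤ} {ι : Type*} [DecidableEq ι]
  {I : Finset ι} {z : ι → ℤ × ℤ} {T T' : ι → Cfg → ℝ} {𝓐 𝓑 : ι → Set Cfg}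

/-- The relative error. -/
noncomputable def Dl (A C C2 p ε : ℝ) (k : ℕ) : ℝ :=
  (1 + 2 * A ^ k) * (k * (Real.sqrt C * Real.sqrt p * C2)) +
    (((1 + ε) ^ k - 1) * Real.sqrt C + k * (Real.sqrt C * Real.sqrt p))

theorem dl_mono {k k' : ℕ} (hA : 1 ≤ A) (hC2 : 0 ≤ C2) (hε : 0 ≤ ε) (h : k ≤ k') :
    Dl A C C2 p ε k ≤ Dl A C C2 p ε k' := by
  unfold Dl
  have h1 : A ^ k ≤ A ^ k' := pow_le_pow_right₀ hA h
  have h2 : (1 + ε) ^ k ≤ (1 + ε) ^ k' := pow_le_pow_right₀ (by linarith) h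
  have h3 : (k : ℝ) ≤ k' := by exact_mod_cast h
  have s1 := Real.sqrt_nonneg C
  have s2 := Real.sqrt_nonneg p
  have hAk : 0 ≤ A ^ k := pow_nonneg (by linarith) _
  have hk0 : (0 : ℝ) ≤ k := Nat.cast_nonneg _
  refine add_le_add (mul_le_mul (by linarith) (mul_le_mul_of_nonneg_right h3 (by positivity))
    (by positivity) (by positivity)) (add_le_add (mul_le_mul_of_nonneg_right (by linarith) s1)
    (mul_le_mul_of_nonneg_right h3 (by positivity)))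

theorem dl_nonneg {k : ℕ} (hA : 1 ≤ A) (hC2 : 0 ≤ C2) (hε : 0 ≤ ε) : 0 ≤ Dl A C C2 p ε k := by
  unfold Dl
  have h2 : 1 ≤ (1 + ε) ^ k := one_le_pow₀ (by linarith)
  have hAk : 0 ≤ A ^ k := pow_nonneg (by linarith) _
  have h3 : 0 ≤ ((1 + ε) ^ k - 1) := by linarith
  have s1 := Real.sqrt_nonneg C
  have s2 := Real.sqrt_nonneg p
  positivity

/-- The relative error is small. -/
theorem dl_small (hA : 1 ≤ A) (hC2 : 0 ≤ C2) (k : ℕ) {e : ℝ} (he : 0 < e) :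
    ∃ p0 ε0 : ℝ, 0 < p0 ∧ 0 < ε0 ∧ ∀ p ε : ℝ, 0 ≤ p → p ≤ p0 → 0 ≤ ε → ε ≤ ε0 →
      Dl A C C2 p ε k ≤ e := by
  have h1 : Tendsto (fun p : ℝ => (1 + 2 * A ^ k) * (k * (Real.sqrt C * Real.sqrt p * C2)) +
      k * (Real.sqrt C * Real.sqrt p)) (𝓝 0) (𝓝 0) := by
    have h2 : Continuous (fun p : ℝ => (1 + 2 * A ^ k) * (k * (Real.sqrt C * Real.sqrt p * C2)) +
      k * (Real.sqrt C * Real.sqrt p)) := by fun_prop
    have h3 := h2.tendsto 0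
    simpa using h3
  have h4 : Tendsto (fun ε : ℝ => ((1 + ε) ^ k - 1) * Real.sqrt C) (𝓝 0) (𝓝 0) := by
    have h2 : Continuous (fun ε : ℝ => ((1 + ε) ^ k - 1) * Real.sqrt C) := by fun_prop
    have h3 := h2.tendsto 0
    simpa using h3
  obtain ⟨p0, hp0, hp⟩ := Metric.eventually_nhds_iff.1 (h1.eventually (gt_mem_nhds (half_pos he)))
  obtain ⟨ε0, hε0, hε⟩ := Metric.eventually_nhds_iff.1 (h4.eventually (gt_mem_nhds (half_pos he)))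
  refine ⟨p0 / 2, ε0 / 2, by positivity, by positivity, fun p ε h5 h6 h7 h8 => ?_⟩
  have k1 := hp (y := p) (by rw [Real.dist_eq, sub_zero, abs_of_nonneg h5]; linarith)
  have k2 := hε (y := ε) (by rw [Real.dist_eq, sub_zero, abs_of_nonneg h7]; linarith)
  unfold Dl
  linarith

/-- **Closeness with the relative error.** -/
theorem clo_rel (hQ : 0 < Q) (h : CloH Q D η I z T T' r R 𝓐 𝓑 A p ε) {X X' Y : Cfg → ℝ}
    (hC : 0 ≤ C) (hX' : ∀ ω, |X' ω| ≤ (∏ i ∈ I, T' i ω) * Y ω) (hX : ∀ ω, |X ω| ≤ Y ω)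
    (hY : Ex Q D η (fun ω => (∏ i ∈ I, T' i ω) * Y ω ^ 2) ≤
      C * Ex Q D η fun ω => ∏ i ∈ I, T' i ω)
    (hY1 : Ex Q D η (fun ω => Y ω ^ 2) ≤ C)
    (h1 : ∀ ω, (∀ i ∈ I, ω ∉ 𝓐 i) → X' ω = (∏ i ∈ I, T i ω) * X ω)
    (h2 : Loc (D \ I.biUnion fun i => Bq (z i) R)
      (fun ω => X ω * {ω | ∀ i ∈ I, ω ∉ 𝓑 i}.indicator 1 ω)) {ms : ℕ} (hms : I.card ≤ ms)
    (hC2 : 0 ≤ C2)
    (hP : Ex Q D η (fun ω => ∏ i ∈ I, T' i ω) ≤ C2 * ∏ i ∈ I, Ex Q D η (T i)) :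
    |Ex Q D η X' - (∏ i ∈ I, Ex Q D η (T i)) * Ex Q D η X| ≤
      (∏ i ∈ I, Ex Q D η (T i)) * Dl A C C2 p ε ms := by
  have k1 := clo_abs hQ h hC hX' hX hY hY1 h1 h2
  obtain ⟨τ, hτ⟩ : ∃ τ, τ = ∏ i ∈ I, Ex Q D η (T i) := ⟨_, rfl⟩
  have hτ0 : 0 ≤ τ := by rw [hτ]; exact prod_ex_nn hQ h.T0
  rw [← hτ] at k1 hP ⊢
  have hA0 : 0 ≤ A ^ I.card := pow_nonneg (by linarith [h.A1]) _
  refine k1.trans (le_trans ?_ (mul_le_mul_of_nonneg_left (dl_mono h.A1 hC2 h.ε0 hms) hτ0))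
  unfold Dl
  have s1 := Real.sqrt_nonneg C
  have s2 := Real.sqrt_nonneg p
  have k2 : (1 + 2 * A ^ I.card) * (I.card * (Real.sqrt C * Real.sqrt p *
      Ex Q D η fun ω => ∏ i ∈ I, T' i ω)) ≤ (1 + 2 * A ^ I.card) * (I.card * (Real.sqrt C *
      Real.sqrt p * (C2 * τ))) :=
    mul_le_mul_of_nonneg_left (mul_le_mul_of_nonneg_left (mul_le_mul_of_nonneg_left hP
      (by positivity)) (by positivity)) (by positivity)
  refine (add_le_add k2 le_rfl).trans (le_of_eq (by ring))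

/-- The mean of `X`. -/
theorem ex_le_sqrt (hQ : 0 < Q) {X Y : Cfg → ℝ} (hC : 0 ≤ C) (hX : ∀ ω, |X ω| ≤ Y ω)
    (hY1 : Ex Q D η (fun ω => Y ω ^ 2) ≤ C) : |Ex Q D η X| ≤ Real.sqrt C := by
  refine (abs_Ex_le hQ _).trans ((Ex_mono hQ fun S _ => hX _).trans ?_)
  have h5 := H562.QM.ex_cs (Q := Q) (D := D) (η := η) hQ (G := fun _ => 1) (F1 := Y)
    (F2 := fun _ => 1) (fun _ => zero_le_one) (Real.sqrt_nonneg C) zero_le_one (E := 1) zero_le_one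
    (by rw [Real.sq_sqrt hC, mul_one]; simpa using hY1)
    (by simp only [one_pow, mul_one]; rw [Ex_const hQ])
  simpa using h5

/-- **Division by the reference value.** -/
theorem clo_div {τ V0 x x' d B : ℝ} (hτ : 0 < τ) (hd0 : 0 ≤ d) (hd : d ≤ 1 / 2)
    (hV : |V0 - τ| ≤ τ * d) (hx : |x' - τ * x| ≤ τ * d) (hB : |x| ≤ B) :
    τ / 2 ≤ V0 ∧ 0 < V0 ∧ |x - V0⁻¹ * x'| ≤ 2 * d * (1 + B) := by
  have h1 := abs_le.1 hV
  have h2 : τ / 2 ≤ V0 := by nlinarith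
  have h3 : 0 < V0 := by linarith
  refine ⟨h2, h3, ?_⟩
  have h4 : x - V0⁻¹ * x' = V0⁻¹ * ((V0 - τ) * x - (x' - τ * x)) := by
    field_simp
    ring
  have hB0 : 0 ≤ B := (abs_nonneg _).trans hB
  have h5 : |(V0 - τ) * x - (x' - τ * x)| ≤ τ * d * (1 + B) := by
    refine (abs_sub _ _).trans ?_
    rw [abs_mul]
    have : |V0 - τ| * |x| ≤ τ * d * B := mul_le_mul hV hB (abs_nonneg _) (by positivity)
    linarith
  rw [h4, abs_mul, abs_of_pos (inv_pos.2 h3), inv_mul_le_iff₀ h3]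
  have h6 : 0 ≤ d * (1 + B) := by positivity
  nlinarith

end Vale.Agent.P167.N.H955
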