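import Vale.Agent.P167.N.H955.Nest
import Vale.Agent.P167.N.QL.Fam

import Vale.Agent.P167.H167.Pc
import Vale.Agent.P167.H975.LkB

/-!
# P167, `0 < q < 1`: the strands around the pairs of charges at the corners

`Cr`: the indices `I` of the corners, with margin `L`. The charges are `θ` at `rI c` and `-θ` at
`rI c + m` (`m` odd, small).
-/

set_option autoImplicit false

namespace Vale.Agent.P167.N.H955

open Finset Vale.Agent.P167 Vale.Agent.P167.BR
open Vale.Agent.P167.E6 (IsPolygon Encloses)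
open Vale.Agent.P167.QX (lo hi)
open Vale.Agent.P167.H718 (IsCl)
open Vale.Agent.P167.N.QL (wP rI rI_or phP GeoP)
open Vale.Agent.P167.H601.LG (nm_be nm_tri' nm_comm)
open Vale.Agent.P167.H167 (Geo Wi)

variable {D : Finset (ℤ × ℤ)} {ω : Cfg} {A B C : Finset Ed} {n L m N k : ℕ} {q : ZMod N → ℤ × ℤ}
  {I : Finset ℕ} {θ β : ℝ} {b g : ℤ} {c : ℕ}

/-- **The corners**, with margin `L`. -/
structure Cr (n L : ℕ) (g : ℤ) (q : ZMod N → ℤ × ℤ) (D : Finset (ℤ × ℤ)) (k : ℕ) (I : Finset ℕ) :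
    Prop where
  poly : IsPolygon q
  enc : Encloses q D
  geo : GeoP n N q
  pc : ∃ p, Geo 2 g D p
  rng : ∀ c ∈ I, L < c ∧ c + L < N ∧ (c + L < k ∨ k + L < c)
  sep : ∀ c ∈ I, ∀ c' ∈ I, c < c' → c + L < c'

/-- The piece `A` is in the box of radius `b` around `x`. -/
def InB (x : ℤ × ℤ) (b : ℤ) (A : Finset Ed) : Prop := ∀ e ∈ A, nm (hdv e - x) ≤ b

theorem InB.mono {x : ℤ × ℤ} {b b' : ℤ} (h : InB x b A) (hb : b ≤ b') : InB x b' A := fun e he =>
  (h e he).trans hb

section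

variable (H : Cr n L g q D k I)

include H

/-- The parity along the boundary. -/
theorem Cr.par (j m : ℕ) : Even ((q ((j + m : ℕ) : ZMod N)).1 + (q ((j + m : ℕ) : ZMod N)).2) ↔
    (Even ((q (j : ZMod N)).1 + (q (j : ZMod N)).2) ↔ Even m) :=
  H685.LD.par_add H.poly H.enc j m

/-- **The pair of the charges at a corner.** -/
theorem Cr.pair (hc : c ∈ I) (hm : Odd m) (hmL : m + 1 < L) :
    Pair q k (rI q k c) (rI q k c + m) := by
  obtain ⟨h1, h2, h3⟩ := H.rng c hc
  have hr := rI_or q k c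
  have hm0 : 0 < m := hm.pos
  have hpr : rI q k c < k ↔ ¬ Even ((q (rI q k c : ZMod N)).1 + (q (rI q k c : ZMod N)).2) := by
    have hp := H.par c 1
    unfold rI
    split_ifs with h4
    · rw [hp]
      have h5 : ¬ Even 1 := by decide
      by_cases h6 : c < k
      · have h7 := h4.1 h6
        have h8 : c + 1 < k := by omega
        tauto
      · have h7 : ¬ Even ((q (c : ZMod N)).1 + (q (c : ZMod N)).2) := fun h => h6 (h4.2 h)
        have h8 : ¬ c + 1 < k := by omega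
        tauto
    · tauto
  have hpm := H.par (rI q k c) m
  have hm' : ¬ Even m := Nat.not_even_iff_odd.2 hm
  refine ⟨by omega, by omega, ?_, hpr, ?_⟩
  · rcases hr with hr | hr <;> rw [hr] <;> omega
  · rw [hpm]
    tauto

/-- The boundary sites near a corner. -/
theorem Cr.idx (hc : c ∈ I) (hb : 3 * (b + 1) < n) (hbL : 2 * (b + 1) ≤ L) {j : ℕ} (hj : j < N)
    (h : nm (q (j : ZMod N) - q (c : ZMod N)) ≤ b + 1) :
    (c : ℤ) - 2 * (b + 1) ≤ j ∧ (j : ℤ) ≤ c + 2 * (b + 1) := by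
  obtain ⟨h1, h2, h3⟩ := H.rng c hc
  rcases H.geo.near hj.le (by omega) hb h with h4 | h4
  · rw [abs_le] at h4
    omega
  · rcases abs_cases ((j : ℤ) - c) with ⟨a1, a2⟩ | ⟨a1, a2⟩ <;> rw [a1] at h4 <;> omega

/-- The sides of a strand near a corner. -/
theorem Cr.feet (hc : c ∈ I) (hb : 3 * (b + 1) < n) (hbL : 2 * (b + 1) ≤ L) (hA : A ∈ pcs ω D)
    (hl : ¬ IsLp D A) (hI : InB (q (c : ZMod N)) b A) :
    (c : ℤ) - 2 * (b + 1) ≤ lo q A ∧ lo q A < hi q A ∧ (hi q A : ℤ) ≤ c + 2 * (b + 1) := by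
  obtain ⟨h1, h2⟩ := lo_lt_hi H.poly H.enc hA hl
  have m1 := lo_mem H.poly H.enc hA hl
  have m2 := hi_mem H.poly H.enc hA hl
  have key : ∀ j : ℕ, be q (j : ZMod N) ∈ A → nm (q (j : ZMod N) - q (c : ZMod N)) ≤ b + 1 := by
    intro j hj
    have e1 := nm_be (q := q) (j : ZMod N)
    have e2 := hI _ hj
    have e3 := nm_tri' (q (j : ZMod N)) (hdv (be q (j : ZMod N))) (q (c : ZMod N))
    rw [nm_comm] at e1
    omega
  have h3 := H.idx hc hb hbL (by omega) (key _ m1)
  have h4 := H.idx hc hb hbL h2 (key _ m2)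
  omega

/-- The strands with exactly one side between the charges visit the small box. -/
theorem Cr.one_vis (hA : A ∈ pcs ω D) (hl : ¬ IsLp D A)
    (h : One q (rI q k c) (rI q k c + m) A) : ∃ e ∈ A, nm (hdv e - q (c : ZMod N)) ≤ m + 2 := by
  have m1 := lo_mem H.poly H.enc hA hl
  have m2 := hi_mem H.poly H.enc hA hl
  have hr := rI_or q k c
  have key : ∀ j : ℕ, be q (j : ZMod N) ∈ A → rI q k c ≤ j → j < rI q k c + m →
      ∃ e ∈ A, nm (hdv e - q (c : ZMod N)) ≤ m + 2 := by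
    intro j hj h1 h2
    refine ⟨_, hj, ?_⟩
    have e1 := nm_be (q := q) (j : ZMod N)
    have e2 := H.geo.lip j c
    have e3 := nm_tri' (hdv (be q (j : ZMod N))) (q (j : ZMod N)) (q (c : ZMod N))
    rw [abs_of_nonneg (by omega)] at e2
    omega
  rcases h with ⟨h1, h2, h3⟩ | ⟨h1, h2, h3⟩
  · exact key _ m2 h2 h3
  · exact key _ m1 h1 h2

/-- **A strand inside a small strand is small.** -/
theorem Cr.nest (hc : c ∈ I) (hb1 : 1 ≤ b) (hbg : b ≤ g) (hbL : 4 * b < L) (hbn : 6 * b < n)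
    (hA : A ∈ pcs ω D) (hl : ¬ IsLp D A) (hI : InB (q (c : ZMod N)) b A) (hC : C ∈ pcs ω D)
    (hlC : ¬ IsLp D C) (h1 : lo q A < lo q C) (h2 : hi q C < hi q A) :
    InB (q (c : ZMod N)) (2 * b + 1) C := by
  obtain ⟨p, G⟩ := H.pc
  obtain ⟨r1, r2, r3⟩ := H.rng c hc
  have hAC : A ≠ C := by
    rintro rfl
    exact lt_irrefl _ h1
  obtain ⟨u, hu⟩ := exists_pot H.poly H.enc hA
  intro e he
  by_contra hcon
  push Not at hcon
  have m1 := lo_mem H.poly H.enc hC hlC
  have e1 := pot_foot H.poly H.enc hA hC hAC hu m1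
  have e3 := (pot_side_in hA hC hAC hu m1 he).1
  have hlh := lo_lt_hi H.poly H.enc hA hl
  have hlC' := lo_lt_hi H.poly H.enc hC hlC
  have h3 : ¬ u (q (lo q C : ZMod N)) = u (q 0) := by
    rw [pot_in H.poly H.enc hA hl hu (by omega)]
    omega
  have hrs : nm (hdv e - rs e) ≤ 1 := CAQ.J.nm_hdv_rs e
  have h4 : 2 * b < nm (rs e - q (c : ZMod N)) := by
    have := nm_tri' (hdv e) (rs e) (q (c : ZMod N))
    omega
  have h5 : 2 * b < nm (q 0 - q (c : ZMod N)) := by
    by_contra hcon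
    push Not at hcon
    have h6 := H.geo.near (x := 0) (y := c) (Nat.zero_le _) (by omega) (d := 2 * b) (by omega)
      (by simpa using hcon)
    have h7 := H.geo.le
    rcases h6 with h6 | h6
    · rcases abs_cases (((0 : ℕ) : ℤ) - c) with ⟨a1, a2⟩ | ⟨a1, a2⟩ <;> rw [a1] at h6 <;> omega
    · rcases abs_cases (((0 : ℕ) : ℤ) - c) with ⟨a1, a2⟩ | ⟨a1, a2⟩ <;> rw [a1] at h6 <;> omega
  have hs0 : q 0 ∈ sites D := by
    have := H718.q_mem_sites H.poly H.enc (0 : ZMod N)
    exact this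
  have h8 := G.pot_far hb1 hbg (x := q (c : ZMod N)) (A := A) (fun e he => hI e he) hu
    (rs_mem_sites (subset_eds hC he)) hs0 h4 h5
  exact h3 (by rw [← e1, ← e3, h8])

/-- The phases near a corner. -/
theorem Cr.phase (hc : c ∈ I) {i j : ℕ} {w : ℕ} (hw : w + m + 1 < L) (hi1 : c ≤ i + w)
    (hi2 : i ≤ c + w) (hj1 : c ≤ j + w) (hj2 : j ≤ c + w) :
    phP θ q k I m j - phP θ q k I m i =
      θ * ((if rI q k c ≤ j ∧ j < rI q k c + m then 1 else 0) -
        if rI q k c ≤ i ∧ i < rI q k c + m then 1 else 0) := by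
  unfold phP
  rw [← sum_sub_distrib, sum_eq_single_of_mem c hc]
  · have key : ∀ j : ℕ, ((if rI q k c ≤ j then 1 else 0) - (if rI q k c + m ≤ j then 1 else 0) : ℝ) =
        if rI q k c ≤ j ∧ j < rI q k c + m then 1 else 0 := by
      intro j
      by_cases h1 : rI q k c ≤ j
      · by_cases h2 : rI q k c + m ≤ j
        · rw [if_pos h1, if_pos h2, if_neg (by omega)]
          norm_num
        · rw [if_pos h1, if_neg h2, if_pos (by omega)]
          norm_num
      · rw [if_neg h1, if_neg (by omega), if_neg (by omega)]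
        norm_num
    rw [key, key]
    ring
  · intro c' hc' hne
    have hr := rI_or q k c'
    rcases lt_or_gt_of_ne hne with h1 | h1
    · have h2 := H.sep c' hc' c hc h1
      rw [if_pos (by omega), if_pos (by omega), if_pos (by omega), if_pos (by omega)]
      ring
    · have h2 := H.sep c hc c' hc' h1
      rw [if_neg (by omega), if_neg (by omega), if_neg (by omega), if_neg (by omega)]
      ring

/-- **The phases of the strands near a corner.** -/
theorem Cr.phIn (hc : c ∈ I) (hb0 : 0 ≤ b) (hb : 3 * (b + 1) < n) (hbL : 2 * (b + 1) + m + 1 < L)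
    {In : Finset Ed → Prop} (hIn : ∀ A, In A → InB (q (c : ZMod N)) b A) :
    PhIn θ ω D q k (rI q k c) (rI q k c + m) (phP θ q k I m) In := by
  obtain ⟨w, hw⟩ : ∃ w : ℕ, (w : ℤ) = 2 * (b + 1) := ⟨(2 * (b + 1)).toNat, by omega⟩
  refine ⟨fun A hA hl hI => ?_, fun A hA hl hI => ?_⟩
  · have h1 := H.feet hc hb (by omega) hA hl (hIn A hI)
    exact H.phase (w := w) hc (by omega) (by omega) (by omega) (by omega) (by omega)
  · have h1 := H.feet hc hb (by omega) hA hl (hIn A hI)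
    obtain ⟨r1, r2, r3⟩ := H.rng c hc
    omega

/-- A phase difference comes from one of the corners. -/
theorem Cr.of_ne (hA : A ∈ pcs ω D) (hl : ¬ IsLp D A)
    (h : phP θ q k I m (hi q A) ≠ phP θ q k I m (lo q A)) :
    ∃ c ∈ I, One q (rI q k c) (rI q k c + m) A := by
  have hlh := (lo_lt_hi H.poly H.enc hA hl).1
  by_contra hcon
  push Not at hcon
  apply h
  unfold phP
  refine sum_congr rfl fun c hc => ?_
  have h1 := hcon c hc
  unfold One at h1
  congr 1
  by_cases h2 : rI q k c ≤ lo q A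
  · rw [if_pos h2, if_pos (by omega : rI q k c ≤ hi q A)]
    by_cases h3 : rI q k c + m ≤ lo q A
    · rw [if_pos h3, if_pos (by omega)]
    · rw [if_neg h3, if_neg (by omega)]
  · rw [if_neg h2, if_neg (by omega : ¬ rI q k c + m ≤ lo q A)]
    by_cases h3 : rI q k c ≤ hi q A
    · rw [if_pos h3, if_pos (by omega)]
      norm_num
    · rw [if_neg h3, if_neg (by omega)]

end

end Vale.Agent.P167.N.H955
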