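import Vale.Agent.P167.N.H955.Sts
import Vale.Agent.P167.N.QL.LndX

/-!
# P167, `0 < q < 1`: geometry of the reflex corners of the families
-/

set_option autoImplicit false

namespace Vale.Agent.P167.N.H955

open Finset Filter Vale.Agent.P167 Vale.Agent.P167.FK
open Vale.Agent.P167.E6 (IsPolygon Encloses)
open Vale.Agent.P167.H825 (enl)
open Vale.Agent.P167.H542.Q (BD)
open Vale.Agent.P167.H760.Q (BaseQ)
open Vale.Agent.P167.N.QL (Rf BcX t0 pos_X sw_rf hlarge geoP_enl)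

variable {S : CA.Dat} {θ β : ℝ}

/-- **Geometry of the reflex corners.** -/
theorem cr_X (X : BD S θ β) {s : ℕ → ℕ} (hb : BaseQ X s) (hB : BcX X s) :
    ∃ c : ℝ, 0 < c ∧ ∀ᶠ n : ℕ in X.L,
      Cr n ⌊c * n⌋₊ ⌊c * n⌋ (X.q n) (S.D n) (X.k n) (Ic S s n) ∧
      CrW (X.q n) (X.k n) (Ic S s n) ⌊c * n⌋ := by
  have htp0 := S.tp0
  have htp1 := S.tp1
  have hl : NeZero S.l := ⟨by have := S.poly.1; omega⟩
  have hmin : 0 < min S.tp (1 - S.tp) := lt_min htp0 (by linarith)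
  have hm1 := min_le_left S.tp (1 - S.tp)
  have hm2 := min_le_right S.tp (1 - S.tp)
  obtain ⟨c, hc⟩ : ∃ c, c = min S.tp (1 - S.tp) / 16 := ⟨_, rfl⟩
  have hc0 : 0 < c := by rw [hc]; positivity
  have hB' : ∀ᶠ n in X.L, X.k n = X.N n ∨ X.k n = 0 ∨
      ∃ ia, 0 < ia ∧ ia < S.l ∧ X.k n = ia * n := by
    rcases hB with h | h | ⟨-, ia, h1, h2, h3⟩
    · exact h.mono fun n hn => Or.inl hn
    · exact h.mono fun n hn => Or.inr (Or.inl hn)
    · exact h3.mono fun n hn => Or.inr (Or.inr ⟨ia, h1, h2, hn⟩)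
  refine ⟨c, hc0, ?_⟩
  filter_upwards [pos_X X hb, X.poly, X.enc, hlarge X (1 / c), hB'] with n a1 a2 a3 a4 a5
  obtain ⟨hn, ht, hN, hpos⟩ := a1
  rw [div_le_iff₀ hc0] at a4
  obtain ⟨τ, hτ⟩ := H871.exists_bd a2 a3
  have hSW : ∀ {i : ℕ}, i ∈ Rf S → _ := fun {i} hi => sw_rf hn a2 a3 ht hN hpos hτ hi
  have hn' : (0 : ℝ) < n := by exact_mod_cast hn
  have k1 : (⌊S.tp * n⌋₊ : ℝ) ≤ S.tp * n := Nat.floor_le (by positivity)
  have k2 : S.tp * n < ⌊S.tp * n⌋₊ + 1 := Nat.lt_floor_add_one _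
  have k3 : ((s n : ℕ) : ℝ) ≤ 1 := by exact_mod_cast hb.1 n
  have k4 : (0 : ℝ) ≤ (s n : ℕ) := Nat.cast_nonneg _
  have k6 : c * n = min S.tp (1 - S.tp) * n / 16 := by rw [hc]; ring
  have k7 : min S.tp (1 - S.tp) * n ≤ S.tp * n := mul_le_mul_of_nonneg_right hm1 hn'.le
  have k8 : min S.tp (1 - S.tp) * n ≤ (1 - S.tp) * n := mul_le_mul_of_nonneg_right hm2 hn'.le
  have k9 : min S.tp (1 - S.tp) * n ≤ 1 / 2 * n := by
    refine mul_le_mul_of_nonneg_right ?_ hn'.le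
    rcases le_total S.tp (1 - S.tp) with h | h
    · rw [min_eq_left h]; linarith
    · rw [min_eq_right h]; linarith
  obtain ⟨L, hL⟩ : ∃ L, L = ⌊c * (n : ℝ)⌋₊ := ⟨_, rfl⟩
  have hL' : ⌊c * (n : ℝ)⌋ = (L : ℤ) := by
    rw [hL]
    exact (Int.natCast_floor_eq_floor (by positivity)).symm
  rw [← hL, hL']
  have l1 : (L : ℝ) ≤ c * n := by rw [hL]; exact Nat.floor_le (by positivity)
  have l0 : 1 ≤ L := by
    rw [hL]
    exact Nat.le_floor (by push_cast; linarith)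
  have l0' : (1 : ℝ) ≤ L := by exact_mod_cast l0
  have m2 : 4 * (L + 1) < ⌊S.tp * n⌋₊ + s n := by
    have : ((4 * (L + 1) : ℕ) : ℝ) < (⌊S.tp * n⌋₊ + s n : ℕ) := by push_cast; linarith
    exact_mod_cast this
  have m3 : 4 * (L + 1) + (⌊S.tp * n⌋₊ + s n) < n := by
    have : ((4 * (L + 1) + (⌊S.tp * n⌋₊ + s n) : ℕ) : ℝ) < (n : ℕ) := by
      push_cast; linarith
    exact_mod_cast this
  have m4 : 16 * L ≤ n := by
    have : ((16 * L : ℕ) : ℝ) ≤ (n : ℕ) := by push_cast; linarith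
    exact_mod_cast this
  have e0 : ⌊S.tp * n⌋₊ + s n = t0 S s n := rfl
  rw [e0] at hSW m2 m3
  have hmem : ∀ c' ∈ Ic S s n, ∃ i, i ∈ Rf S ∧ c' = i * n - t0 S s n ∧ n ≤ i * n ∧
      i * n ≤ S.l * n := by
    intro c' hc'
    obtain ⟨i, hi, rfl⟩ := mem_image.1 hc'
    have hi' := hi
    unfold Rf at hi'
    rw [mem_filter, mem_Icc] at hi'
    exact ⟨i, hi, rfl, Nat.le_mul_of_pos_left n hi'.1.1, Nat.mul_le_mul_right n hi'.1.2⟩
  have hrng : ∀ c' ∈ Ic S s n, L < c' ∧ c' + L < X.N n ∧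
      (c' + L < X.k n ∨ X.k n + L < c') := by
    intro c' hc'
    obtain ⟨i, -, rfl, h1, h2⟩ := hmem c' hc'
    rw [hN] at a5 ⊢
    refine ⟨by omega, by omega, ?_⟩
    rcases a5 with h | h | ⟨ia, h3, h4, h⟩
    · rw [h]; omega
    · rw [h]; omega
    · rw [h]
      rcases Nat.lt_or_ge ia i with h5 | h5
      · have h6 : (ia + 1) * n ≤ i * n := Nat.mul_le_mul_right n h5
        have h7 : (ia + 1) * n = ia * n + n := by ring
        omega
      · have h6 : i * n ≤ ia * n := Nat.mul_le_mul_right n h5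
        omega
  refine ⟨⟨a2, a3, ?_, ⟨S.b n, H436.geo_dat S (by omega) (by omega)⟩, hrng, ?_⟩, ⟨?_, ?_⟩⟩
  · refine geoP_enl (a := 0) S.poly S.enc hn a2 ?_
    have e1 : (enl S.Q n).image (· + (0 : ℤ × ℤ)) = S.D n := by
      simp only [add_zero, image_id']
      rfl
    rw [e1]
    exact a3
  · intro c1 hc1 c2 hc2 hlt
    obtain ⟨i, -, rfl, h1, h2⟩ := hmem c1 hc1
    obtain ⟨j, -, rfl, h3, h4⟩ := hmem c2 hc2
    have h5 : i < j := by
      by_contra hcon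
      push Not at hcon
      have h6 : j * n ≤ i * n := Nat.mul_le_mul_right n hcon
      omega
    have h6 : (i + 1) * n ≤ j * n := Nat.mul_le_mul_right n h5
    have h7 : (i + 1) * n = i * n + n := by ring
    omega
  · intro c' hc'
    obtain ⟨i, hi, rfl, h1, h2⟩ := hmem c' hc'
    exact (hSW hi).wn (by omega) (by omega) (by omega)
  · intro c' hc'
    have := hrng c' hc'
    omega

end Vale.Agent.P167.N.H955
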