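import Vale.Agent.P167.N.H955.TrN
import Vale.Agent.P167.N.QL.MajD
import Vale.Agent.P167.N.QL.Reg

/-!
# P167, `0 < q < 1`: the two inputs of the transfer for the families (definitions)

`MajNU`: majorants of the natural functionals with charges at the reflex corners, uniformly in the
distance `e` of the two charges. `CloN`: closeness when `e` is small.
-/

set_option autoImplicit false

namespace Vale.Agent.P167.N.H955

open Finset Filter Vale.Agent.P167 Vale.Agent.P167.FK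
open Vale.Agent.P167.CA (cms)
open Vale.Agent.P167.H542.Q (BD)
open Vale.Agent.P167.H718 (Dob wn wn')
open Vale.Agent.P167.H760.Q (MajY Fp BaseQ)
open Vale.Agent.P167.N.QL (cP rhoP Rf V0 BcX)

variable {S : CA.Dat} {θ β : ℝ} {f : ℂ → ℝ}

/-- **Majorants of the natural functionals**, uniformly in `e`. -/
def MajNU (X : BD S θ β) (s : ℕ → ℕ) (f : ℂ → ℝ) (δ : ℝ) : Prop :=
  ∃ c C e0 : ℝ, 0 < c ∧ 0 < C ∧ 0 < e0 ∧ ∀ e : ℝ, 0 < e → e ≤ e0 → ∀ᶠ n : ℕ in X.L,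
    0 < V0 X (rhoP X s e (Rf S)) n ∧ ∀ z : ℤ × ℤ, Fp S δ n z →
    ∀ R : ℤ, (R : ℝ) ≤ c * n → ∀ η : Cfg, Dob η (S.D n) (X.q n) (X.k n) →
    MajY (2 * Real.cos θ) (S.D n) η
      (wn θ β (X.q n) (S.D n) (X.k n) (cms f (1 / n)))
      (wn' θ β (X.q n) (S.D n) (X.k n) (cms f (1 / n))) z R C ∧
    MajY (2 * Real.cos θ) (S.D n) η
      (wn θ β (X.q n) (S.D n) (X.k n) (cP (X.q n) (rhoP X s e (Rf S) n) (cms f (1 / n))))
      (wn' θ β (X.q n) (S.D n) (X.k n) (cP (X.q n) (rhoP X s e (Rf S) n) (cms f (1 / n)))) z R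
      (C * V0 X (rhoP X s e (Rf S)) n)

/-- **Closeness** of the natural functionals and of those with charges, for small `e`. -/
def CloN (X : BD S θ β) (s : ℕ → ℕ) (f : ℂ → ℝ) (δ : ℝ) : Prop :=
  ∀ μ ε : ℝ, 0 < μ → 0 < ε → ∃ e0 : ℝ, 0 < e0 ∧ ∀ e : ℝ, 0 < e → e ≤ e0 → ∀ᶠ n : ℕ in X.L,
    ∀ m : ℤ, μ * n ≤ m → (m : ℝ) ≤ δ / 8 * n → ∀ η : Cfg, Dob η (S.D n) (X.q n) (X.k n) →
    CloP (2 * Real.cos θ) (S.D n) η
      (wn θ β (X.q n) (S.D n) (X.k n) (cms f (1 / n)))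
      (wn' θ β (X.q n) (S.D n) (X.k n) (cms f (1 / n)))
      (wn θ β (X.q n) (S.D n) (X.k n) (cP (X.q n) (rhoP X s e (Rf S) n) (cms f (1 / n))))
      (wn' θ β (X.q n) (S.D n) (X.k n) (cP (X.q n) (rhoP X s e (Rf S) n) (cms f (1 / n))))
      (V0 X (rhoP X s e (Rf S)) n) {z | Fp S δ n z} m ε

end Vale.Agent.P167.N.H955
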