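import Vale.Agent.P167.N.H955.Pt

/-!
# P167, `0 < q < 1`: closeness of two functionals at the level of the polygon
-/

set_option autoImplicit false

namespace Vale.Agent.P167.N.H955

open Finset Vale.Agent.P167 Vale.Agent.P167.BR Vale.Agent.P167.FK Vale.Agent.P167.FKA
open Vale.Agent.P167.H365.NQ (XW TW)

/-- **Closeness at the level of the polygon**: `w` and `V0⁻¹ v` have close values, and close values of
all functionals with coefficients at pieces which go from the box of radius `m / 4` around a point `z0`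
of `Zs` to distance `m`. -/
structure CloP (Q : ℝ) (D : Finset (ℤ × ℤ)) (η : Cfg) (w w' v v' : Finset Ed → ℝ) (V0 : ℝ)
    (Zs : Set (ℤ × ℤ)) (m : ℤ) (ε : ℝ) : Prop where
  V : |Ex Q D η (XW D w) - V0⁻¹ * Ex Q D η (XW D v)| ≤ ε
  G : ∀ z0 ∈ Zs, ∀ g : Finset Ed → ℝ, (∀ ω, ∀ A ∈ pcs ω D, |g A| ≤ 2) →
    (∀ ω, ∀ A ∈ pcs ω D, g A ≠ 0 → (∃ e ∈ A, nm (hdv e - z0) ≤ m / 4 + 2) ∧
      ∃ e ∈ A, m - 2 ≤ nm (hdv e - z0)) →
    |Ex Q D η (GT D w w' g) - V0⁻¹ * Ex Q D η (GT D v v' g)| ≤ ε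

end Vale.Agent.P167.N.H955
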