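import Vale.Agent.P167.N.H955.Um
import Vale.Agent.P167.N.QL.Mom
import Vale.Agent.P167.N.H601.M.Top

/-!
# P167, `0 < q < 1`: uniform majorants, moments

`mom_um`: exponential moments of the number of the large pieces, weighted by any function of the boxes
around finitely many points. `UmY`: the common majorant of `w`, `v`.
-/

set_option autoImplicit false

namespace Vale.Agent.P167.N.H955

open Finset Filter Topology Relation Vale.Agent.P167 Vale.Agent.P167.BR Vale.Agent.P167.FK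
open Vale.Agent.P167.E6 (IsPolygon Encloses)
open Vale.Agent.P167.FKA (Ex_mono Ex_congr Ex_mul_left Ex_nonneg)
open Vale.Agent.P167.H562.SML
open Vale.Agent.P167.H562.MAJ (Sm bigs)
open Vale.Agent.P167.H562.QM (YQ YQ_pos OneC MajA)
open Vale.Agent.P167.H542.Q (cB)
open Vale.Agent.P167.H365.NQ (XW TW)
open Vale.Agent.P167.H718 (Dob wn wn')
open Vale.Agent.P167.H718.Lam (Ex_eta)
open Vale.Agent.P167.H852.Q (ZG Sm_congr im_mom)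
open Vale.Agent.P167.N.QL (wP cP rI phP mix mix_in mix_out mix_cf card_bigs)

variable {Q : ℝ} {Z D : Finset (ℤ × ℤ)} {h : ℤ × ℤ → ℝ} {κ κ0 Mf R1 θ β M : ℝ} {n N k m L : ℕ}
  {kz r R g : ℤ} {q : ZMod N → ℤ × ℤ} {I : Finset ℕ} {ω : Cfg} {A : Finset Ed}

/-- **Moments of the number of the large pieces**, weighted by a function of some boxes. -/
theorem mom_um (hQ : Kit Q) (hR : RSW Q) (ms : ℕ) {κ σ Rd s : ℝ} (hκ : 0 < κ) (hκσ : κ < σ)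
    (hRd : 0 ≤ Rd) : ∃ (c C : ℝ) (n₀ : ℕ), 0 < c ∧ 0 < C ∧ ∀ n : ℕ, n₀ ≤ n →
      ∀ {N k : ℕ} {q : ZMod N → ℤ × ℤ} {D : Finset (ℤ × ℤ)} {η₀ : Cfg}, IsPolygon q →
      Encloses q D → k ≤ N → Dob η₀ D q k → Good η₀ →
      (∀ (x : ℤ × ℤ) (R : ℤ), 1 ≤ R → R ≤ ⌊σ * n⌋ → (∃ v ∈ D, nm (x - v) ≤ ⌊σ * n⌋) →
        OneC x R D η₀) →
      (∃ x₀ : ℤ × ℤ, ∀ v ∈ D, (nm (v - x₀) : ℝ) ≤ Rd * n) → ∀ X : Finset (ℤ × ℤ), X.card ≤ ms →
      ∀ z : ℤ × ℤ, ∃ Nc : Cfg → ℕ,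
        (∀ ω ω' : Cfg, (∀ v : ℤ × ℤ, c * n < nm (v - z) → ω v = ω' v) → Nc ω = Nc ω') ∧
        (∀ ω, (bigs D D (κ * n) ω).card ≤ Nc ω) ∧
        ∀ η : Cfg, Dob η D q k → ∀ G : Cfg → ℝ, (∀ ω, 0 ≤ G ω) →
          (∀ ω ω' : Cfg, (∀ v ∈ D, (∃ x ∈ X, (nm (v - x) : ℝ) ≤ c * n) → ω v = ω' v) →
            G ω = G ω') →
          Ex Q D η (fun ω => G ω * Real.exp (s * (Nc ω : ℝ))) ≤ C * Ex Q D η G := by
  classical
  have hQ0 := hQ.pos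
  obtain ⟨e1, he1, HT⟩ := N.H601.M.top_num hQ hR (ms + 1)
  obtain ⟨C, n₀, hC, HT⟩ := HT κ Rd s hκ hRd
  obtain ⟨n₁, hn₁⟩ := exists_nat_ge (1 / (σ - κ))
  have hp : 0 < 1 + |s| := by positivity
  refine ⟨e1 * κ / (1 + |s|), C, max n₀ n₁, by positivity, hC,
    fun n hn N k q D η₀ hq hD hk hη₀ hgood hone hdia X hX z => ?_⟩
  obtain ⟨x₀, hx₀⟩ := hdia
  obtain ⟨Nf, t1, t2, t3⟩ := HT n ((le_max_left _ _).trans hn) x₀ D hx₀ (insert z X)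
    ((card_insert_le _ _).trans (by omega))
  have hn1 : (n₁ : ℝ) ≤ n := by exact_mod_cast (le_max_right _ _).trans hn
  have hm0 : κ * n ≤ ((⌊σ * n⌋ : ℤ) : ℝ) := by
    have h1 : 1 / (σ - κ) ≤ n := hn₁.trans hn1
    rw [div_le_iff₀ (by linarith)] at h1
    have h2 := Int.lt_floor_add_one (σ * (n : ℝ))
    nlinarith
  refine ⟨fun ω => Nf (mix D η₀ ω), fun ω ω' h => t1 _ _ fun v hv => ?_, fun ω => ?_,
    fun η hη G hG0 hG => ?_⟩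
  · by_cases hv' : v ∈ D
    · rw [mix_in hv', mix_in hv', h v (hv z (mem_insert_self _ _))]
    · rw [mix_out hv', mix_out hv']
  · have h3 : bigs D D (κ * n) ω = bigs D D (κ * n) (mix D η₀ ω) := by
      unfold bigs
      rw [pcs_congr fun v hv => (mix_in hv).symm]
    rw [h3]
    exact card_bigs (t2 _)
  · have key := t3 η₀ ⌊σ * n⌋ hgood hone hm0 G hG0 fun ω ω' hω => hG ω ω' fun v hv hx =>
      hω v fun h' => by
        obtain ⟨x, hx, h4⟩ := hx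
        have := h'.2 x (mem_insert_of_mem hx)
        linarith
    have hGD : ∀ ω ω' : Cfg, (∀ v ∈ D, ω v = ω' v) → G ω = G ω' := fun ω ω' h =>
      hG ω ω' fun v hv _ => h v hv
    rw [Ex_eta hq hD hk hη hη₀ hQ0 (fun ω ω' h => ?_), Ex_eta hq hD hk hη hη₀ hQ0 hGD]
    · refine le_trans (le_of_eq ?_) key
      refine Ex_congr fun T _ => ?_
      simp only [mix_cf]
    · have h4 : mix D η₀ ω = mix D η₀ ω' := by
        funext v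
        by_cases hv' : v ∈ D
        · rw [mix_in hv', mix_in hv', h v hv']
        · rw [mix_out hv', mix_out hv']
      simp only [h4, hGD ω ω' h]

/-- **The common majorant** of the functional `w` and of its modification `v`, which vanishes where
`K` vanishes. -/
structure UmY (Q : ℝ) (D : Finset (ℤ × ℤ)) (q : ZMod N → ℤ × ℤ) (k : ℕ) (I : Finset ℕ)
    (K : Cfg → ℝ) (w w' v v' : Finset Ed → ℝ) (z : ℤ × ℤ) (R r : ℤ) (d b C : ℝ) : Prop where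
  ex : ∃ Y : Cfg → ℝ, (∀ ω, 0 ≤ Y ω) ∧
    (∀ ω ω' : Cfg, (∀ u : ℤ × ℤ, R < nm (u - z) → ω u = ω' u) → Y ω = Y ω') ∧
    (∀ ω, |XW D w ω| ≤ Y ω) ∧ (∀ ω, |XW D v ω| ≤ K ω * Y ω) ∧
    (∀ ω, ∀ A ∈ pcs ω D, (1 + ((bigs D D d ω).card : ℝ)) * |TW D w w' ω A| ≤ Y ω) ∧
    (∀ ω, ∀ A ∈ pcs ω D, ¬ InC q I r A →
      (1 + ((bigs D D d ω).card : ℝ)) * |TW D v v' ω A| ≤ K ω * Y ω) ∧
    ∀ η : Cfg, Dob η D q k → ∀ G : Cfg → ℝ, (∀ ω, 0 ≤ G ω) →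
      (∀ ω ω' : Cfg, (∀ u ∈ D, (∃ c ∈ I, (nm (u - q (c : ZMod N)) : ℝ) ≤ b) → ω u = ω' u) →
        G ω = G ω') → Ex Q D η (fun ω => G ω * Y ω ^ 2) ≤ C * Ex Q D η G

theorem Cr.empty (H : Cr n L g q D k I) : Cr n L g q D k ∅ :=
  ⟨H.poly, H.enc, H.geo, H.pc, fun _ h => absurd h (notMem_empty _),
    fun _ h => absurd h (notMem_empty _)⟩

theorem CrW.empty : CrW q k ∅ R :=
  ⟨fun _ h => absurd h (notMem_empty _), fun _ h => absurd h (notMem_empty _)⟩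

/-- The factor `1 + N`. -/
theorem yq_two {t d x : ℝ} (hM : 1 ≤ M) {Nc : Cfg → ℕ} {N0 : ℕ} (hN : N0 ≤ Nc ω) {a : ℝ}
    (ha : 0 ≤ a) (hx : |x| ≤ a * YQ M t Nc h d ω) :
    (1 + (N0 : ℝ)) * |x| ≤ a * YQ (2 * M) t Nc h d ω := by
  have h1 : (1 + (N0 : ℝ)) ≤ 2 ^ Nc ω := by
    have h2 : 1 + N0 ≤ 2 ^ Nc ω := by
      have h3 : Nc ω < 2 ^ Nc ω := Nat.lt_two_pow_self
      omega
    exact_mod_cast h2
  have e : YQ (2 * M) t Nc h d ω = 2 ^ Nc ω * YQ M t Nc h d ω := by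
    unfold YQ
    rw [mul_pow]
    ring
  rw [e]
  calc (1 + (N0 : ℝ)) * |x| ≤ 2 ^ Nc ω * (a * YQ M t Nc h d ω) :=
        mul_le_mul h1 hx (abs_nonneg _) (by positivity)
    _ = _ := by ring

theorem yq_le {t d : ℝ} (hM : 1 ≤ M) {Nc : Cfg → ℕ} :
    YQ M t Nc h d ω ≤ YQ (2 * M) t Nc h d ω := by
  unfold YQ
  refine mul_le_mul_of_nonneg_right (pow_le_pow_left₀ (by linarith) (by linarith) _)
    (Real.exp_pos _).le

theorem yq_sq {t d : ℝ} {Nc : Cfg → ℕ} :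
    YQ M t Nc h d ω ^ 2 = YQ (M ^ 2) (2 * t) Nc h d ω := by
  unfold YQ
  rw [mul_pow, ← Real.exp_nat_mul, ← pow_mul, ← pow_mul, mul_comm 2 (Nc ω)]
  congr 2
  push_cast
  ring

/-- **The majorant, for one mesh.** -/
theorem umY (h1 : Ang θ) (hβ : Real.cos (θ / 2 + β) = Real.sin θ)
    (HZ : ZG D h κ κ0 Mf R1 n Z kz) (hMf : 0 ≤ Mf) (H : Cr n L g q D k I) (HW : CrW q k I R)
    (hdw : Mf / (n : ℝ) ^ 2 * (κ * n) ^ 2 ≤ dw θ) (hM : (cB θ)⁻¹ ≤ M) (hM1 : 1 ≤ M) (hm : 0 < m)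
    (hmr : (m : ℝ) + 2 + κ * n < r) (hrk : (r : ℝ) + (κ * n + 1) + 1 ≤ kz)
    (hrn : 6 * r < n) (hrL : 4 * r ≤ L) (hrR : r + 1 ≤ R) (hRL : R + m + 1 < L) {z : ℤ × ℤ}
    {Rz : ℤ} (hwin : ∀ v : ℤ × ℤ, (∃ u ∈ Z, (nm (v - u) : ℝ) ≤ 2 * (κ * n) + 1) → Rz < nm (v - z))
    {Nc : Cfg → ℕ} (hN1 : ∀ ω ω' : Cfg, (∀ v : ℤ × ℤ, Rz < nm (v - z) → ω v = ω' v) →
      Nc ω = Nc ω') (hN2 : ∀ ω, (bigs D D (κ * n) ω).card ≤ Nc ω) {b C1 C3 : ℝ} (hC1 : 0 < C1)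
    (hC3 : 0 < C3)
    (hmom : ∀ η : Cfg, Dob η D q k → ∀ G : Cfg → ℝ, (∀ ω, 0 ≤ G ω) →
      (∀ ω ω' : Cfg, (∀ u ∈ D, (∃ c ∈ I, (nm (u - q (c : ZMod N)) : ℝ) ≤ b) → ω u = ω' u) →
        G ω = G ω') →
      Ex (2 * Real.cos θ) D η (fun ω => G ω * Real.exp (2 * Real.log ((2 * M) ^ 2) * (Nc ω : ℝ))) ≤
        C1 * Ex (2 * Real.cos θ) D η G ∧
      Ex (2 * Real.cos θ) D η (fun ω => G ω *
        Real.exp (-(2 * Real.tan θ * Sm h (κ * n) ω)) ^ 2) ≤ C3 * Ex (2 * Real.cos θ) D η G) :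
    UmY (2 * Real.cos θ) D q k I (KI q D k I m) (wn θ β q D k h) (wn' θ β q D k h)
      (wn θ β q D k (cP q (phP θ q k I m) h)) (wn' θ β q D k (cP q (phP θ q k I m) h)) z Rz r
      (κ * n) b ((3 * M * (2 * Real.cos θ)⁻¹ ^ I.card) ^ 2 * (Real.sqrt C1 * Real.sqrt C3)) := by
  have hQ0 : 0 < 2 * Real.cos θ := h1.kit.pos
  have hQ1 : 2 * Real.cos θ < 1 := h1.kit.lt
  have hκn := HZ.κn
  have hA0 : 1 ≤ (2 * Real.cos θ)⁻¹ ^ I.card := one_le_pow₀ ((one_le_inv₀ hQ0).2 hQ1.le)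
  obtain ⟨a, ha⟩ : ∃ a, a = 3 * M * (2 * Real.cos θ)⁻¹ ^ I.card := ⟨_, rfl⟩
  have ha1 : 1 ≤ a := by
    rw [ha]
    nlinarith
  rw [← ha]
  have hY0 : ∀ ω, 0 < YQ (2 * M) (Real.tan θ) Nc h (κ * n) ω := fun ω =>
    YQ_pos (by linarith) _ _ _ _ _
  have hY1 : ∀ ω, 0 < YQ M (Real.tan θ) Nc h (κ * n) ω := fun ω =>
    YQ_pos (by linarith) _ _ _ _ _
  have hw : cP q (phP θ q k ∅ m) h = h := by
    rw [QL.phP_empty]
    funext z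
    unfold cP
    rw [QL.gch_zero, add_zero]
  have H0 := H.empty
  have HW0 : CrW q k ∅ R := CrW.empty
  have x1 := xw_um HZ h1 hβ hMf H0 HW0 hdw hM hm hmr hrk hrn hrL hrR hRL hN2
  have x2 := xw_um HZ h1 hβ hMf H HW hdw hM hm hmr hrk hrn hrL hrR hRL hN2
  have t1 := fun {ω : Cfg} {A : Finset Ed} (hA : A ∈ pcs ω D) =>
    tw_um HZ h1 hβ hMf H0 HW0 hdw hM hm hmr hrk hrn hrL hrR hRL hN2 hA
      (by rintro ⟨c, hc, -⟩; exact absurd hc (notMem_empty _))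
  have t2 := fun {ω : Cfg} {A : Finset Ed} (hA : A ∈ pcs ω D) =>
    tw_um HZ h1 hβ hMf H HW hdw hM hm hmr hrk hrn hrL hrR hRL hN2 hA
  rw [hw] at x1
  simp only [hw] at t1
  have e0 : ∀ ω, KI q D k ∅ m ω = 1 := fun ω => by unfold KI; rw [prod_empty]
  simp only [e0, card_empty, pow_zero, one_mul] at x1 t1
  refine ⟨⟨fun ω => a * YQ (2 * M) (Real.tan θ) Nc h (κ * n) ω, fun ω =>
    mul_nonneg (by linarith) (hY0 ω).le, fun ω ω' hω => ?_, fun ω => ?_, fun ω => ?_,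
    fun ω A hA => ?_, fun ω A hA hI => ?_, fun η hη G hG0 hG => ?_⟩⟩
  · have e1 : Nc ω = Nc ω' := hN1 ω ω' hω
    have e2 : Sm h (κ * n) ω = Sm h (κ * n) ω' := Sm_congr HZ.supp fun v hv => hω v (hwin v hv)
    show a * YQ _ _ _ _ _ ω = a * YQ _ _ _ _ _ ω'
    unfold YQ
    rw [e1, e2]
  · refine ((x1 ω).trans (yq_le hM1)).trans (le_mul_of_one_le_left (hY0 ω).le ha1)
  · refine (x2 ω).trans ?_
    have h5 : 0 ≤ KI q D k I m ω := KI_nonneg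
    have h6 : YQ M (Real.tan θ) Nc h (κ * n) ω ≤ YQ (2 * M) (Real.tan θ) Nc h (κ * n) ω :=
      yq_le hM1
    have h7 : (2 * Real.cos θ)⁻¹ ^ I.card ≤ a := by
      rw [ha]
      nlinarith
    calc (2 * Real.cos θ)⁻¹ ^ I.card * KI q D k I m ω * YQ M (Real.tan θ) Nc h (κ * n) ω
        ≤ a * KI q D k I m ω * YQ (2 * M) (Real.tan θ) Nc h (κ * n) ω :=
          mul_le_mul (mul_le_mul_of_nonneg_right h7 h5) h6 (hY1 ω).le
            (mul_nonneg (by linarith) h5)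
      _ = _ := by ring
  · have h6 := yq_two hM1 (hN2 ω) (a := 3 * M) (by linarith) (t1 hA)
    refine h6.trans (mul_le_mul_of_nonneg_right ?_ (hY0 ω).le)
    rw [ha]
    nlinarith
  · have h5 : 0 ≤ KI q D k I m ω := KI_nonneg
    have h7 := t2 hA hI
    have h6 := yq_two hM1 (hN2 ω) (a := a * KI q D k I m ω) (mul_nonneg (by linarith) h5)
      (h7.trans (le_of_eq (by rw [ha]; ring)))
    exact h6.trans (le_of_eq (by ring))
  · obtain ⟨g1, g2⟩ := hmom η hη G hG0 hG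
    have h8 := im_mom (η := η) (Nc := Nc) (t := 2 * Real.tan θ) (M := (2 * M) ^ 2) hQ0
      (by nlinarith) hC1 hC3 hG0 g1 g2
    have e1 : Ex (2 * Real.cos θ) D η (fun ω => G ω *
        (a * YQ (2 * M) (Real.tan θ) Nc h (κ * n) ω) ^ 2) = a ^ 2 *
        Ex (2 * Real.cos θ) D η (fun ω => G ω *
          YQ ((2 * M) ^ 2) (2 * Real.tan θ) Nc h (κ * n) ω) := by
      rw [← Ex_mul_left]
      refine Ex_congr fun S _ => ?_
      rw [mul_pow, yq_sq]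
      ring
    rw [e1]
    refine (mul_le_mul_of_nonneg_left h8 (sq_nonneg a)).trans (le_of_eq (by ring))

end Vale.Agent.P167.N.H955
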