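import Vale.Agent.P167.N.H955.CloM
import Vale.Agent.P167.N.H955.Um2
import Vale.Agent.P167.N.H955.TrN
import Vale.Agent.P167.H718.Lam.Asm1

/-!
# P167, `0 < q < 1`: closeness at one mesh
-/

set_option autoImplicit false

namespace Vale.Agent.P167.N.H955

open Finset Filter Topology Vale.Agent.P167 Vale.Agent.P167.BR Vale.Agent.P167.FK
open Vale.Agent.P167.FKA (Ex_mono Ex_congr Ex_mul_left Ex_nonneg Ex_const Loc)
open Vale.Agent.P167.H562.MAJ (bigs)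
open Vale.Agent.P167.H562.SML
open Vale.Agent.P167.H365.NQ (XW TW)
open Vale.Agent.P167.H718 (Dob)
open Vale.Agent.P167.H852.Q (vz_self)
open Vale.Agent.P167.H760.Q (MajY)
open Vale.Agent.P167.E6 (IsPolygon Encloses)

variable {Q ε p A C C2 d b : ℝ} {D : Finset (ℤ × ℤ)} {η : Cfg} {r R Rz b0 b1 b2 b3 m : ℤ}
  {N k : ℕ} {q : ZMod N → ℤ × ℤ} {I : Finset ℕ} {T T' : ℕ → Cfg → ℝ} {K : Cfg → ℝ}
  {w w' v v' w0 w0' v0 v0' g : Finset Ed → ℝ} {z : ℤ × ℤ} {ω : Cfg}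

/-- **The terms with coefficients**: the coefficients are at large pieces. -/
theorem gt_le {Y : ℝ} (hY : 0 ≤ Y) (hg : ∀ A ∈ pcs ω D, |g A| ≤ 2)
    (hg' : ∀ A ∈ pcs ω D, g A ≠ 0 → ¬ Small d A)
    (hT : ∀ A ∈ pcs ω D, g A ≠ 0 → (1 + ((bigs D D d ω).card : ℝ)) * |TW D w w' ω A| ≤ Y) :
    |GT D w w' g ω| ≤ 2 * Y := by
  classical
  unfold GT
  have h1 : ∑ A ∈ pcs ω D, g A * TW D w w' ω A =
      ∑ A ∈ (pcs ω D).filter (fun A => g A ≠ 0), g A * TW D w w' ω A := by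
    rw [sum_filter]
    refine sum_congr rfl fun A _ => ?_
    split_ifs with h
    · rfl
    · rw [not_not.1 h, zero_mul]
  rw [h1]
  have hsub : (pcs ω D).filter (fun A => g A ≠ 0) ⊆ bigs D D d ω := by
    intro A hA
    rw [mem_filter] at hA
    exact mem_filter.2 ⟨hA.1, vz_self hA.1, hg' A hA.1 hA.2⟩
  have hc : (((pcs ω D).filter (fun A => g A ≠ 0)).card : ℝ) ≤ (bigs D D d ω).card := by
    exact_mod_cast card_le_card hsub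
  obtain ⟨N0, hN0⟩ : ∃ N0 : ℝ, N0 = ((bigs D D d ω).card : ℝ) := ⟨_, rfl⟩
  have hN1 : 0 ≤ N0 := by rw [hN0]; positivity
  rw [← hN0] at hc
  refine (abs_sum_le_sum_abs _ _).trans ?_
  have h2 : ∀ A ∈ (pcs ω D).filter (fun A => g A ≠ 0), |g A * TW D w w' ω A| ≤
      2 * (Y / (1 + N0)) := by
    intro A hA
    rw [mem_filter] at hA
    rw [abs_mul]
    refine mul_le_mul (hg A hA.1) ?_ (abs_nonneg _) (by norm_num)
    rw [le_div_iff₀ (by linarith), mul_comm, hN0]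
    exact hT A hA.1 hA.2
  refine (sum_le_card_nsmul _ _ _ h2).trans ?_
  rw [nsmul_eq_mul]
  have h3 : 0 ≤ 2 * (Y / (1 + N0)) := by positivity
  refine (mul_le_mul_of_nonneg_right hc h3).trans ?_
  have h4 : N0 * (2 * (Y / (1 + N0))) = 2 * Y * (N0 / (1 + N0)) := by ring
  rw [h4]
  refine mul_le_of_le_one_right (by linarith) ?_
  rw [div_le_one (by linarith)]
  linarith

/-- The standing hypotheses at one mesh. -/
structure Msh (Q : ℝ) (D : Finset (ℤ × ℤ)) (η : Cfg) (q : ZMod N → ℤ × ℤ) (k : ℕ) (I : Finset ℕ)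
    (T T' : ℕ → Cfg → ℝ) (w w' v v' w0 w0' v0 v0' : Finset Ed → ℝ) (b0 b1 b2 b3 r Rz : ℤ)
    (z : ℤ × ℤ) (A p ε d b C C2 : ℝ) (ms : ℕ) : Prop where
  Q0 : 0 < Q
  card : I.card ≤ ms
  clo : CloH Q D η I (fun c => q (c : ZMod N)) T T' b1 b2
    (fun c => Arm D (q (c : ZMod N)) b0 b1) (fun c => Arm D (q (c : ZMod N)) b2 b3) A p ε
  mod : ModW D I (fun c => q (c : ZMod N)) w w' v v' b0 b3
  mod0 : ModW D I (fun c => q (c : ZMod N)) w0 w0' v0 v0' b0 b3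
  tl : ∀ c ∈ I, T c = Tl v D (q (c : ZMod N)) b0 b1
  tl0 : ∀ c ∈ I, T c = Tl v0 D (q (c : ZMod N)) b0 b1
  ind : ∀ c ∈ I, ∀ ω, T' c ω = 0 ∨ T' c ω = 1
  loc' : ∀ c ∈ I, ∀ ω ω' : Cfg, (∀ u ∈ D, (nm (u - q (c : ZMod N)) : ℝ) ≤ b → ω u = ω' u) →
    T' c ω = T' c ω'
  um : UmY Q D q k I (fun ω => ∏ c ∈ I, T' c ω) w w' v v' z Rz r d b C
  um0 : UmY Q D q k I (fun ω => ∏ c ∈ I, T' c ω) w0 w0' v0 v0' z Rz r d b C
  C0 : 0 ≤ C
  C20 : 0 ≤ C2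
  ek : Ex Q D η (fun ω => ∏ c ∈ I, T' c ω) ≤ C2 * ∏ c ∈ I, Ex Q D η (T c)
  tpos : 0 < ∏ c ∈ I, Ex Q D η (T c)
  one : ∀ ω, XW D w0 ω = 1
  dob : Dob η D q k
  b01 : b0 + 2 ≤ b1
  b13 : b1 ≤ b3
  b23 : b2 + 2 ≤ b3
  rb : b3 ≤ r

theorem UmY.mom {w w' v v' : Finset Ed → ℝ}
    (h : UmY Q D q k I (fun ω => ∏ c ∈ I, T' c ω) w w' v v' z Rz r d b C)
    (hQ : 0 < Q) (hη : Dob η D q k) (hT0 : ∀ c ∈ I, ∀ ω, 0 ≤ T' c ω)
    (hloc : ∀ c ∈ I, ∀ ω ω' : Cfg, (∀ u ∈ D, (nm (u - q (c : ZMod N)) : ℝ) ≤ b → ω u = ω' u) →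
    T' c ω = T' c ω') : ∃ Y : Cfg → ℝ, (∀ ω, 0 ≤ Y ω) ∧
      (∀ ω ω' : Cfg, (∀ u : ℤ × ℤ, Rz < nm (u - z) → ω u = ω' u) → Y ω = Y ω') ∧
    (∀ ω, |XW D w ω| ≤ Y ω) ∧ (∀ ω, |XW D v ω| ≤ (∏ c ∈ I, T' c ω) * Y ω) ∧
    (∀ ω, ∀ A ∈ pcs ω D, (1 + ((bigs D D d ω).card : ℝ)) * |TW D w w' ω A| ≤ Y ω) ∧
    (∀ ω, ∀ A ∈ pcs ω D, ¬ InC q I r A →
      (1 + ((bigs D D d ω).card : ℝ)) * |TW D v v' ω A| ≤ (∏ c ∈ I, T' c ω) * Y ω) ∧
    Ex Q D η (fun ω => (∏ c ∈ I, T' c ω) * Y ω ^ 2) ≤ C * Ex Q D η (fun ω => ∏ c ∈ I, T' c ω) ∧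
    Ex Q D η (fun ω => Y ω ^ 2) ≤ C := by
  obtain ⟨Y, y1, y2, y3, y4, y5, y6, y7⟩ := h.ex
  refine ⟨Y, y1, y2, y3, y4, y5, y6, y7 η hη _ (fun ω => prod_nonneg fun c hc => hT0 c hc ω)
    fun ω ω' hω => prod_congr rfl fun c hc => hloc c hc ω ω' fun u hu h1 => hω u hu ⟨c, hc, h1⟩, ?_⟩
  have h2 := y7 η hη (fun _ => 1) (fun _ => zero_le_one) fun _ _ _ => rfl
  simp only [one_mul] at h2
  rw [Ex_const hQ, mul_one] at h2
  exact h2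

variable {ms : ℕ}

section

variable (H : Msh Q D η q k I T T' w w' v v' w0 w0' v0 v0' b0 b1 b2 b3 r Rz z A p ε d b C C2 ms)

include H

theorem Msh.T'0 : ∀ c ∈ I, ∀ ω, 0 ≤ T' c ω := fun c hc ω => H.clo.T'0 hc ω

/-- The closeness of the functionals. -/
theorem Msh.rel : |Ex Q D η (XW D v) - (∏ c ∈ I, Ex Q D η (T c)) * Ex Q D η (XW D w)| ≤
    (∏ c ∈ I, Ex Q D η (T c)) * Dl A C C2 p ε ms ∧ |Ex Q D η (XW D w)| ≤ Real.sqrt C := by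
  obtain ⟨Y, y1, -, y3, y4, -, -, y7, y8⟩ := H.um.mom H.Q0 H.dob H.T'0 H.loc'
  refine ⟨clo_rel H.Q0 H.clo H.C0 y4 y3 y7 y8 (fun ω hω => ?_) ?_ H.card H.C20 H.ek,
    ex_le_sqrt H.Q0 H.C0 y3 y8⟩
  · rw [xw_mod H.mod H.b01 H.b13 hω]
    congr 1
    exact prod_congr rfl fun c hc => by rw [H.tl c hc]
  · exact xw_off H.mod H.b23

/-- The reference functional. -/
theorem Msh.rel0 : |Ex Q D η (XW D v0) - ∏ c ∈ I, Ex Q D η (T c)| ≤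
    (∏ c ∈ I, Ex Q D η (T c)) * Dl A C C2 p ε ms := by
  obtain ⟨Y, y1, -, y3, y4, -, -, y7, y8⟩ := H.um0.mom H.Q0 H.dob H.T'0 H.loc'
  have h := clo_rel H.Q0 H.clo (X := XW D w0) (X' := XW D v0) H.C0 y4 y3 y7 y8 (fun ω hω => by
    rw [xw_mod H.mod0 H.b01 H.b13 hω]
    congr 1
    exact prod_congr rfl fun c hc => by rw [H.tl0 c hc]) (xw_off H.mod0 H.b23) H.card H.C20 H.ek
  have e : Ex Q D η (XW D w0) = 1 := by
    rw [← Ex_const (Q := Q) (D := D) (η := η) H.Q0 1]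
    exact Ex_congr fun S _ => H.one _
  rwa [e, mul_one] at h

/-- **The value of the reference functional.** -/
theorem Msh.val (hd : Dl A C C2 p ε ms ≤ 1 / 2) : 0 < Ex Q D η (XW D v0) ∧
    Ex Q D η (fun ω => ∏ c ∈ I, T' c ω) ≤ 2 * C2 * Ex Q D η (XW D v0) := by
  have hd0 := dl_nonneg (C := C) (p := p) (k := ms) H.clo.A1 H.C20 H.clo.ε0
  obtain ⟨h1, h2, -⟩ := clo_div (x := 0) (x' := 0) (B := 0) H.tpos hd0 hd H.rel0
    (by rw [mul_zero, sub_zero, abs_zero]; have := H.tpos; positivity) (by rw [abs_zero])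
  refine ⟨h2, H.ek.trans ?_⟩
  have := mul_le_mul_of_nonneg_left h1 H.C20
  linarith

/-- The closeness of the terms. -/
theorem Msh.relG (hg : ∀ ω, ∀ A ∈ pcs ω D, |g A| ≤ 2)
    (hg' : ∀ ω, ∀ A ∈ pcs ω D, g A ≠ 0 → ¬ Small d A ∧ ¬ InC q I r A) :
    |Ex Q D η (GT D v v' g) - (∏ c ∈ I, Ex Q D η (T c)) * Ex Q D η (GT D w w' g)| ≤
    (∏ c ∈ I, Ex Q D η (T c)) * Dl A (4 * C) C2 p ε ms ∧
    |Ex Q D η (GT D w w' g)| ≤ Real.sqrt (4 * C) := by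
  obtain ⟨Y, y1, -, -, -, y5, y6, y7, y8⟩ := H.um.mom H.Q0 H.dob H.T'0 H.loc'
  have hC := H.C0
  have hK0 : ∀ ω, 0 ≤ ∏ c ∈ I, T' c ω := fun ω => prod_nonneg fun c hc => H.T'0 c hc ω
  have x1 : ∀ ω, |GT D w w' g ω| ≤ 2 * Y ω := fun ω =>
    gt_le (y1 ω) (hg ω) (fun A hA h => (hg' ω A hA h).1) fun A hA _ => y5 ω A hA
  have x2 : ∀ ω, |GT D v v' g ω| ≤ (∏ c ∈ I, T' c ω) * (2 * Y ω) := fun ω => by
    have := gt_le (w := v) (w' := v') (mul_nonneg (hK0 ω) (y1 ω)) (hg ω)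
      (fun A hA h => (hg' ω A hA h).1) fun A hA h => y6 ω A hA (hg' ω A hA h).2
    linarith
  have x3 : Ex Q D η (fun ω => (∏ c ∈ I, T' c ω) * (2 * Y ω) ^ 2) ≤
      4 * C * Ex Q D η (fun ω => ∏ c ∈ I, T' c ω) := by
    have e : Ex Q D η (fun ω => (∏ c ∈ I, T' c ω) * (2 * Y ω) ^ 2) =
        4 * Ex Q D η (fun ω => (∏ c ∈ I, T' c ω) * Y ω ^ 2) := by
      rw [← Ex_mul_left]
      exact Ex_congr fun S _ => by ring
    rw [e]
    linarith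
  have x4 : Ex Q D η (fun ω => (2 * Y ω) ^ 2) ≤ 4 * C := by
    have e : Ex Q D η (fun ω => (2 * Y ω) ^ 2) = 4 * Ex Q D η (fun ω => Y ω ^ 2) := by
      rw [← Ex_mul_left]
      exact Ex_congr fun S _ => by ring
    rw [e]
    linarith
  have hbox : ∀ {bb : ℤ}, bb ≤ b3 → ∀ ω, ∀ A ∈ pcs ω D, g A ≠ 0 → ∀ c ∈ I,
      ¬ ∀ e ∈ A, hdv e ∈ Bq (q (c : ZMod N)) bb := by
    intro bb hbb ω A hA h c hc h'
    exact (hg' ω A hA h).2 ⟨c, hc, fun e he => Bq_mono' (hbb.trans H.rb) (h' e he)⟩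
  refine ⟨clo_rel H.Q0 H.clo (by linarith) x2 x1 x3 x4 (fun ω hω => ?_) ?_ H.card H.C20 H.ek,
    ex_le_sqrt H.Q0 (by linarith) x1 x4⟩
  · rw [gt_mod H.mod H.b01 H.b13 (hbox H.b13 ω) hω]
    congr 1
    exact prod_congr rfl fun c hc => by rw [H.tl c hc]
  · exact gt_off H.mod H.b23 (hbox le_rfl)

/-- **Closeness at one mesh.** -/
theorem Msh.cloP {Zs : Set (ℤ × ℤ)} {ε' : ℝ} (hC1 : 1 ≤ C)
    (hd : Dl A (4 * C) C2 p ε ms ≤ 1 / 2)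
    (hε : 2 * Dl A (4 * C) C2 p ε ms * (1 + Real.sqrt (4 * C)) ≤ ε')
    (hdl : Dl A C C2 p ε ms ≤ Dl A (4 * C) C2 p ε ms)
    (hm : 2 * d ≤ m - m / 4 - 6) (hfar : ∀ z0 ∈ Zs, ∀ c ∈ I, m / 4 + r + 3 < nm (z0 - q (c : ZMod N))) :
    CloP Q D η w w' v v' (Ex Q D η (XW D v0)) Zs m ε' := by
  have hd0 := dl_nonneg (C := 4 * C) (p := p) (k := ms) H.clo.A1 H.C20 H.clo.ε0
  have hT := H.tpos
  have h0 : |Ex Q D η (XW D v0) - ∏ c ∈ I, Ex Q D η (T c)| ≤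
      (∏ c ∈ I, Ex Q D η (T c)) * Dl A (4 * C) C2 p ε ms :=
    H.rel0.trans (mul_le_mul_of_nonneg_left hdl hT.le)
  constructor
  · obtain ⟨h1, h2⟩ := H.rel
    have h3 : Real.sqrt C ≤ Real.sqrt (4 * C) := Real.sqrt_le_sqrt (by linarith)
    exact (clo_div hT hd0 hd h0 (h1.trans (mul_le_mul_of_nonneg_left hdl hT.le))
      (h2.trans h3)).2.2.trans hε
  · intro z0 hz0 g hg hgA
    obtain ⟨h1, h2⟩ := H.relG (g := g) hg fun ω A hA h => by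
      obtain ⟨⟨e1, he1, k1⟩, e2, he2, k2⟩ := hgA ω A hA h
      constructor
      · intro hs
        have h4 := hs _ (mem_image_of_mem _ he2) _ (mem_image_of_mem _ he1)
        have h5 := H601.LG.nm_tri' (hdv e2) (hdv e1) z0
        have h6 : ((m - 2 : ℤ) : ℝ) ≤ nm (hdv e2 - z0) := by exact_mod_cast k2
        have h7 : (nm (hdv e1 - z0) : ℝ) ≤ ((m / 4 + 2 : ℤ) : ℝ) := by exact_mod_cast k1
        have h8 : (nm (hdv e2 - z0) : ℝ) ≤ nm (hdv e2 - hdv e1) + nm (hdv e1 - z0) := by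
          exact_mod_cast h5
        have h9 : (0 : ℝ) ≤ nm (hdv e2 - hdv e1) := by
          exact_mod_cast H825.Reg.nm_nn _
        have h10 : (m : ℝ) / 4 ≥ ((m / 4 : ℤ) : ℝ) := by
          have := Int.ediv_mul_le m (by norm_num : (4 : ℤ) ≠ 0)
          have h11 : (((m / 4 : ℤ) * 4 : ℤ) : ℝ) ≤ (m : ℝ) := by exact_mod_cast this
          push_cast at h11
          linarith
        push_cast at h6 h7
        linarith
      · rintro ⟨c, hc, h3⟩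
        have h4 := nm_of_bq (h3 e1 he1)
        have h5 := hfar z0 hz0 c hc
        have h6 := H601.LG.nm_tri' z0 (hdv e1) (q (c : ZMod N))
        rw [H601.LG.nm_comm z0 (hdv e1)] at h6
        omega
    exact (clo_div hT hd0 hd h0 h1 h2).2.2.trans hε

/-- **The majorants**, for all boundary conditions. -/
theorem Msh.majY (hq : IsPolygon q) (hD : Encloses q D) (hk : k ≤ N)
    (hd : Dl A C C2 p ε ms ≤ 1 / 2) (hwin : ∀ c ∈ I, ∀ u : ℤ × ℤ,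
      (nm (u - q (c : ZMod N)) : ℝ) ≤ b → Rz < nm (u - z))
    (hfar : ∀ c ∈ I, 3 * Rz + r < nm (q (c : ZMod N) - z)) {η' : Cfg} (hη' : Dob η' D q k) :
    MajY Q D η' v v' z Rz (Real.sqrt C * (2 * C2) * Ex Q D η (XW D v0)) ∧
    MajY Q D η' w w' z Rz (Real.sqrt C) := by
  obtain ⟨Y, y1, y2, y3, y4, y5, y6, y7, y8⟩ := H.um.mom H.Q0 hη' H.T'0 H.loc'
  have hK0 : ∀ ω, 0 ≤ ∏ c ∈ I, T' c ω := fun ω => prod_nonneg fun c hc => H.T'0 c hc ω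
  have hone : ∀ ω, ∀ A : Finset Ed, ∀ (x : ℝ),
      (1 + ((bigs D D d ω).card : ℝ)) * |TW D w w' ω A| ≤ x → |TW D w w' ω A| ≤ x := by
    intro ω A x h
    refine le_trans (le_mul_of_one_le_left (abs_nonneg _) ?_) h
    have : (0 : ℝ) ≤ ((bigs D D d ω).card : ℝ) := Nat.cast_nonneg _
    linarith
  have hone' : ∀ ω, ∀ A : Finset Ed, ∀ (x : ℝ),
      (1 + ((bigs D D d ω).card : ℝ)) * |TW D v v' ω A| ≤ x → |TW D v v' ω A| ≤ x := by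
    intro ω A x h
    refine le_trans (le_mul_of_one_le_left (abs_nonneg _) ?_) h
    have : (0 : ℝ) ≤ ((bigs D D d ω).card : ℝ) := Nat.cast_nonneg _
    linarith
  have hE : Ex Q D η' (fun ω => ∏ c ∈ I, T' c ω) = Ex Q D η (fun ω => ∏ c ∈ I, T' c ω) :=
    H718.Lam.Ex_eta hq hD hk hη' H.dob H.Q0 fun ω ω' h => prod_congr rfl fun c hc =>
      H.loc' c hc ω ω' fun u hu _ => h u hu
  have hE0 : 0 ≤ Ex Q D η' (fun ω => ∏ c ∈ I, T' c ω) := Ex_nonneg H.Q0 fun _ _ => hK0 _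
  constructor
  · refine ⟨fun ω => (∏ c ∈ I, T' c ω) * Y ω, fun ω ω' hω => ?_, y4, fun ω A hA hv =>
      hone' ω A _ (y6 ω A hA ?_), ?_⟩
    · show (∏ c ∈ I, T' c ω) * Y ω = (∏ c ∈ I, T' c ω') * Y ω'
      rw [y2 ω ω' hω, prod_congr rfl fun c hc => H.loc' c hc ω ω' fun u _ hu =>
        hω u (hwin c hc u hu)]
    · rintro ⟨c, hc, h3⟩
      obtain ⟨e, he, h4⟩ := hv
      have h5 := nm_of_bq (h3 e he)
      have h6 := hfar c hc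
      have h7 := H601.LG.nm_tri' (q (c : ZMod N)) (hdv e) z
      rw [H601.LG.nm_comm (q (c : ZMod N)) (hdv e)] at h7
      omega
    · have h8 := H562.QM.ex_cs (Q := Q) (D := D) (η := η') H.Q0 (G := fun ω => ∏ c ∈ I, T' c ω)
        (F1 := Y) (F2 := fun _ => 1) hK0 (Real.sqrt_nonneg C) zero_le_one hE0
        (by rw [Real.sq_sqrt H.C0]; exact y7) (by simp)
      have e : Ex Q D η' (fun ω => (∏ c ∈ I, T' c ω) * Y ω) =
          Ex Q D η' (fun ω => (∏ c ∈ I, T' c ω) * (Y ω * 1)) := by simp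
      rw [e]
      refine h8.trans ?_
      rw [hE]
      have h9 := mul_le_mul_of_nonneg_left (H.val hd).2 (Real.sqrt_nonneg C)
      linarith
  · refine ⟨Y, y2, y3, fun ω A hA _ => hone ω A _ (y5 ω A hA), ?_⟩
    have := ex_le_sqrt (D := D) (η := η') H.Q0 H.C0 (X := Y) (fun ω => by
      rw [abs_of_nonneg (y1 ω)]) y8
    exact (le_abs_self _).trans this

omit H in
/-- The terms read only the squares of `D`. -/
theorem GT_on : ∀ ω ω' : Cfg, (∀ v ∈ D, ω v = ω' v) → GT D w w' g ω = GT D w w' g ω' := by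
  intro ω ω' h
  unfold GT TW
  rw [pcs_congr h]

omit H in
/-- Closeness does not depend on the boundary condition. -/
theorem CloP.eta {Zs : Set (ℤ × ℤ)} {V ε' : ℝ} (h : CloP Q D η w w' v v' V Zs m ε')
    (hQ : 0 < Q) (hq : IsPolygon q) (hD : Encloses q D) (hk : k ≤ N) {η' : Cfg}
    (hη : Dob η D q k) (hη' : Dob η' D q k) : CloP Q D η' w w' v v' V Zs m ε' := by
  refine ⟨?_, fun z0 hz0 g hg hg' => ?_⟩
  · rw [H718.Lam.Ex_eta hq hD hk hη' hη hQ (H718.Lam.XW_on w), H718.Lam.Ex_eta hq hD hk hη' hη hQ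
      (H718.Lam.XW_on v)]
    exact h.V
  · rw [H718.Lam.Ex_eta hq hD hk hη' hη hQ GT_on, H718.Lam.Ex_eta hq hD hk hη' hη hQ GT_on]
    exact h.G z0 hz0 g hg hg'

end

end Vale.Agent.P167.N.H955
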