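import Vale.Agent.P167.N.H955.Clo
import Vale.Agent.P167.N.H167.Q.JunMix
import Vale.Agent.P167.N.H167.Q.EDefs
import Vale.Agent.P167.N.KitQ

/-!
# P167, `0 < q < 1`: closeness, mixing in the regular boxes

`bd3_shp`: the shape of the domain in the regular boxes. `mix_reg`: mixing.
-/

set_option autoImplicit false

namespace Vale.Agent.P167.N.H955

open Finset Vale.Agent.P167 Vale.Agent.P167.FK Vale.Agent.P167.FKA
open Vale.Agent.P167.H635 (HP)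
open Vale.Agent.P167.H167.Q (hpl)

variable {Q : ℝ}

theorem hp_hpl (i : Fin 4) (z : ℤ × ℤ) : HP (hpl i z) := by
  fin_cases i
  · exact ⟨z.2, Or.inr (Or.inr (Or.inr fun _ => Iff.rfl))⟩
  · exact ⟨z.1, Or.inl fun _ => Iff.rfl⟩
  · exact ⟨z.2, Or.inr (Or.inr (Or.inl fun _ => Iff.rfl))⟩
  · exact ⟨z.1, Or.inr (Or.inl fun _ => Iff.rfl)⟩

/-- **The shape.** -/
theorem bd3_shp {D : Finset (ℤ × ℤ)} {η : Cfg} {x : ℤ × ℤ} {R : ℤ}
    (h : N.H167.Q.Bd3 D η x R) : H635.Shp D x 0 R := by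
  rcases h with ⟨-, h⟩ | ⟨-, h⟩ | ⟨i, z, pl, pr, h⟩
  · exact h
  · exact h
  · refine Or.inl ⟨hpl i z, hpl i z, hp_hpl i z, hp_hpl i z, Or.inl fun v hv => ?_⟩
    rw [H635.mem_Ann] at hv
    rw [and_self]
    exact h.dom v hv.1

/-- **Mixing.** -/
theorem mix_reg (hQ : Kit Q) : ∃ α C : ℝ, 0 < α ∧ 0 < C ∧ ∀ (D : Finset (ℤ × ℤ)) (η : Cfg)
    (x : ℤ × ℤ) (r R : ℤ), Good η → N.H167.Q.Bd3 D η x R → 1 ≤ r → r ≤ R →
    C * ((r : ℝ) / R) ^ α ≤ 1 / 2 → MixAt Q D η x r R (6 * (C * ((r : ℝ) / R) ^ α)) := by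
  obtain ⟨α, C, hα, hC, H⟩ := N.H167.Q.mx_all hQ hQ.rsw hQ.srsw
  refine ⟨α, C, hα, hC, fun D η x r R hη hB hr hrR hε => ?_⟩
  refine mixAt_of hQ.pos ?_ (H D η x r R hB hr hrR hε) hη
  have h1 : (0 : ℝ) ≤ r := by exact_mod_cast (by omega : (0 : ℤ) ≤ r)
  have h2 : (0 : ℝ) ≤ R := by exact_mod_cast (by omega : (0 : ℤ) ≤ R)
  positivity

end Vale.Agent.P167.N.H955
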