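import Vale.Agent.P167.N.H955.Mesh
import Vale.Agent.P167.N.H955.CloA
import Vale.Agent.P167.N.H955.CloB

/-!
# P167, `0 < q < 1`: the hypotheses of the closeness at one mesh, for the reflex corners

`MixAt.dob`: the mixing does not depend on the configuration
outside. `msh_cr`: the hypotheses `Msh` at one mesh.
-/

set_option autoImplicit false

namespace Vale.Agent.P167.N.H955

open Finset Filter Topology Vale.Agent.P167 Vale.Agent.P167.BR Vale.Agent.P167.FK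
open Vale.Agent.P167.E6 (IsPolygon Encloses)
open Vale.Agent.P167.FKA (Ex_mono Ex_congr Ex_mul_left Ex_nonneg Ex_const Loc Ind)
open Vale.Agent.P167.H365.NQ (XW TW)
open Vale.Agent.P167.H718 (Dob wn wn' wn_eq)
open Vale.Agent.P167.H718.Lam (Ex_eta)
open Vale.Agent.P167.H852.Q (ZG)
open Vale.Agent.P167.N.QL (wP cP rI rI_or phP NS Lnd mix mix_in mix_out mix_cf)
open Vale.Agent.P167.QX (wB_zero)

variable {Q ε c1 d b C θ β : ℝ} {D : Finset (ℤ × ℤ)} {η η' : Cfg} {r R Rz g b0 b1 b2 b3 : ℤ}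
  {n N L k m ms : ℕ} {q : ZMod N → ℤ × ℤ} {I : Finset ℕ} {K : Cfg → ℝ}
  {w w' v v' : Finset Ed → ℝ} {z x : ℤ × ℤ} {ω : Cfg}

/-- The mixing with a larger error. -/
theorem MixAt.mono {ε' : ℝ} (hQ : 0 < Q) (h : MixAt Q D η x r R ε) (hε : ε ≤ ε') :
    MixAt Q D η x r R ε' := by
  intro F G hF0 hF hG
  refine (h F G hF0 hF hG).trans (mul_le_mul_of_nonneg_right hε (mul_nonneg ?_ ?_))
  · exact Ex_nonneg hQ fun _ _ => abs_nonneg _
  · exact Ex_nonneg hQ fun _ _ => hF0 _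

/-- The mixing for smaller boxes. -/
theorem MixAt.box {r' : ℤ} (h : MixAt Q D η x r R ε) (hr : r' ≤ r) : MixAt Q D η x r' R ε := by
  intro F G hF0 hF hG
  refine h F G hF0 (fun ω ω' hω => hF ω ω' fun v hv => hω v ?_) hG
  rw [mem_inter] at hv ⊢
  exact ⟨Bq_mono' hr hv.1, hv.2⟩

/-- **The mixing does not depend on the configuration outside.** -/
theorem MixAt.dob (hq : IsPolygon q) (hD : Encloses q D) (hk : k ≤ N) (hQ : 0 < Q)
    (hη : Dob η D q k) (hη' : Dob η' D q k) (h : MixAt Q D η x r R ε) :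
    MixAt Q D η' x r R ε := by
  intro F G hF0 hF hG
  have key : ∀ H : Cfg → ℝ, Ex Q D η' H = Ex Q D η (fun ω => H (mix D η' ω)) := by
    intro H
    rw [← Ex_eta hq hD hk hη' hη hQ (F := fun ω => H (mix D η' ω)) (fun ω ω' h => ?_)]
    · refine Ex_congr fun T _ => ?_
      rw [mix_cf]
    · have h4 : mix D η' ω = mix D η' ω' := by
        funext v
        by_cases hv' : v ∈ D
        · rw [mix_in hv', mix_in hv', h v hv']
        · rw [mix_out hv', mix_out hv']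
      simp only [h4]
  rw [key, key, key, key]
  have hF' : Loc (Bq x r ∩ D) (fun ω => F (mix D η' ω)) := fun ω ω' hω => hF _ _ fun v hv => by
    rw [mix_in (mem_inter.1 hv).2, mix_in (mem_inter.1 hv).2, hω v hv]
  have hG' : Ind (Bq x R ∩ D) (fun ω => G (mix D η' ω)) := fun ω ω' hω => hG _ _ fun v hv => by
    by_cases hv' : v ∈ D
    · rw [mix_in hv', mix_in hv', hω v hv]
    · rw [mix_out hv', mix_out hv']
  exact h _ _ (fun _ => hF0 _) hF' hG'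

theorem Cr.sub {I' : Finset ℕ} (H : Cr n L g q D k I) (h : I' ⊆ I) : Cr n L g q D k I' :=
  ⟨H.poly, H.enc, H.geo, H.pc, fun c hc => H.rng c (h hc), fun c hc c' hc' =>
    H.sep c (h hc) c' (h hc')⟩

/-- The functional without charges. -/
theorem xw_zero (hq : IsPolygon q) (hD : Encloses q D) (h1 : Ang θ)
    (hβ : Real.cos (θ / 2 + β) = Real.sin θ) (ω : Cfg) :
    XW D (wn θ β q D k fun _ => 0) ω = 1 := by
  unfold XW
  refine prod_eq_one fun A hA => ?_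
  have e : mass D (q 0) (fun _ => 0) A = 0 := by
    unfold mass
    simp
  rw [wn_eq hq hD h1.sin_pos.ne' h1.cos_pos hβ hA, e, wB_zero h1.sin_pos.ne' h1.cos_pos.ne' hβ]

/-- The zones for the functional without charges. -/
theorem zg_zero {Z : Finset (ℤ × ℤ)} {h : ℤ × ℤ → ℝ} {κ κ0 Mf R1 : ℝ} {kz : ℤ}
    (H : ZG D h κ κ0 Mf R1 n Z kz) (hMf : 0 ≤ Mf) : ZG D (fun _ => 0) κ κ0 Mf R1 n Z kz :=
  ⟨H.n1, H.κn, H.κ0n, H.k2, H.sub, H.econ, H.econD, H.near, fun _ h => absurd rfl h, fun _ => by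
    rw [abs_zero]; positivity, by unfold H167.tot; simp, H.rad, H.sml⟩

section

variable {Z : Finset (ℤ × ℤ)} {h : ℤ × ℤ → ℝ} {κ κ0 Mf R1 : ℝ} {kz : ℤ}

/-- **The hypotheses of the closeness at one mesh, for the reflex corners.** -/
theorem msh_cr (h1 : Ang θ) (hβ : Real.cos (θ / 2 + β) = Real.sin θ) :
    ∃ α Ca : ℝ, 0 < α ∧ 0 < Ca ∧ ∀ {n N L k m ms : ℕ} {g R kz b0 b1 b2 b3 r Rz : ℤ}
      {q : ZMod N → ℤ × ℤ} {D Z : Finset (ℤ × ℤ)} {I : Finset ℕ} {η : Cfg} {h : ℤ × ℤ → ℝ}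
      {κ κ0 Mf R1 ε c1 d b C : ℝ} {z : ℤ × ℤ}, ZG D h κ κ0 Mf R1 n Z kz → 0 ≤ Mf →
      Cr n L g q D k I → CrW q k I R → I.card ≤ ms → Dob η D q k →
      (∀ c ∈ I, H635.Shp D (q (c : ZMod N)) 0 b3) →
      (∀ c ∈ I, MixAt (2 * Real.cos θ) D η (q (c : ZMod N)) b1 b2 ε) → 0 ≤ ε → ε ≤ 1 → 0 < c1 →
      (∀ c ∈ I, ∃ b : Bool, Lnd (2 * Real.cos θ) q D η c (rI q k c) m b c1) →
      (∀ c ∈ I, 0 < Ex (2 * Real.cos θ) D η ((NS q D c (rI q k c) m).indicator 1)) →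
      0 < m → (m : ℤ) + 2 ≤ b0 → b0 + 2 ≤ b1 → b1 ≤ b2 → b2 + 2 ≤ b3 → b3 ≤ r → 6 * b3 < n →
      4 * b3 ≤ L → (b3 : ℝ) + 1 + 1 ≤ kz → b3 + 1 ≤ R → R + m + 1 < L → 4 * (m : ℤ) + 1 ≤ R →
      (m : ℝ) ≤ b → 0 ≤ C →
      Ca * (((b0 + 1 : ℤ) : ℝ) / ((b1 - 1 : ℤ) : ℝ)) ^ α +
        Ca * (((b2 + 1 : ℤ) : ℝ) / ((b3 - 1 : ℤ) : ℝ)) ^ α ≤ c1 / 2 →
      UmY (2 * Real.cos θ) D q k I (KI q D k I m) (wn θ β q D k h) (wn' θ β q D k h)
        (wn θ β q D k (cP q (phP θ q k I m) h)) (wn' θ β q D k (cP q (phP θ q k I m) h)) z Rz r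
        d b C →
      UmY (2 * Real.cos θ) D q k I (KI q D k I m) (wn θ β q D k fun _ => 0)
        (wn' θ β q D k fun _ => 0) (wn θ β q D k (cP q (phP θ q k I m) fun _ => 0))
        (wn' θ β q D k (cP q (phP θ q k I m) fun _ => 0)) z Rz r d b C →
      Msh (2 * Real.cos θ) D η q k I
        (fun c => Tl (wP θ β q D k (phP θ q k I m)) D (q (c : ZMod N)) b0 b1)
        (fun c => (NS q D c (rI q k c) m).indicator (1 : Cfg → ℝ))
        (wn θ β q D k h) (wn' θ β q D k h)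
        (wn θ β q D k (cP q (phP θ q k I m) h)) (wn' θ β q D k (cP q (phP θ q k I m) h))
        (wn θ β q D k fun _ => 0) (wn' θ β q D k fun _ => 0)
        (wn θ β q D k (cP q (phP θ q k I m) fun _ => 0))
        (wn' θ β q D k (cP q (phP θ q k I m) fun _ => 0)) b0 b1 b2 b3 r Rz z
        (2 * Real.cos θ)⁻¹
        (Ca * (((b0 + 1 : ℤ) : ℝ) / ((b1 - 1 : ℤ) : ℝ)) ^ α +
          Ca * (((b2 + 1 : ℤ) : ℝ) / ((b3 - 1 : ℤ) : ℝ)) ^ α) ε d b C
        (max 1 (2 / (Real.cos θ * c1)) ^ ms) ms := by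
  have hQ : 0 < 2 * Real.cos θ := h1.kit.pos
  have hQ1 : 2 * Real.cos θ < 1 := h1.kit.lt
  have hcθ := h1.cos_pos
  obtain ⟨α, Ca, hα, hCa, H⟩ := cloH_cr h1.kit
  refine ⟨α, Ca, hα, hCa, ?_⟩
  intro n N L k m ms g R kz b0 b1 b2 b3 r Rz q D Z I η h κ κ0 Mf R1 ε c1 d b C z HZ hMf hCr hW hcard
    hη hS hmix hε hε1 hc1 hLnd hpos hm h02 h01 h12 h23 h3r hn hL hk hR hRL h4R hb hC hp hu hu0
  have HZ0 := zg_zero HZ hMf
  have hL1 : 1 ≤ L := by omega
  have hWn : ∀ c ∈ I, QL.Wn q c ((m : ℤ) + 1) := fun c hc => (hW.win c hc).mono (by omega)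
  have hA1 : 1 ≤ (2 * Real.cos θ)⁻¹ := (one_le_inv₀ hQ).2 hQ1.le
  have htl : ∀ c ∈ I, ∀ ω : Cfg, _ := fun c hc ω =>
    tl_bd (ω := ω) (b0 := b0) (b1 := b1) hCr hW h1 hβ hc hm hRL (by omega) (by omega)
  have hclo : ∀ I' : Finset ℕ, I' ⊆ I → CloH (2 * Real.cos θ) D η I' (fun c : ℕ => q (c : ZMod N))
      (fun c : ℕ => Tl (wP θ β q D k (phP θ q k I m)) D (q (c : ZMod N)) b0 b1)
      (fun c : ℕ => (NS q D c (rI q k c) m).indicator (1 : Cfg → ℝ)) b1 b2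
      (fun c : ℕ => Arm D (q (c : ZMod N)) b0 b1) (fun c : ℕ => Arm D (q (c : ZMod N)) b2 b3)
      (2 * Real.cos θ)⁻¹
      (Ca * (((b0 + 1 : ℤ) : ℝ) / ((b1 - 1 : ℤ) : ℝ)) ^ α +
        Ca * (((b2 + 1 : ℤ) : ℝ) / ((b3 - 1 : ℤ) : ℝ)) ^ α) ε := fun I' hI' =>
    H (hCr.sub hI') (fun c hc => hWn c (hI' hc)) hη.good (fun c hc => hS c (hI' hc)) hL1 (by omega)
      (by omega) h01 h12 h23 hn hL hA1 hε (fun c hc ω => (htl c (hI' hc) ω).1)
      (fun c hc ω => (htl c (hI' hc) ω).2) (fun c hc => hmix c (hI' hc))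
  have hge : ∀ c ∈ I, Real.cos θ * c1 * Ex (2 * Real.cos θ) D η
      ((NS q D c (rI q k c) m).indicator 1) ≤
      Ex (2 * Real.cos θ) D η (Tl (wP θ β q D k (phP θ q k I m)) D (q (c : ZMod N)) b0 b1) := by
    intro c hc
    obtain ⟨b', hb'⟩ := hLnd c hc
    have h5 := (hclo {c} (singleton_subset_iff.2 hc)).armA c (mem_singleton_self c)
    simp only [prod_singleton] at h5
    exact tl_ge hCr hW h1 hβ hc hm hRL (by omega) (by omega) h4R hb' h5 hp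
  have hK0 : ∀ c ∈ I, 0 < Ex (2 * Real.cos θ) D η ((NS q D c (rI q k c) m).indicator 1) := hpos
  have hcc : 0 < Real.cos θ * c1 := by positivity
  refine ⟨hQ, hcard, hclo I subset_rfl, modW_cr HZ h1 hβ hCr h02 hk hn hL,
    modW_cr HZ0 h1 hβ hCr h02 hk hn hL, fun c hc => funext fun ω => (tl_wP HZ h1 hβ hCr ?_ hc ω).symm,
    fun c hc => funext fun ω => (tl_wP HZ0 h1 hβ hCr ?_ hc ω).symm, fun c hc ω => ?_,
    fun c hc ω ω' hω => ?_, hu, hu0, hC, by positivity, ?_, ?_, xw_zero hCr.poly hCr.enc h1 hβ, hη, h01,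
    by omega, h23, h3r⟩
  · have : (b1 : ℝ) ≤ b3 := by exact_mod_cast (by omega : b1 ≤ b3)
    linarith
  · have : (b1 : ℝ) ≤ b3 := by exact_mod_cast (by omega : b1 ≤ b3)
    linarith
  · by_cases hω : ω ∈ NS q D c (rI q k c) m
    · right
      show (NS q D c (rI q k c) m).indicator 1 ω = 1
      rw [Set.indicator_of_mem hω]
      rfl
    · left
      show (NS q D c (rI q k c) m).indicator 1 ω = 0
      rw [Set.indicator_of_notMem hω]
  · refine hCr.ns_loc hWn hc hL1 ω ω' fun u hu => hω u (mem_inter.1 hu).2 ?_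
    have h5 := nm_of_bq (mem_inter.1 hu).1
    have h6 : (nm (u - q (c : ZMod N)) : ℝ) ≤ m := by exact_mod_cast h5
    exact h6.trans hb
  · have h5 := hCr.ek_le hQ hWn hL1 (R := b2) (by omega) (by omega) (by omega) hε hε1
      (fun c hc => (hmix c hc).box (by omega))
    refine h5.trans ?_
    have h6 : ∏ c ∈ I, (Real.cos θ * c1 * Ex (2 * Real.cos θ) D η
        ((NS q D c (rI q k c) m).indicator 1)) ≤
        ∏ c ∈ I, Ex (2 * Real.cos θ) D η
          (Tl (wP θ β q D k (phP θ q k I m)) D (q (c : ZMod N)) b0 b1) :=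
      prod_le_prod (fun c hc => mul_nonneg hcc.le (hK0 c hc).le) hge
    rw [prod_mul_distrib, prod_const] at h6
    obtain ⟨P, hP⟩ : ∃ P, P = ∏ c ∈ I, Ex (2 * Real.cos θ) D η
        ((NS q D c (rI q k c) m).indicator 1) := ⟨_, rfl⟩
    obtain ⟨T, hT⟩ : ∃ T, T = ∏ c ∈ I, Ex (2 * Real.cos θ) D η
        (Tl (wP θ β q D k (phP θ q k I m)) D (q (c : ZMod N)) b0 b1) := ⟨_, rfl⟩
    rw [← hP, ← hT] at h6
    rw [← hP]
    show _ ≤ _ * ∏ c ∈ I, Ex (2 * Real.cos θ) D η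
      (Tl (wP θ β q D k (phP θ q k I m)) D (q (c : ZMod N)) b0 b1)
    rw [← hT]
    have hP0 : 0 < P := by rw [hP]; exact prod_pos hK0
    have hcI : 0 < (Real.cos θ * c1) ^ I.card := pow_pos hcc _
    have hT0 : 0 < T := lt_of_lt_of_le (mul_pos hcI hP0) h6
    have h7 : 2 ^ I.card * P ≤ (2 / (Real.cos θ * c1)) ^ I.card * T := by
      rw [div_pow, div_mul_eq_mul_div, le_div_iff₀ hcI, mul_assoc, mul_comm P]
      exact mul_le_mul_of_nonneg_left h6 (by positivity)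
    refine h7.trans (mul_le_mul_of_nonneg_right ?_ hT0.le)
    exact (pow_le_pow_left₀ (by positivity) (le_max_right _ _) _).trans
      (pow_le_pow_right₀ (le_max_left _ _) hcard)
  · refine prod_pos fun c hc => ?_
    exact lt_of_lt_of_le (mul_pos hcc (hK0 c hc)) (hge c hc)

end

end Vale.Agent.P167.N.H955
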