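import Vale.Agent.P167.N.H955.Um2
import Vale.Agent.P167.N.H955.FinS

/-!
# P167, `0 < q < 1`: the reflex corners of the families
-/

set_option autoImplicit false

namespace Vale.Agent.P167.N.H955

open Finset
open Vale.Agent.P167.N.QL (Rf t0)

/-- The reflex corners. -/
noncomputable def Ic (S : CA.Dat) (s : ℕ → ℕ) (n : ℕ) : Finset ℕ :=
  (Rf S).image fun i => i * n - t0 S s n

end Vale.Agent.P167.N.H955
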