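import Vale.Agent.P167.N.H955.Mesh
import Vale.Agent.P167.N.H955.Sts

/-!
# P167, `0 < q < 1`: the one-mesh hypotheses for the families
-/

set_option autoImplicit false

namespace Vale.Agent.P167.N.H955

open Finset Filter Vale.Agent.P167 Vale.Agent.P167.FK
open Vale.Agent.P167.CA (cms)
open Vale.Agent.P167.H542.Q (BD)
open Vale.Agent.P167.H718 (Dob wn wn')
open Vale.Agent.P167.H760.Q (Fp BaseQ)
open Vale.Agent.P167.N.QL (cP phP Rf BcX)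

variable {S : CA.Dat} {θ β : ℝ} {f : ℂ → ℝ}

theorem UmY.mono {Q : ℝ} {D : Finset (ℤ × ℤ)} {N k : ℕ} {q : ZMod N → ℤ × ℤ} {I : Finset ℕ}
    {K : Cfg → ℝ} {w w' v v' : Finset Ed → ℝ} {z : ℤ × ℤ} {Rz r r' : ℤ} {d b b' C C' : ℝ}
    (hQ : 0 < Q) (h : UmY Q D q k I K w w' v v' z Rz r d b C) (hr : r ≤ r') (hb : b' ≤ b)
    (hC : C ≤ C') : UmY Q D q k I K w w' v v' z Rz r' d b' C' := by
  obtain ⟨Y, y1, y2, y3, y4, y5, y6, y7⟩ := h.ex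
  refine ⟨⟨Y, y1, y2, y3, y4, y5, fun ω A hA h1 => y6 ω A hA fun h2 => h1 ?_,
    fun η hη G hG0 hG => (y7 η hη G hG0 fun ω ω' hω => hG ω ω' fun u hu hc => hω u hu ?_).trans ?_⟩⟩
  · obtain ⟨c, hc, h3⟩ := h2
    exact ⟨c, hc, fun e he => Bq_mono' hr (h3 e he)⟩
  · obtain ⟨c, hc, h3⟩ := hc
    exact ⟨c, hc, h3.trans hb⟩
  · exact mul_le_mul_of_nonneg_right hC (FKA.Ex_nonneg hQ fun _ _ => hG0 _)

/-- The one-mesh hypotheses with the interior charge `f`, for the families. -/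
def MshP (X : BD S θ β) (s : ℕ → ℕ) (f : ℂ → ℝ) (e : ℝ) (n : ℕ) (η : Cfg) (T T' : ℕ → Cfg → ℝ)
    (b0 b1 b2 b3 r Rz : ℤ) (z : ℤ × ℤ) (p ε d b C C2 : ℝ) : Prop :=
  Msh (2 * Real.cos θ) (S.D n) η (X.q n) (X.k n) (Ic S s n) T T'
    (wn θ β (X.q n) (S.D n) (X.k n) (cms f (1 / n)))
    (wn' θ β (X.q n) (S.D n) (X.k n) (cms f (1 / n)))
    (wn θ β (X.q n) (S.D n) (X.k n)
      (cP (X.q n) (phP θ (X.q n) (X.k n) (Ic S s n) (QL.me e n)) (cms f (1 / n))))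
    (wn' θ β (X.q n) (S.D n) (X.k n)
      (cP (X.q n) (phP θ (X.q n) (X.k n) (Ic S s n) (QL.me e n)) (cms f (1 / n))))
    (wn θ β (X.q n) (S.D n) (X.k n) 0) (wn' θ β (X.q n) (S.D n) (X.k n) 0)
    (wn θ β (X.q n) (S.D n) (X.k n)
      (cP (X.q n) (phP θ (X.q n) (X.k n) (Ic S s n) (QL.me e n)) 0))
    (wn' θ β (X.q n) (S.D n) (X.k n)
      (cP (X.q n) (phP θ (X.q n) (X.k n) (Ic S s n) (QL.me e n)) 0))
    b0 b1 b2 b3 r Rz z (2 * Real.cos θ)⁻¹ p ε d b C C2 (Rf S).card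

end Vale.Agent.P167.N.H955
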