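import Vale.Agent.P167.N.H955.CrX
import Vale.Agent.P167.N.KitQ

/-!
# P167, `0 < q < 1`: uniform majorants for the families
-/

set_option autoImplicit false

namespace Vale.Agent.P167.N.H955

open Finset Filter Topology Relation Vale.Agent.P167 Vale.Agent.P167.BR Vale.Agent.P167.FK
open Vale.Agent.P167.E6 (IsPolygon Encloses)
open Vale.Agent.P167.CA (cms)
open Vale.Agent.P167.H562.SML
open Vale.Agent.P167.H562.MAJ (Sm bigs)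
open Vale.Agent.P167.H542.Q (BD cB)
open Vale.Agent.P167.H718 (Dob wn wn')
open Vale.Agent.P167.H760.Q (BaseQ Fp)
open Vale.Agent.P167.H852.Q (ZG exists_zn num_ok)
open Vale.Agent.P167.N.H852.Q (sml_dw sm_mom)
open Vale.Agent.P167.N.QL (cP phP BcX reg_X me_est hlarge enl_dia Rf)

variable {S : CA.Dat} {θ β : ℝ} {f : ℂ → ℝ}

theorem CrW.mono {N k : ℕ} {q : ZMod N → ℤ × ℤ} {I : Finset ℕ} {R R' : ℤ} (h : CrW q k I R)
    (hR : R' ≤ R) : CrW q k I R' :=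
  ⟨fun c hc => (h.win c hc).mono hR, fun c hc => by have := h.arc c hc; omega⟩

theorem cr_gmono {n L N k : ℕ} {g g' : ℤ} {q : ZMod N → ℤ × ℤ} {D : Finset (ℤ × ℤ)}
    {I : Finset ℕ} (h : Cr n L g q D k I) (_ : g' = g) : Cr n L g' q D k I := by
  subst_vars
  exact h

/-- The numerical facts at the mesh `n`. -/
theorem um_num {cs ρ κ e n : ℝ} {m L : ℕ} {R r : ℤ} (hρ : 0 < ρ) (he : 0 < e) (h1 : ρ ≤ cs / 16)
    (h2 : κ ≤ ρ / 32) (h3 : e ≤ ρ / 8) (hm : |(m : ℝ) - e * n| ≤ 1) (hn : 1 ≤ n)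
    (hb : 64 ≤ ρ * n) (hL : cs * n < L + 1) (hR : R = ⌊cs / 4 * n⌋) (hr : r = ⌊ρ * n⌋) :
    (m : ℝ) + 2 + κ * n < r ∧ 4 * r ≤ L ∧ r + 1 ≤ R ∧ R + m + 1 < L := by
  obtain ⟨m1, m2⟩ := abs_le.1 hm
  have r1 : (r : ℝ) ≤ ρ * n := by rw [hr]; exact Int.floor_le _
  have r2 : ρ * n < (r : ℝ) + 1 := by rw [hr]; exact Int.lt_floor_add_one _
  have R1 : (R : ℝ) ≤ cs / 4 * n := by rw [hR]; exact Int.floor_le _
  have R2 : cs / 4 * n < (R : ℝ) + 1 := by rw [hR]; exact Int.lt_floor_add_one _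
  have a1 : e * n ≤ ρ / 8 * n := mul_le_mul_of_nonneg_right h3 (by linarith)
  have a2 : κ * n ≤ ρ / 32 * n := mul_le_mul_of_nonneg_right h2 (by linarith)
  have a3 : ρ * n ≤ cs / 16 * n := mul_le_mul_of_nonneg_right h1 (by linarith)
  refine ⟨by linarith, ?_, ?_, ?_⟩
  · have : ((4 * r : ℤ) : ℝ) < ((L : ℤ) : ℝ) + 1 := by push_cast; linarith
    have h4 : ((4 * r : ℤ) : ℝ) < (((L : ℤ) + 1 : ℤ) : ℝ) := by push_cast at this ⊢; linarith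
    have := Int.cast_lt.1 h4
    omega
  · have h4 : ((r + 1 : ℤ) : ℝ) < ((R + 1 : ℤ) : ℝ) := by push_cast; linarith
    have := Int.cast_lt.1 h4
    omega
  · have h4 : ((R + m + 1 : ℤ) : ℝ) < ((L : ℤ) : ℝ) := by push_cast; linarith
    exact Int.cast_lt.1 h4

/-- **The uniform majorants for the families.** -/
theorem um_X (h1 : Ang θ) (hβ : Real.cos (θ / 2 + β) = Real.sin θ) (X : BD S θ β) {s : ℕ → ℕ}
    (hb : BaseQ X s) (hB : BcX X s) (hf : S.FF f) {δ ρ0 : ℝ} (hδ : 0 < δ) (hρ0 : 0 < ρ0) :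
    ∃ ρ κ₁ : ℝ, 0 < ρ ∧ ρ ≤ ρ0 ∧ 0 < κ₁ ∧ ∀ κ : ℝ, 0 < κ → κ ≤ κ₁ → ∃ c C e0 : ℝ, 0 < c ∧ 0 < C ∧
      0 < e0 ∧ ∀ e : ℝ, 0 < e → e ≤ e0 → ∀ᶠ n : ℕ in X.L, ∀ (z : ℤ × ℤ) (Rz : ℤ),
        (Rz < 0 ∨ (Fp S δ n z ∧ (Rz : ℝ) ≤ c * n)) →
        UmY (2 * Real.cos θ) (S.D n) (X.q n) (X.k n) (Ic S s n)
          (KI (X.q n) (S.D n) (X.k n) (Ic S s n) (QL.me e n))
          (wn θ β (X.q n) (S.D n) (X.k n) (cms f (1 / n)))
          (wn' θ β (X.q n) (S.D n) (X.k n) (cms f (1 / n)))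
          (wn θ β (X.q n) (S.D n) (X.k n)
            (cP (X.q n) (phP θ (X.q n) (X.k n) (Ic S s n) (QL.me e n)) (cms f (1 / n))))
          (wn' θ β (X.q n) (S.D n) (X.k n)
            (cP (X.q n) (phP θ (X.q n) (X.k n) (Ic S s n) (QL.me e n)) (cms f (1 / n))))
          z Rz ⌊ρ * n⌋ (κ * n) (c * n) C := by
  classical
  have h0 := h1.pos
  have h1_lt := h1.lt
  have hQ1 : Kit (2 * Real.cos θ) := h1.kit
  have hRSW : RSW (2 * Real.cos θ) := hQ1.rsw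
  have ht0 : 0 ≤ Real.tan θ := (Real.tan_pos_of_pos_of_lt_pi_div_two h0 h1_lt).le
  have hdw := dw_pos h1_lt
  obtain ⟨κ0, Mf, R1, hκ0, hMf0, hR1, hZn⟩ := exists_zn hf
  obtain ⟨cs, hcs, hcr⟩ := cr_X X hb hB
  obtain ⟨σ, hσ, hreg⟩ := reg_X X hb hB
  obtain ⟨ρ, hρ, r0, r3, r4, r5, r6⟩ : ∃ ρ : ℝ, 0 < ρ ∧ ρ ≤ ρ0 ∧ ρ ≤ κ0 / 4 ∧ ρ ≤ 16 / 16 ∧
      ρ ≤ cs / 16 ∧ ρ ≤ 1 / 8 := by
    refine ⟨min ρ0 (min (κ0 / 4) (min (16 / 16) (min (cs / 16) (1 / 8)))),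
      by positivity, ?_, ?_, ?_, ?_, ?_⟩ <;> simp
  obtain ⟨κ₁, hκ₁, k1, k2, k3, k4, k5⟩ : ∃ κ₁ : ℝ, 0 < κ₁ ∧ κ₁ ≤ ρ / 32 ∧ κ₁ ≤ κ0 / 80 ∧
      κ₁ ≤ 1 / (2 * (Mf + 1)) ∧ κ₁ ≤ dw θ / (Mf + 1) ∧ κ₁ ≤ σ / 2 := by
    refine ⟨min (ρ / 32) (min (κ0 / 80) (min (1 / (2 * (Mf + 1))) (min (dw θ / (Mf + 1)) (σ / 2)))),
      by positivity, ?_, ?_, ?_, ?_, ?_⟩ <;> simp
  obtain ⟨M, hM2, hM⟩ : ∃ M : ℝ, 2 ≤ M ∧ (cB θ)⁻¹ ≤ M :=
    ⟨max 2 _, le_max_left _ _, le_max_right _ _⟩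
  obtain ⟨al, Ca, hal, hCa, hArm, -⟩ := hQ1.arm
  obtain ⟨P₀, hP₀⟩ := Vale.Agent.P167.N.H519.exists_lim hQ1 hal hArm
  refine ⟨ρ, κ₁, hρ, r0, hκ₁, fun κ hκ hκκ => ?_⟩
  obtain ⟨C3, ρ1, hC3, hρ1, H3⟩ := sm_mom hQ1 hRSW hP₀ κ R1 Mf (2 * Real.tan θ) hκ hR1.le hMf0
    (by linarith)
  obtain ⟨c1, C1, n₀, hc1, hC1, H1⟩ := mom_um hQ1 hRSW (Rf S).card (κ := κ) (σ := σ)
    (Rd := ((∑ w ∈ S.Q, nm w : ℤ) + 1 : ℝ)) (s := 2 * Real.log ((2 * M) ^ 2)) hκ (by linarith) (by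
      have : (0 : ℝ) ≤ ((∑ w ∈ S.Q, nm w : ℤ) : ℝ) := by
        exact_mod_cast sum_nonneg fun w _ => H825.Reg.nm_nn w
      linarith)
  refine ⟨min c1 (κ0 / 8), (3 * M * (2 * Real.cos θ)⁻¹ ^ (Rf S).card) ^ 2 *
    (Real.sqrt C1 * Real.sqrt C3), ρ / 8, by positivity,
    by have := hQ1.pos; positivity, by positivity, fun e he hee => ?_⟩
  filter_upwards [(hZn κ0 hκ0 le_rfl κ hκ (hκκ.trans k2) (hκκ.trans k3)).filter_mono X.le, hcr,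
    hreg, X.kle, hlarge X (1 / δ), hlarge X ρ1, hlarge X 1, hlarge X (64 / ρ), hlarge X n₀]
    with n hZ hcr hreg hk n1 n2 n3 n4 n5 z Rz hzR
  rw [div_le_iff₀ hδ] at n1
  rw [div_le_iff₀ hρ] at n4
  have hn5 : n₀ ≤ n := by exact_mod_cast n5
  obtain ⟨hCr, hCW⟩ := hcr
  have hn' : (0 : ℝ) < n := by linarith
  have hZg := hZ.zg
  obtain ⟨r, hr⟩ : ∃ r, r = ⌊ρ * (n : ℝ)⌋ := ⟨_, rfl⟩
  obtain ⟨R, hR⟩ : ∃ R, R = ⌊cs / 4 * (n : ℝ)⌋ := ⟨_, rfl⟩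
  obtain ⟨L, hLd⟩ : ∃ L, L = ⌊cs * (n : ℝ)⌋₊ := ⟨_, rfl⟩
  rw [← hLd] at hCr
  rw [← hr]
  obtain ⟨u1, u2, u3, u4, u5, u6, u7⟩ := num_ok hZg.κn hZg.κ0n hZg.k2 hn' r3 r4
    (r5.trans (by linarith : cs / 16 ≤ cs / 8)) r6 (hκκ.trans k1) hr
  obtain ⟨v1, v2, v3, v4⟩ := um_num hρ he r5 (hκκ.trans k1) hee (me_est he n) n3 (by linarith)
    (L := L) (by rw [hLd]; exact Nat.lt_floor_add_one _) hR hr
  have hCW' : CrW (X.q n) (X.k n) (Ic S s n) R := hCW.mono (by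
    rw [hR]
    exact Int.floor_le_floor (mul_le_mul_of_nonneg_right (by linarith) hn'.le))
  have hcard : (Ic S s n).card ≤ (Rf S).card := card_image_le
  have hm0 : 0 < QL.me e n := by unfold QL.me; omega
  -- the regular configuration outside
  obtain ⟨η₀, hη₀, hreg0⟩ := hreg 0
  have e1 : (S.D n).image (· + (0 : ℤ × ℤ)) = S.D n := by
    simp only [add_zero, image_id']
  have e2 : (fun i => X.q n i + (0 : ℤ × ℤ)) = X.q n := by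
    simp only [add_zero]
  rw [e1, e2] at hη₀
  rw [e1] at hreg0
  have hdia : ∃ x₀ : ℤ × ℤ, ∀ v ∈ S.D n, (nm (v - x₀) : ℝ) ≤ ((∑ w ∈ S.Q, nm w : ℤ) + 1 : ℝ) * n := by
    refine ⟨0, fun v hv => enl_dia (Q := S.Q) (a := 0) ?_⟩
    have : (H825.enl S.Q n).image (· + (0 : ℤ × ℤ)) = S.D n := by
      simp only [add_zero, image_id']
      rfl
    rw [this]
    exact hv
  obtain ⟨Nc, t1, t2, t3⟩ := H1 n hn5 hCr.poly hCr.enc hk hη₀ hreg0.good hreg0.one hdia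
    ((Ic S s n).image fun c : ℕ => X.q n (c : ZMod (X.N n))) (card_image_le.trans hcard) z
  have hmono : UmY (2 * Real.cos θ) (S.D n) (X.q n) (X.k n) (Ic S s n)
      (KI (X.q n) (S.D n) (X.k n) (Ic S s n) (QL.me e n))
      (wn θ β (X.q n) (S.D n) (X.k n) (cms f (1 / n)))
      (wn' θ β (X.q n) (S.D n) (X.k n) (cms f (1 / n)))
      (wn θ β (X.q n) (S.D n) (X.k n)
        (cP (X.q n) (phP θ (X.q n) (X.k n) (Ic S s n) (QL.me e n)) (cms f (1 / n))))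
      (wn' θ β (X.q n) (S.D n) (X.k n)
        (cP (X.q n) (phP θ (X.q n) (X.k n) (Ic S s n) (QL.me e n)) (cms f (1 / n))))
      z Rz r (κ * n) (min c1 (κ0 / 8) * n)
      ((3 * M * (2 * Real.cos θ)⁻¹ ^ (Ic S s n).card) ^ 2 * (Real.sqrt C1 * Real.sqrt C3)) := by
    have hc1' : min c1 (κ0 / 8) * n ≤ c1 * n :=
      mul_le_mul_of_nonneg_right (min_le_left _ _) hn'.le
    have hc2' : min c1 (κ0 / 8) * n ≤ κ0 / 8 * n :=
      mul_le_mul_of_nonneg_right (min_le_right _ _) hn'.le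
    refine umY h1 hβ hZg hMf0 hCr hCW' (sml_dw hκ hMf0 hn' (hκκ.trans k3) (hκκ.trans k4)) hM
      (by linarith) hm0 v1 u5 (by exact_mod_cast u2) v2 v3 v4 (fun v hv => ?_)
      (fun ω ω' hω => ?_) t2 hC1 hC3 fun η hη G hG0 hG => ⟨t3 η hη G hG0 fun ω ω' hω =>
        hG ω ω' fun u hu hc => hω u hu ?_, ?_⟩
    · rcases hzR with h | ⟨h, h'⟩
      · exact lt_of_lt_of_le h (H825.Reg.nm_nn _)
      · exact hZ.win h (by linarith) (h'.trans hc2') hv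
    · refine t1 ω ω' fun v hv => hω v ?_
      rcases hzR with h | ⟨h, h'⟩
      · exact lt_of_lt_of_le h (H825.Reg.nm_nn _)
      · have h4 : (Rz : ℝ) < nm (v - z) := lt_of_le_of_lt (h'.trans hc1') hv
        exact_mod_cast h4
    · obtain ⟨c, hc, hcu⟩ := hc
      exact ⟨_, mem_image_of_mem _ hc, hcu.trans hc1'⟩
    · refine H3 n n2 _ _ _ κ0 _ hZg η hη.good G hG0 (fun ω ω' hω => hG ω ω' fun u hu hc =>
        hω u ?_) (2 * Real.tan θ) (by linarith) le_rfl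
      rintro ⟨-, z', hz', h3⟩
      obtain ⟨c, hc, hcu⟩ := hc
      obtain ⟨u', hu', h4⟩ := H562.MAJ.near_site (hZg.supp z' hz')
      have h4' : (nm (z' - u') : ℝ) ≤ 1 := by exact_mod_cast h4
      have h7 : u ∈ Bq (X.q n (c : ZMod (X.N n))) (⌊κ0 / 8 * (n : ℝ)⌋ + 1) := by
        refine bq_of_nm ?_
        have h8 : (nm (u - X.q n (c : ZMod (X.N n))) : ℝ) ≤ κ0 / 8 * n := hcu.trans hc2'
        have := Int.le_floor.2 h8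
        omega
      have h5 := hZg.far_q hCr.poly hCr.enc (r := ⌊κ0 / 8 * (n : ℝ)⌋ + 1) (m := 33 * κ * n + 1) (by
        have e1 := hZg.κ0n
        have e2 := hZg.κn
        have e3 := hZg.k2
        have e5 := Int.floor_le (κ0 / 8 * (n : ℝ))
        push_cast
        linarith) hu' h7
      have h6 := H852.Q.nm_tri u z' u'
      linarith
  obtain ⟨Y, y1, y2, y3, y4, y5, y6, y7⟩ := hmono.ex
  refine ⟨⟨Y, y1, y2, y3, y4, y5, y6, fun η hη G hG0 hG => (y7 η hη G hG0 hG).trans ?_⟩⟩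
  refine mul_le_mul_of_nonneg_right (mul_le_mul_of_nonneg_right (pow_le_pow_left₀ ?_ ?_ 2)
    (by positivity)) (FKA.Ex_nonneg hQ1.pos fun _ _ => hG0 _)
  · have := hQ1.pos
    positivity
  · refine mul_le_mul_of_nonneg_left (pow_le_pow_right₀ ?_ hcard) (by positivity)
    exact (one_le_inv₀ hQ1.pos).2 hQ1.lt.le

end Vale.Agent.P167.N.H955
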