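import Vale.Agent.P167.N.H955.MshS
import Vale.Agent.P167.N.H955.MshA
import Vale.Agent.P167.N.H955.MixR
import Vale.Agent.P167.N.H955.UmX
import Vale.Agent.P167.N.QL.NsPos

/-!
# P167, `0 < q < 1`: the hypotheses of the closeness for the families, at all small scales

`rad_step`, `rad_num`, `rad_num'`: the radii. `msh_X0`, `msh_X`: the hypotheses `MshP`.
-/

set_option autoImplicit false

namespace Vale.Agent.P167.N.H955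

open Finset Filter Topology Vale.Agent.P167 Vale.Agent.P167.BR Vale.Agent.P167.FK
open Vale.Agent.P167.E6 (IsPolygon Encloses)
open Vale.Agent.P167.CA (cms)
open Vale.Agent.P167.H542.Q (BD)
open Vale.Agent.P167.H718 (Dob wn wn')
open Vale.Agent.P167.H760.Q (BaseQ Fp)
open Vale.Agent.P167.H852.Q (ZG exists_zn)
open Vale.Agent.P167.N.QL (wP cP phP BcX reg_X me_est hlarge Rf NS rI Lnd)

/-- Small powers. -/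
theorem pow_small {α C x : ℝ} (hα : 0 < α) (hC : 0 < C) (hx : 0 < x) :
    ∃ t0 : ℝ, 0 < t0 ∧ ∀ t : ℝ, 0 ≤ t → t ≤ t0 → C * t ^ α ≤ x := by
  refine ⟨(x / C) ^ (1 / α), Real.rpow_pos_of_pos (div_pos hx hC) _, fun t h0 h1 => ?_⟩
  have h2 : t ^ α ≤ ((x / C) ^ (1 / α)) ^ α := Real.rpow_le_rpow h0 h1 hα.le
  rw [← Real.rpow_mul (div_pos hx hC).le, one_div_mul_cancel hα.ne', Real.rpow_one,
    le_div_iff₀ hC] at h2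
  linarith

/-- Two consecutive radii. -/
theorem rad_step {x u : ℝ} (hx : 16 ≤ x) (hu : 3 ≤ u) : ⌊x⌋ + 2 ≤ ⌊u * x⌋ ∧
    0 ≤ ((⌊x⌋ + 1 : ℤ) : ℝ) / ((⌊u * x⌋ - 1 : ℤ) : ℝ) ∧
    ((⌊x⌋ + 1 : ℤ) : ℝ) / ((⌊u * x⌋ - 1 : ℤ) : ℝ) ≤ 3 / u ∧
    0 ≤ ((⌊x⌋ : ℤ) : ℝ) / ((⌊u * x⌋ : ℤ) : ℝ) ∧
    ((⌊x⌋ : ℤ) : ℝ) / ((⌊u * x⌋ : ℤ) : ℝ) ≤ 3 / u := by
  have h1 := Int.floor_le x
  have h2 := Int.lt_floor_add_one x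
  have h3 := Int.floor_le (u * x)
  have h4 := Int.lt_floor_add_one (u * x)
  have h5 : 3 * x ≤ u * x := mul_le_mul_of_nonneg_right hu (by linarith)
  have h6 : 16 * u ≤ u * x := by nlinarith
  have hu0 : 0 < u := by linarith
  obtain ⟨y, hy⟩ : ∃ y, y = u * x := ⟨_, rfl⟩
  rw [← hy] at h3 h4 h5 h6 ⊢
  refine ⟨?_, ?_, ?_, ?_, ?_⟩
  · have : ((⌊x⌋ + 2 : ℤ) : ℝ) < ((⌊y⌋ + 1 : ℤ) : ℝ) := by push_cast; linarith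
    have := Int.cast_lt.1 this
    omega
  · push_cast
    exact div_nonneg (by linarith) (by linarith)
  · push_cast
    rw [div_le_div_iff₀ (by linarith) hu0]
    have h7 : ((⌊x⌋ : ℝ) + 1) * u ≤ (x + 1) * u := mul_le_mul_of_nonneg_right (by linarith) hu0.le
    nlinarith
  · exact div_nonneg (by linarith) (by linarith)
  · rw [div_le_div_iff₀ (by linarith) hu0]
    have h7 : (⌊x⌋ : ℝ) * u ≤ x * u := mul_le_mul_of_nonneg_right (by linarith) hu0.le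
    nlinarith

/-- The radii and the numbers of the mesh. -/
theorem rad_num {cs κ0 c e n a0 a1 a3 : ℝ} {m L : ℕ} {R b0 b3 kz : ℤ}
    (h01 : a0 ≤ a1) (h13 : a1 ≤ a3)
    (hcs : a3 ≤ cs / 16) (hκ0 : a3 ≤ κ0 / 2) (h8 : a3 ≤ 1 / 8) (he0 : e ≤ a0 / 2) (he1 : e ≤ cs / 32)
    (he2 : e ≤ c / 2) (hm : |(m : ℝ) - e * n| ≤ 1) (hn : 1 ≤ n) (hn0 : 16 ≤ a0 * n)
    (hnc : 2 ≤ c * n) (hb0 : b0 = ⌊a0 * n⌋) (hb3 : b3 = ⌊a3 * n⌋)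
    (hL : cs * n < L + 1) (hR : R = ⌊cs / 4 * n⌋) (hkz : κ0 * n < kz + 1) :
    (m : ℤ) + 2 ≤ b0 ∧ ((6 * b3 : ℤ) : ℝ) < n ∧ 4 * b3 ≤ L ∧ (b3 : ℝ) + 1 + 1 ≤ kz ∧ b3 + 1 ≤ R ∧
      R + m + 1 < L ∧ 4 * (m : ℤ) + 1 ≤ R ∧ (m : ℝ) ≤ c * n := by
  obtain ⟨m1, m2⟩ := abs_le.1 hm
  have r1 : (b0 : ℝ) ≤ a0 * n := by rw [hb0]; exact Int.floor_le _
  have r2 : a0 * n < (b0 : ℝ) + 1 := by rw [hb0]; exact Int.lt_floor_add_one _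
  have r3 : (b3 : ℝ) ≤ a3 * n := by rw [hb3]; exact Int.floor_le _
  have R1 : (R : ℝ) ≤ cs / 4 * n := by rw [hR]; exact Int.floor_le _
  have R2 : cs / 4 * n < (R : ℝ) + 1 := by rw [hR]; exact Int.lt_floor_add_one _
  have e0 : e * n ≤ a0 / 2 * n := mul_le_mul_of_nonneg_right he0 (by linarith)
  have e1 : e * n ≤ cs / 32 * n := mul_le_mul_of_nonneg_right he1 (by linarith)
  have e2 : e * n ≤ c / 2 * n := mul_le_mul_of_nonneg_right he2 (by linarith)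
  have k1 : a3 * n ≤ cs / 16 * n := mul_le_mul_of_nonneg_right hcs (by linarith)
  have k2 : a3 * n ≤ κ0 / 2 * n := mul_le_mul_of_nonneg_right hκ0 (by linarith)
  have k3 : a3 * n ≤ 1 / 8 * n := mul_le_mul_of_nonneg_right h8 (by linarith)
  have k4 : a0 * n ≤ a3 * n := mul_le_mul_of_nonneg_right (h01.trans h13) (by linarith)
  refine ⟨?_, ?_, ?_, by linarith, ?_, ?_, ?_, by linarith⟩
  · have h4 : (((m : ℤ) + 2 : ℤ) : ℝ) < ((b0 + 1 : ℤ) : ℝ) := by push_cast; linarith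
    have := Int.cast_lt.1 h4
    omega
  · push_cast
    linarith
  · have h4 : ((4 * b3 : ℤ) : ℝ) < (((L : ℤ) + 1 : ℤ) : ℝ) := by push_cast; linarith
    have := Int.cast_lt.1 h4
    omega
  · have h4 : ((b3 + 1 : ℤ) : ℝ) < ((R + 1 : ℤ) : ℝ) := by push_cast; linarith
    have := Int.cast_lt.1 h4
    omega
  · have h4 : ((R + m + 1 : ℤ) : ℝ) < ((L : ℤ) : ℝ) := by push_cast; linarith
    exact Int.cast_lt.1 h4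
  · have h4 : ((4 * (m : ℤ) + 1 : ℤ) : ℝ) < ((R + 1 : ℤ) : ℝ) := by push_cast; linarith
    have := Int.cast_lt.1 h4
    omega

/-- **The choice of the radii.** -/
theorem rad_X {α αm Ca Cm p0 ε0 c1 a3 : ℝ} (hα : 0 < α) (hαm : 0 < αm) (hCa : 0 < Ca)
    (hCm : 0 < Cm) (hp0 : 0 < p0) (hε0 : 0 < ε0) (hc1 : 0 < c1) (ha3 : 0 < a3) :
    ∃ a0 a1 a2 : ℝ, 0 < a0 ∧ a0 ≤ a1 ∧ a1 ≤ a2 ∧ a2 ≤ a3 ∧ ∀ n : ℝ, 16 ≤ a0 * n → 0 < n →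
      ∀ b0 b1 b2 b3 : ℤ, b0 = ⌊a0 * n⌋ → b1 = ⌊a1 * n⌋ → b2 = ⌊a2 * n⌋ → b3 = ⌊a3 * n⌋ →
      ∀ p ε : ℝ, p = Ca * (((b0 + 1 : ℤ) : ℝ) / ((b1 - 1 : ℤ) : ℝ)) ^ α +
        Ca * (((b2 + 1 : ℤ) : ℝ) / ((b3 - 1 : ℤ) : ℝ)) ^ α → ε = 6 * (Cm * ((b1 : ℝ) / b2) ^ αm) →
      b0 + 2 ≤ b1 ∧ b1 + 2 ≤ b2 ∧ b2 + 2 ≤ b3 ∧ 0 ≤ p ∧ p ≤ p0 ∧ p ≤ c1 / 2 ∧
        Cm * ((b1 : ℝ) / b2) ^ αm ≤ 1 / 2 ∧ 0 ≤ ε ∧ ε ≤ ε0 ∧ ε ≤ 1 := by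
  obtain ⟨t1, ht1, Ht1⟩ := pow_small hα hCa (x := min p0 (c1 / 2) / 2) (by positivity)
  obtain ⟨t2, ht2, Ht2⟩ := pow_small hαm hCm (x := min (1 / 2) (min ε0 1 / 6)) (by positivity)
  obtain ⟨t, ht, tt1, tt2, tt3⟩ : ∃ t : ℝ, 0 < t ∧ t ≤ 1 ∧ t ≤ t1 ∧ t ≤ t2 := by
    refine ⟨min 1 (min t1 t2), by positivity, ?_, ?_, ?_⟩ <;> simp
  obtain ⟨u, hu⟩ : ∃ u, u = 3 / t := ⟨_, rfl⟩
  have hu3 : 3 ≤ u := by rw [hu, le_div_iff₀ ht]; linarith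
  have hu0 : 0 < u := by linarith
  have hut : 3 / u = t := by rw [hu]; field_simp
  obtain ⟨a2, ha2⟩ : ∃ a2, a2 = a3 / u := ⟨_, rfl⟩
  obtain ⟨a1, ha1⟩ : ∃ a1, a1 = a2 / u := ⟨_, rfl⟩
  obtain ⟨a0, ha0⟩ : ∃ a0, a0 = a1 / u := ⟨_, rfl⟩
  have x3 : u * a2 = a3 := by rw [ha2]; field_simp
  have x2 : u * a1 = a2 := by rw [ha1]; field_simp
  have x1 : u * a0 = a1 := by rw [ha0]; field_simp
  have p2 : 0 < a2 := by rw [ha2]; positivity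
  have p1 : 0 < a1 := by rw [ha1]; positivity
  have p0' : 0 < a0 := by rw [ha0]; positivity
  have y1 : a0 ≤ a1 := by rw [← x1]; exact le_mul_of_one_le_left p0'.le (by linarith)
  have y2 : a1 ≤ a2 := by rw [← x2]; exact le_mul_of_one_le_left p1.le (by linarith)
  have y3 : a2 ≤ a3 := by rw [← x3]; exact le_mul_of_one_le_left p2.le (by linarith)
  refine ⟨a0, a1, a2, p0', y1, y2, y3, fun n hn hn' b0 b1 b2 b3 hb0 hb1 hb2 hb3 p ε hp hε => ?_⟩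
  have z0 : a0 * n ≤ a1 * n := mul_le_mul_of_nonneg_right y1 hn'.le
  have z1 : a1 * n ≤ a2 * n := mul_le_mul_of_nonneg_right y2 hn'.le
  have s0 := rad_step (x := a0 * n) (u := u) hn hu3
  have s1 := rad_step (x := a1 * n) (u := u) (hn.trans z0) hu3
  have s2 := rad_step (x := a2 * n) (u := u) (hn.trans (z0.trans z1)) hu3
  rw [← mul_assoc, x1, ← hb0, ← hb1, hut] at s0
  rw [← mul_assoc, x2, ← hb1, ← hb2, hut] at s1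
  rw [← mul_assoc, x3, ← hb2, ← hb3, hut] at s2
  obtain ⟨g1, g2, g3, -, -⟩ := s0
  obtain ⟨i1, -, -, i2, i3⟩ := s1
  obtain ⟨j1, j2, j3, -, -⟩ := s2
  have P1 := Ht1 _ g2 (g3.trans tt2)
  have P2 := Ht1 _ j2 (j3.trans tt2)
  have P3 := Ht2 _ i2 (i3.trans tt3)
  have P4 : 0 ≤ Ca * (((b0 + 1 : ℤ) : ℝ) / ((b1 - 1 : ℤ) : ℝ)) ^ α :=
    mul_nonneg hCa.le (Real.rpow_nonneg g2 _)
  have P5 : 0 ≤ Ca * (((b2 + 1 : ℤ) : ℝ) / ((b3 - 1 : ℤ) : ℝ)) ^ α :=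
    mul_nonneg hCa.le (Real.rpow_nonneg j2 _)
  have P6 : 0 ≤ Cm * ((b1 : ℝ) / b2) ^ αm := mul_nonneg hCm.le (Real.rpow_nonneg i2 _)
  have m1 := min_le_left p0 (c1 / 2)
  have m2 := min_le_right p0 (c1 / 2)
  have m3 := min_le_left (1 / 2) (min ε0 1 / 6)
  have m4 := min_le_right (1 / 2) (min ε0 1 / 6)
  have m5 := min_le_left ε0 1
  have m6 := min_le_right ε0 1
  obtain ⟨e1, he1⟩ : ∃ e1, e1 = Cm * ((b1 : ℝ) / b2) ^ αm := ⟨_, rfl⟩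
  rw [← he1] at P3 P6 hε ⊢
  have hp' : p ≤ min p0 (c1 / 2) := by rw [hp]; linarith
  have he' : e1 ≤ min ε0 1 / 6 := P3.trans m4
  refine ⟨g1, i1, j1, by rw [hp]; exact add_nonneg P4 P5, hp'.trans m1, hp'.trans m2, P3.trans m3,
    by rw [hε]; linarith, ?_, ?_⟩
  · rw [hε]; linarith
  · rw [hε]; linarith

variable {S : CA.Dat} {θ β : ℝ} {f : ℂ → ℝ}

theorem ff_zero (S : CA.Dat) : S.FF fun _ => 0 := by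
  refine ⟨⟨contDiff_const, HasCompactSupport.zero, ?_⟩, ?_⟩
  · have : tsupport (fun _ : ℂ => (0 : ℝ)) = ∅ := tsupport_eq_empty_iff.2 rfl
    rw [this]
    exact Set.empty_subset _
  · simp

theorem cms_zero (δ : ℝ) : cms (fun _ => 0) δ = fun _ => 0 := by
  funext z
  unfold cms
  simp

/-- **The hypotheses of the closeness at all small scales**, for all boundary conditions. -/
theorem msh_X0 (h1 : Ang θ) (hβ : Real.cos (θ / 2 + β) = Real.sin θ) (X : BD S θ β) {s : ℕ → ℕ}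
    (hb : BaseQ X s) (hB : BcX X s) (hf : S.FF f) {δ ρ0 : ℝ} (hδ : 0 < δ) (hρ0 : 0 < ρ0) :
    ∃ C2 ρ κ₁ : ℝ, 0 < C2 ∧ 0 < ρ ∧ ρ ≤ ρ0 ∧ 0 < κ₁ ∧ ∀ κ : ℝ, 0 < κ → κ ≤ κ₁ →
    ∃ c C : ℝ, 0 < c ∧ c ≤ ρ0 ∧ 1 ≤ C ∧ ∀ δ1 : ℝ, 0 < δ1 →
    ∃ e0 : ℝ, 0 < e0 ∧ ∀ e : ℝ, 0 < e → e ≤ e0 → ∀ᶠ n : ℕ in X.L,
    ∃ (T T' : ℕ → Cfg → ℝ) (b0 b1 b2 b3 : ℤ) (p ε : ℝ),
      Dl (2 * Real.cos θ)⁻¹ (4 * C) C2 p ε (Rf S).card ≤ δ1 ∧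
      ∀ η : Cfg, Dob η (S.D n) (X.q n) (X.k n) →
      ∀ (z : ℤ × ℤ) (Rz : ℤ), (Rz < 0 ∨ (Fp S δ n z ∧ (Rz : ℝ) ≤ c * n)) →
        MshP X s f e n η T T' b0 b1 b2 b3 ⌊ρ * n⌋ Rz z p ε (κ * n) (c * n) C C2 := by
  classical
  have hQ : 0 < 2 * Real.cos θ := h1.kit.pos
  have hQ1 : 2 * Real.cos θ < 1 := h1.kit.lt
  have hcθ := h1.cos_pos
  have hA1 : 1 ≤ (2 * Real.cos θ)⁻¹ := (one_le_inv₀ hQ).2 hQ1.le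
  obtain ⟨κ0, Mf, R1, hκ0, hMf0, hR1, hZn⟩ := exists_zn hf
  obtain ⟨cs, hcs, hcr⟩ := cr_X X hb hB
  obtain ⟨σ, hσ, hreg⟩ := reg_X X hb hB
  obtain ⟨c1, el, hc1, hel, hlnd⟩ := QL.lnd_X' h1 X hb
  obtain ⟨ep, hep, hpos⟩ := QL.ns_pos_X h1.cos_pos X hb
  obtain ⟨ρf, κf, hρf, hρf0, hκf, Hf⟩ := um_X h1 hβ X hb hB hf hδ hρ0
  obtain ⟨ρz, κz, hρz, hρz0, hκz, Hz⟩ := um_X h1 hβ X hb hB (ff_zero S) hδ hρ0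
  obtain ⟨α, Ca, hα, hCa, Hm⟩ := msh_cr h1 hβ
  obtain ⟨αm, Cm, hαm, hCm, Hmix⟩ := mix_reg h1.kit
  obtain ⟨C2, hC2⟩ : ∃ C2, C2 = max 1 (2 / (Real.cos θ * c1)) ^ (Rf S).card := ⟨_, rfl⟩
  have hC20 : 0 < C2 := by rw [hC2]; exact pow_pos (lt_of_lt_of_le one_pos (le_max_left _ _)) _
  obtain ⟨κ₁, hκ₁, k1, k2, k3, k4⟩ : ∃ κ₁ : ℝ, 0 < κ₁ ∧ κ₁ ≤ κf ∧ κ₁ ≤ κz ∧ κ₁ ≤ κ0 / 80 ∧
      κ₁ ≤ 1 / (2 * (Mf + 1)) := by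
    refine ⟨min κf (min κz (min (κ0 / 80) (1 / (2 * (Mf + 1))))), by positivity, ?_, ?_, ?_, ?_⟩ <;>
      simp
  refine ⟨C2, max ρf ρz, κ₁, hC20, lt_max_of_lt_left hρf, max_le hρf0 hρz0, hκ₁,
    fun κ hκ hκκ => ?_⟩
  obtain ⟨cf, Cf, ef, hcf, hCf, hef, Hf⟩ := Hf κ hκ (hκκ.trans k1)
  obtain ⟨cz, Cz, ez, hcz, hCz, hez, Hz⟩ := Hz κ hκ (hκκ.trans k2)
  obtain ⟨c, hc, c1', c2', c3'⟩ : ∃ c : ℝ, 0 < c ∧ c ≤ ρ0 ∧ c ≤ cf ∧ c ≤ cz := by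
    refine ⟨min ρ0 (min cf cz), by positivity, ?_, ?_, ?_⟩ <;> simp
  obtain ⟨C, hC, C1', C2'⟩ : ∃ C : ℝ, 1 ≤ C ∧ Cf ≤ C ∧ Cz ≤ C := by
    refine ⟨max 1 (max Cf Cz), ?_, ?_, ?_⟩ <;> simp
  refine ⟨c, C, hc, c1', hC, fun δ1 hδ1 => ?_⟩
  obtain ⟨p0, ε0, hp0, hε0, hDl⟩ := dl_small (A := (2 * Real.cos θ)⁻¹) (C := 4 * C) (C2 := C2) hA1
    hC20.le (Rf S).card hδ1
  obtain ⟨a3, ha3, q1, q2, q3, q4, q5⟩ : ∃ a3 : ℝ, 0 < a3 ∧ a3 ≤ σ ∧ a3 ≤ cs / 16 ∧ a3 ≤ κ0 / 2 ∧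
      a3 ≤ 1 / 8 ∧ a3 ≤ ρf := by
    refine ⟨min σ (min (cs / 16) (min (κ0 / 2) (min (1 / 8) ρf))), by positivity, ?_, ?_, ?_, ?_,
      ?_⟩ <;> simp
  obtain ⟨a0, a1, a2, p0', y1, y2, y3, Hr⟩ := rad_X hα hαm hCa hCm hp0 hε0 hc1 ha3
  obtain ⟨e0, he0, w1, w2, w3, w4, w5, w6, w7⟩ : ∃ e0 : ℝ, 0 < e0 ∧ e0 ≤ el ∧ e0 ≤ ep ∧ e0 ≤ ef ∧
      e0 ≤ ez ∧ e0 ≤ a0 / 2 ∧ e0 ≤ cs / 32 ∧ e0 ≤ c / 2 := by
    refine ⟨min el (min ep (min ef (min ez (min (a0 / 2) (min (cs / 32) (c / 2)))))), by positivity,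
      ?_, ?_, ?_, ?_, ?_, ?_, ?_⟩ <;> simp
  refine ⟨e0, he0, fun e he hee => ?_⟩
  filter_upwards [(hZn κ0 hκ0 le_rfl κ hκ (hκκ.trans k3) (hκκ.trans k4)).filter_mono X.le, hcr, hreg,
    X.kle, Hf e he (hee.trans w3), Hz e he (hee.trans w4), hlnd e he (hee.trans w1),
    hpos e he (hee.trans w2), hlarge X (16 / a0), hlarge X (2 / c), hlarge X 1]
    with n hZ hcr hreg hk hUf hUz hlnd hpos n1 n2 n3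
  rw [div_le_iff₀ p0', mul_comm] at n1
  rw [div_le_iff₀ hc, mul_comm] at n2
  obtain ⟨hCr, hCW⟩ := hcr
  have hn' : (0 : ℝ) < n := by linarith
  have hZg := hZ.zg
  obtain ⟨R, hR⟩ : ∃ R, R = ⌊cs / 4 * (n : ℝ)⌋ := ⟨_, rfl⟩
  obtain ⟨L, hLd⟩ : ∃ L, L = ⌊cs * (n : ℝ)⌋₊ := ⟨_, rfl⟩
  rw [← hLd] at hCr
  have hCW' : CrW (X.q n) (X.k n) (Ic S s n) R := hCW.mono (by
    rw [hR]
    exact Int.floor_le_floor (mul_le_mul_of_nonneg_right (by linarith) hn'.le))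
  have hcard : (Ic S s n).card ≤ (Rf S).card := card_image_le
  have hm0 : 0 < QL.me e n := by unfold QL.me; omega
  -- the radii
  obtain ⟨b0, hb0⟩ : ∃ b0 : ℤ, b0 = ⌊a0 * (n : ℝ)⌋ := ⟨_, rfl⟩
  obtain ⟨b1, hb1⟩ : ∃ b1 : ℤ, b1 = ⌊a1 * (n : ℝ)⌋ := ⟨_, rfl⟩
  obtain ⟨b2, hb2⟩ : ∃ b2 : ℤ, b2 = ⌊a2 * (n : ℝ)⌋ := ⟨_, rfl⟩
  obtain ⟨b3, hb3⟩ : ∃ b3 : ℤ, b3 = ⌊a3 * (n : ℝ)⌋ := ⟨_, rfl⟩
  obtain ⟨v1, v2, v3, v4, v5, v6, v7, v8⟩ := rad_num (κ0 := κ0) (kz := ⌊κ0 * (n : ℝ)⌋) (y1) (y2.trans y3)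
    q2 q3 q4 (hee.trans w5) (hee.trans w6) (hee.trans w7) (me_est he n) n3 (by linarith)
    (by linarith) hb0 hb3 (L := L) (by rw [hLd]; exact Nat.lt_floor_add_one _) hR
    (Int.lt_floor_add_one _)
  obtain ⟨g1, i1, j1, P1, P2, P3, P4, P5, P6, P7⟩ := Hr n n1 hn' b0 b1 b2 b3 hb0 hb1 hb2 hb3 _ _
    rfl rfl
  refine ⟨fun c => Tl (wP θ β (X.q n) (S.D n) (X.k n)
      (phP θ (X.q n) (X.k n) (Ic S s n) (QL.me e n))) (S.D n) (X.q n (c : ZMod (X.N n))) b0 b1,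
    fun c => (NS (X.q n) (S.D n) c (rI (X.q n) (X.k n) c) (QL.me e n)).indicator 1,
    b0, b1, b2, b3, Ca * (((b0 + 1 : ℤ) : ℝ) / ((b1 - 1 : ℤ) : ℝ)) ^ α +
    Ca * (((b2 + 1 : ℤ) : ℝ) / ((b3 - 1 : ℤ) : ℝ)) ^ α, 6 * (Cm * ((b1 : ℝ) / b2) ^ αm),
    hDl _ _ P1 P2 P5 P6, fun η hη z Rz hzR => ?_⟩
  -- the regular configuration outside
  obtain ⟨η₀, hη₀, hreg0⟩ := hreg 0
  have e1 : (S.D n).image (· + (0 : ℤ × ℤ)) = S.D n := by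
    simp only [add_zero, image_id']
  have e2 : (fun i => X.q n i + (0 : ℤ × ℤ)) = X.q n := by
    simp only [add_zero]
  rw [e1, e2] at hη₀
  rw [e1] at hreg0
  have hb00 : 0 ≤ b0 := by omega
  have hb3σ : b3 ≤ ⌊σ * (n : ℝ)⌋ := by
    rw [hb3]
    exact Int.floor_le_floor (mul_le_mul_of_nonneg_right q1 hn'.le)
  have hBd : ∀ (c' : ℕ) (r : ℤ), 1 ≤ r → r ≤ b3 →
      N.H167.Q.Bd3 (S.D n) η₀ (X.q n (c' : ZMod (X.N n))) r := fun c' r hr hr3 =>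
    hreg0.bd _ (H718.q_mem_sites hCr.poly hCr.enc _) r hr (hr3.trans hb3σ)
  have hUf' := hUf z Rz (hzR.imp id fun h => ⟨h.1, h.2.trans
    (mul_le_mul_of_nonneg_right c2' hn'.le)⟩)
  have hUz' := hUz z Rz (hzR.imp id fun h => ⟨h.1, h.2.trans
    (mul_le_mul_of_nonneg_right c3' hn'.le)⟩)
  rw [cms_zero] at hUz'
  have rf : ⌊ρf * (n : ℝ)⌋ ≤ ⌊max ρf ρz * (n : ℝ)⌋ :=
    Int.floor_le_floor (mul_le_mul_of_nonneg_right (le_max_left _ _) hn'.le)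
  have rz : ⌊ρz * (n : ℝ)⌋ ≤ ⌊max ρf ρz * (n : ℝ)⌋ :=
    Int.floor_le_floor (mul_le_mul_of_nonneg_right (le_max_right _ _) hn'.le)
  have U1 := UmY.mono hQ hUf' rf (mul_le_mul_of_nonneg_right c2' hn'.le) C1'
  have U2 := UmY.mono hQ hUz' rz (mul_le_mul_of_nonneg_right c3' hn'.le) C2'
  have hb3r : b3 ≤ ⌊max ρf ρz * (n : ℝ)⌋ := by
    refine le_trans ?_ rf
    rw [hb3]
    exact Int.floor_le_floor (mul_le_mul_of_nonneg_right q5 hn'.le)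
  have key := Hm hZg hMf0 hCr hCW' hcard hη
    (fun c' _ => bd3_shp (hBd c' b3 (by omega) le_rfl))
    (fun c' _ => MixAt.dob hCr.poly hCr.enc hk hQ hη₀ hη (Hmix _ _ _ _ _ hreg0.good
      (hBd c' b2 (by omega) (by omega)) (by omega) (by omega) P4)) P5 P7 hc1
    (fun c' hc' => hlnd c' hc' η hη) (fun c' hc' => hpos c' hc' η) hm0 v1 g1 (by omega) j1 hb3r (by exact_mod_cast v2) v3 v4 v5 v6 v7 v8 (by linarith) P3 U1 U2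
  rw [hC2]
  exact key

/-- **The hypotheses of the closeness at all small scales.** -/
theorem msh_X (h1 : Ang θ) (hβ : Real.cos (θ / 2 + β) = Real.sin θ) (X : BD S θ β) {s : ℕ → ℕ}
    (hb : BaseQ X s) (hB : BcX X s) (hf : S.FF f) {δ ρ0 : ℝ} (hδ : 0 < δ) (hρ0 : 0 < ρ0) :
    ∃ C2 ρ κ₁ : ℝ, 0 < C2 ∧ 0 < ρ ∧ ρ ≤ ρ0 ∧ 0 < κ₁ ∧ ∀ κ : ℝ, 0 < κ → κ ≤ κ₁ →
    ∃ c C : ℝ, 0 < c ∧ c ≤ ρ0 ∧ 1 ≤ C ∧ ∀ δ1 : ℝ, 0 < δ1 →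
    ∃ e0 : ℝ, 0 < e0 ∧ ∀ e : ℝ, 0 < e → e ≤ e0 → ∀ᶠ n : ℕ in X.L,
    ∃ (η : Cfg) (T T' : ℕ → Cfg → ℝ) (b0 b1 b2 b3 : ℤ) (p ε : ℝ),
      Dl (2 * Real.cos θ)⁻¹ (4 * C) C2 p ε (Rf S).card ≤ δ1 ∧
      ∀ (z : ℤ × ℤ) (Rz : ℤ), (Rz < 0 ∨ (Fp S δ n z ∧ (Rz : ℝ) ≤ c * n)) →
        MshP X s f e n η T T' b0 b1 b2 b3 ⌊ρ * n⌋ Rz z p ε (κ * n) (c * n) C C2 := by
  obtain ⟨C2, ρ, κ₁, h2, h3, h4, h5, H⟩ := msh_X0 h1 hβ X hb hB hf hδ hρ0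
  obtain ⟨σ, hσ, hreg⟩ := reg_X X hb hB
  refine ⟨C2, ρ, κ₁, h2, h3, h4, h5, fun κ hκ hκκ => ?_⟩
  obtain ⟨c, C, k1, k2, k3, H⟩ := H κ hκ hκκ
  refine ⟨c, C, k1, k2, k3, fun δ1 hδ1 => ?_⟩
  obtain ⟨e0, he0, H⟩ := H δ1 hδ1
  refine ⟨e0, he0, fun e he hee => ?_⟩
  filter_upwards [H e he hee, hreg] with n H hreg
  obtain ⟨T, T', b0, b1, b2, b3, p, ε, l1, l2⟩ := H
  obtain ⟨η₀, hη₀, -⟩ := hreg 0
  have e1 : (S.D n).image (· + (0 : ℤ × ℤ)) = S.D n := by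
    simp only [add_zero, image_id']
  have e2 : (fun i => X.q n i + (0 : ℤ × ℤ)) = X.q n := by
    simp only [add_zero]
  rw [e1, e2] at hη₀
  exact ⟨η₀, T, T', b0, b1, b2, b3, p, ε, l1, l2 η₀ hη₀⟩

end Vale.Agent.P167.N.H955
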