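import Vale.Agent.P167.N.QL.Ph
import Vale.Agent.P167.H685.LD.Inter

/-!
# P167, `0 < q < 1`: the strands around two neighbouring charges of opposite sign

Two strands are nested or disjoint (`nest_lo`, `nest_hi`). A closed strand over a site `r` which is the
end of an open strand contains an open strand over `r` (`exists_open`). The product of the weights of
the strands in a region around the charges `θ` at `r` and `-θ` at `z` is `0` or a power of
`2 * cos θ` (`prod_pair`).
-/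

set_option autoImplicit false

namespace Vale.Agent.P167.N.H955

open Finset Vale.Agent.P167 Vale.Agent.P167.BR
open Vale.Agent.P167.E6 (IsPolygon Encloses)
open Vale.Agent.P167.H718 (IsXY IsCl Cl isCl_strand pot_bd side_const)
open Vale.Agent.P167.QX (wB lo hi lo_xy hi_xy exists_xy)
open Vale.Agent.P167.N.QL (wP)

variable {D : Finset (ℤ × ℤ)} {ω : Cfg} {A B C : Finset Ed} {N k r z : ℕ} {q : ZMod N → ℤ × ℤ}

section

variable (hq : IsPolygon q) (hD : Encloses q D)

include hq hD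

theorem lo_lt_hi (hA : A ∈ pcs ω D) (hl : ¬ IsLp D A) : lo q A < hi q A ∧ hi q A < N := by
  obtain ⟨x, y, h⟩ := exists_xy hq hD hA hl
  rw [lo_xy hq hD hA h, hi_xy hq hD hA h]
  have := h.ne
  have h1 := h.1
  have h2 := h.2.1
  omega

theorem lo_mem (hA : A ∈ pcs ω D) (hl : ¬ IsLp D A) : be q (lo q A) ∈ A := by
  obtain ⟨x, y, h⟩ := exists_xy hq hD hA hl
  rw [lo_xy hq hD hA h]
  rcases le_total x y with h1 | h1
  · rw [min_eq_left h1]; exact h.2.2.1
  · rw [min_eq_right h1]; exact h.2.2.2.1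

theorem hi_mem (hA : A ∈ pcs ω D) (hl : ¬ IsLp D A) : be q (hi q A) ∈ A := by
  obtain ⟨x, y, h⟩ := exists_xy hq hD hA hl
  rw [hi_xy hq hD hA h]
  rcases le_total x y with h1 | h1
  · rw [max_eq_right h1]; exact h.2.2.2.1
  · rw [max_eq_left h1]; exact h.2.2.1

/-- The strand which ends at the side `j`. -/
theorem foot_iff (hA : A ∈ pcs ω D) (hl : ¬ IsLp D A) {j : ℕ} (hj : j < N) :
    be q (j : ZMod N) ∈ A ↔ j = lo q A ∨ j = hi q A := by
  obtain ⟨x, y, h⟩ := exists_xy hq hD hA hl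
  rw [h.iff hq hD hA hj, lo_xy hq hD hA h, hi_xy hq hD hA h]
  have := h.ne
  omega

/-- The value of the potential of a strand at a boundary site: inner or outer. -/
theorem pot_in (hA : A ∈ pcs ω D) (hl : ¬ IsLp D A) {u : ℤ × ℤ → ℤ} (hu : PotD D A u) {j : ℕ}
    (hj : j ≤ N) : u (q (j : ZMod N)) = u (q 0) ↔ ¬ (lo q A < j ∧ j ≤ hi q A) := by
  obtain ⟨x, y, h⟩ := exists_xy hq hD hA hl
  rw [pot_bd hq hD hA h hu hj, lo_xy hq hD hA h, hi_xy hq hD hA h]
  have := h.ne
  split_ifs <;> omega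

omit hq hD in
/-- A piece `B ≠ A` with one side at an inner site of `A` has all sides at inner sites. -/
theorem pot_side_in (hA : A ∈ pcs ω D) (hB : B ∈ pcs ω D) (hAB : A ≠ B) {u : ℤ × ℤ → ℤ}
    (hu : PotD D A u) {e e' : Ed} (he : e ∈ B) (he' : e' ∈ B) :
    u (rs e') = u (rs e) ∧ u (ls e') = u (rs e) := by
  have h1 := (side_const hA hu hB he he').2
  have h2 : e' ∉ A := fun h => hAB (eq_of_mem_pcs hA hB h he')
  exact ⟨h1, by rw [hu.eq (subset_eds hB he') h2, h1]⟩

/-- The value of the potential at a side of another strand. -/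
theorem pot_foot (hA : A ∈ pcs ω D) (hB : B ∈ pcs ω D) (hAB : A ≠ B) {u : ℤ × ℤ → ℤ}
    (hu : PotD D A u) {j : ℕ} (hj : be q (j : ZMod N) ∈ B) :
    u (rs (be q (j : ZMod N))) = u (q (j : ZMod N)) := by
  by_cases hev : Even ((q (j : ZMod N)).1 + (q (j : ZMod N)).2)
  · obtain ⟨h3, h4, -⟩ := be_even hq hD hev
    rw [← (pot_side_in hA hB hAB hu hj hj).2, h3]
  · obtain ⟨h3, h4, -⟩ := be_odd hq hD hev
    rw [h3]

/-- **Two strands are nested or disjoint.** -/
theorem nest_lo (hA : A ∈ pcs ω D) (hl : ¬ IsLp D A) (hB : B ∈ pcs ω D) (hlB : ¬ IsLp D B)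
    (h1 : lo q A < lo q B) (h2 : lo q B < hi q A) : hi q B < hi q A := by
  have hAB : A ≠ B := by
    rintro rfl
    exact lt_irrefl _ h1
  obtain ⟨u, hu⟩ := exists_pot hq hD hA
  have hb1 := (lo_lt_hi hq hD hB hlB)
  have m1 := lo_mem hq hD hB hlB
  have m2 := hi_mem hq hD hB hlB
  have e1 := pot_foot hq hD hA hB hAB hu m1
  have e2 := pot_foot hq hD hA hB hAB hu m2
  have e3 := (pot_side_in hA hB hAB hu m1 m2).1
  have h3 : ¬ u (q (lo q B : ZMod N)) = u (q 0) := by
    rw [pot_in hq hD hA hl hu (by omega)]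
    omega
  have h4 : ¬ u (q (hi q B : ZMod N)) = u (q 0) := by
    rw [← e2, e3, e1]
    exact h3
  rw [pot_in hq hD hA hl hu (by omega)] at h4
  have h5 : hi q B ≠ hi q A := by
    intro h6
    have := hi_mem hq hD hA hl
    rw [← h6] at this
    exact hAB (eq_of_mem_pcs hA hB this m2)
  omega

theorem nest_hi (hA : A ∈ pcs ω D) (hl : ¬ IsLp D A) (hB : B ∈ pcs ω D) (hlB : ¬ IsLp D B)
    (h1 : lo q A < hi q B) (h2 : hi q B < hi q A) : lo q A < lo q B := by
  have hAB : A ≠ B := by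
    rintro rfl
    exact lt_irrefl _ h2
  obtain ⟨u, hu⟩ := exists_pot hq hD hA
  have hb1 := (lo_lt_hi hq hD hB hlB)
  have m1 := lo_mem hq hD hB hlB
  have m2 := hi_mem hq hD hB hlB
  have e1 := pot_foot hq hD hA hB hAB hu m1
  have e2 := pot_foot hq hD hA hB hAB hu m2
  have e3 := (pot_side_in hA hB hAB hu m1 m2).1
  have h3 : ¬ u (q (hi q B : ZMod N)) = u (q 0) := by
    rw [pot_in hq hD hA hl hu (by omega)]
    omega
  have h4 : ¬ u (q (lo q B : ZMod N)) = u (q 0) := by
    rw [← e1, ← e3, e2]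
    exact h3
  rw [pot_in hq hD hA hl hu (by omega)] at h4
  omega

/-- The jump of the potential of a piece between two boundary sites. -/
theorem jump (hA : A ∈ pcs ω D) {u : ℤ × ℤ → ℤ} (hu : PotD D A u) {x y : ℕ} (h : IsXY q A x y)
    {a b : ℕ} (hab : a ≤ b) (hb : b ≤ N) : u (q (b : ZMod N)) - u (q (a : ZMod N)) =
      (if a ≤ y ∧ y < b then 1 else 0) - (if a ≤ x ∧ x < b then 1 else 0) := by
  rw [pot_bd hq hD hA h hu hb, pot_bd hq hD hA h hu (hab.trans hb)]
  split_ifs <;> omega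

open Classical in
/-- The sum of the jumps. -/
theorem sum_jump {U : Finset Ed → ℤ × ℤ → ℤ} (hU : ∀ A ∈ pcs ω D, PotD D A (U A)) (a b : ℕ) :
    ∑ A ∈ (pcs ω D).filter (fun A => ¬ IsLp D A), (U A (q (b : ZMod N)) - U A (q (a : ZMod N))) =
      (if Even ((q (b : ZMod N)).1 + (q (b : ZMod N)).2) then 1 else 0) -
      (if Even ((q (a : ZMod N)).1 + (q (a : ZMod N)).2) then 1 else 0) := by
  have h1 := H685.LD.sum_bd hq hD hU a
  have h2 := H685.LD.sum_bd hq hD hU b
  have h3 : ∑ A ∈ (pcs ω D).filter (fun A => ¬ IsLp D A),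
      (U A (q (b : ZMod N)) - U A (q (a : ZMod N))) =
      ∑ A ∈ pcs ω D, (U A (q (b : ZMod N)) - U A (q (a : ZMod N))) := by
    refine sum_subset (filter_subset _ _) fun A hA hn => ?_
    have hl : IsLp D A := by
      by_contra hl
      exact hn (mem_filter.2 ⟨hA, hl⟩)
    rw [lp_bd hq hD hA (hU A hA) hl, lp_bd hq hD hA (hU A hA) hl, sub_self]
  rw [h3, sum_sub_distrib, h1, h2]
  ring

/-- The sign of a strand: `1` for closed strands on the free arc and for open strands on the wired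
arc, in terms of the order of the sides. -/
theorem cl_iff (hA : A ∈ pcs ω D) (hl : ¬ IsLp D A) {x y : ℕ} (h : IsXY q A x y) :
    (IsCl D q k A ↔ ((hi q A < k ∧ y < x) ∨ (k ≤ lo q A ∧ x < y))) := by
  rw [isCl_strand hq hD hA hl h]
  rw [hi_xy hq hD hA h, lo_xy hq hD hA h]
  unfold Cl
  omega

/-- **A closed strand over the site `r` contains an open strand over `r`.** -/
theorem exists_open (hA : A ∈ pcs ω D) (hl : ¬ IsLp D A) (hc : IsCl D q k A)
    (hm : hi q A < k ∨ k ≤ lo q A) (h1 : lo q A < r) (h2 : r ≤ hi q A)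
    (hr : r < k ↔ ¬ Even ((q (r : ZMod N)).1 + (q (r : ZMod N)).2)) :
    ∃ C ∈ pcs ω D, ¬ IsLp D C ∧ ¬ IsCl D q k C ∧ lo q A < lo q C ∧ lo q C < r ∧ r ≤ hi q C ∧
      hi q C < hi q A := by
  classical
  obtain ⟨x, y, h⟩ := exists_xy hq hD hA hl
  obtain ⟨U, hU⟩ : ∃ U : Finset Ed → ℤ × ℤ → ℤ, ∀ B ∈ pcs ω D, PotD D B (U B) := by
    refine ⟨fun B => if hB : B ∈ pcs ω D then (exists_pot hq hD hB).choose else 0, fun B hB => ?_⟩
    simp only [dif_pos hB]
    exact (exists_pot hq hD hB).choose_spec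
  have hhi := lo_lt_hi hq hD hA hl
  obtain ⟨a, ha⟩ : ∃ a, a = lo q A := ⟨_, rfl⟩
  have hs := sum_jump hq hD hU (a + 1) r
  have hci := (cl_iff hq hD hA hl h).1 hc
  have hlx := lo_xy hq hD hA h
  have hhx := hi_xy hq hD hA h
  have hxe := h.2.2.2.2.1
  have hyo := h.2.2.2.2.2
  have hxy := h.ne
  -- the parity of the site after the lower side
  have hpar := H685.LD.par_step hq hD ((a : ℕ) : ZMod N)
  have hcast : (((a + 1 : ℕ) : ZMod N)) = ((a : ℕ) : ZMod N) + 1 := by push_cast; rfl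
  rw [hcast] at hs
  by_contra hcon
  push Not at hcon
  -- every strand in the sum has the other sign
  have key : ∀ B ∈ (pcs ω D).filter (fun A => ¬ IsLp D A), ∀ x' y' : ℕ, IsXY q B x' y' →
      (hi q A < k → ¬ (a + 1 ≤ x' ∧ x' < r ∧ ¬ (a + 1 ≤ y' ∧ y' < r))) ∧
      (k ≤ lo q A → ¬ (a + 1 ≤ y' ∧ y' < r ∧ ¬ (a + 1 ≤ x' ∧ x' < r))) := by
    intro B hB x' y' hB'
    rw [mem_filter] at hB
    obtain ⟨hB1, hB2⟩ := hB
    have e1 := lo_xy hq hD hB1 hB'
    have e2 := hi_xy hq hD hB1 hB'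
    have hne := hB'.ne
    have f1 := nest_lo hq hD hA hl hB1 hB2
    have f2 := nest_hi hq hD hA hl hB1 hB2
    have f3 := hcon B hB1 hB2
    have f4 : (IsCl D q k B ↔
        ((hi q B < k ∧ y' < x') ∨ (k ≤ lo q B ∧ x' < y'))) :=
      cl_iff hq hD hB1 hB2 hB'
    constructor
    · rintro h3 ⟨h4, h5, h6⟩
      have g1 : x' ≠ hi q A := by omega
      have g2 : lo q A < lo q B := by
        rcases lt_or_gt_of_ne hne with h7 | h7
        · rw [e1, min_eq_left h7.le]; omega
        · rw [e2, max_eq_left h7.le] at f2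
          exact f2 (by omega) (by omega)
      have g3 : hi q B < hi q A := by
        refine f1 g2 ?_
        rw [e1]
        have := min_le_left x' y'
        omega
      have g4 : y' ≤ hi q B := by rw [e2]; exact le_max_right _ _
      have g4' : lo q B ≤ y' := by rw [e1]; exact min_le_right _ _
      have g5 : x' < y' := by omega
      have g6 : ¬ IsCl D q k B := by
        rw [f4]
        omega
      rw [min_eq_left g5.le] at e1
      rw [max_eq_right g5.le] at e2
      have := f3 g6 g2 (by omega) (by omega)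
      omega
    · rintro h3 ⟨h4, h5, h6⟩
      have g2 : lo q A < lo q B := by
        rcases lt_or_gt_of_ne hne with h7 | h7
        · rw [e2, max_eq_right h7.le] at f2
          exact f2 (by omega) (by omega)
        · rw [e1, min_eq_right h7.le]; omega
      have g3 : hi q B < hi q A := by
        refine f1 g2 ?_
        rw [e1]
        have := min_le_right x' y'
        omega
      have g4 : x' ≤ hi q B := by rw [e2]; exact le_max_left _ _
      have g4' : lo q B ≤ x' := by rw [e1]; exact min_le_left _ _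
      have g5 : y' < x' := by omega
      have g6 : ¬ IsCl D q k B := by
        rw [f4]
        omega
      rw [min_eq_right g5.le] at e1
      rw [max_eq_left g5.le] at e2
      have := f3 g6 g2 (by omega) (by omega)
      omega
  have hval : ∀ B ∈ (pcs ω D).filter (fun A => ¬ IsLp D A),
      (hi q A < k → 0 ≤ U B (q (r : ZMod N)) - U B (q ((a : ZMod N) + 1))) ∧
      (k ≤ lo q A → U B (q (r : ZMod N)) - U B (q ((a : ZMod N) + 1)) ≤ 0) := by
    intro B hB
    have hB1 := (mem_filter.1 hB).1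
    obtain ⟨x', y', hB'⟩ := exists_xy hq hD hB1 (mem_filter.1 hB).2
    have e1 := jump hq hD hB1 (hU B hB1) hB' (a := a + 1) (b := r) (by omega) (by omega)
    rw [hcast] at e1
    obtain ⟨k1, k2⟩ := key B hB x' y' hB'
    rw [e1]
    constructor
    · intro h3
      have := k1 h3
      split_ifs <;> omega
    · intro h3
      have := k2 h3
      split_ifs <;> omega
  rcases hm with hm | hm
  · have h3 := sum_nonneg fun B hB => (hval B hB).1 hm
    rw [hs] at h3
    have hyx : y < x := by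
      rcases hci with ⟨-, h4⟩ | ⟨h4, -⟩
      · exact h4
      · omega
    have hay : a = y := by rw [ha, hlx, min_eq_right hyx.le]
    have h4 : Even ((q ((a : ZMod N) + 1)).1 + (q ((a : ZMod N) + 1)).2) := by
      rw [hpar, hay]
      exact hyo
    rw [if_pos h4, if_neg (hr.1 (by omega))] at h3
    omega
  · have h3 := sum_nonpos fun B hB => (hval B hB).2 hm
    rw [hs] at h3
    have hyx : x < y := by
      rcases hci with ⟨h4, -⟩ | ⟨-, h4⟩
      · omega
      · exact h4
    have hay : a = x := by rw [ha, hlx, min_eq_left hyx.le]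
    have h4 : ¬ Even ((q ((a : ZMod N) + 1)).1 + (q ((a : ZMod N) + 1)).2) := by
      rw [hpar, hay, not_not]
      exact hxe
    have h5 : Even ((q (r : ZMod N)).1 + (q (r : ZMod N)).2) := by
      by_contra h5
      have := hr.2 h5
      omega
    rw [if_neg h4, if_pos h5] at h3
    omega

/-! ### the product of the weights around the two charges -/

/-- The strand `A` has exactly one side in `[r, z)`. -/
def One (q : ZMod N → ℤ × ℤ) (r z : ℕ) (A : Finset Ed) : Prop :=
  (lo q A < r ∧ r ≤ hi q A ∧ hi q A < z) ∨ (r ≤ lo q A ∧ lo q A < z ∧ z ≤ hi q A)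

/-- The jump of a strand is `1`, `-1` or `0`. -/
theorem jump_val (hA : A ∈ pcs ω D) (hl : ¬ IsLp D A) {u : ℤ × ℤ → ℤ} (hu : PotD D A u)
    (hrz : r ≤ z) (hz : z ≤ N) :
    (¬ One q r z A → u (q (z : ZMod N)) - u (q (r : ZMod N)) = 0) ∧
    |u (q (z : ZMod N)) - u (q (r : ZMod N))| ≤ 1 ∧
    (r ≤ lo q A → lo q A < z → z ≤ hi q A → (hi q A < k ∨ k ≤ lo q A) →
      u (q (z : ZMod N)) - u (q (r : ZMod N)) =
        (if z ≤ k then 1 else -1) * (open Classical in if IsCl D q k A then 1 else -1)) := by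
  classical
  obtain ⟨x, y, h⟩ := exists_xy hq hD hA hl
  have e1 := jump hq hD hA hu h hrz hz
  have e2 := cl_iff (k := k) hq hD hA hl h
  have e3 := lo_xy hq hD hA h
  have e4 := hi_xy hq hD hA h
  have hne := h.ne
  unfold One
  rw [e1]
  refine ⟨fun h1 => ?_, ?_, fun h1 h2 h3 h4 => ?_⟩
  · split_ifs <;> omega
  · rw [abs_le]
    split_ifs <;> omega
  · by_cases hc : IsCl D q k A
    · rw [if_pos hc]
      have h5 := e2.1 hc
      split_ifs <;> omega
    · rw [if_neg hc]
      have h5 : ¬ ((hi q A < k ∧ y < x) ∨ (k ≤ lo q A ∧ x < y)) := fun h => hc (e2.2 h)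
      split_ifs <;> omega

end

theorem zpow_sum' {a : ℝ} (ha : a ≠ 0) {ι : Type*} (S : Finset ι) (f : ι → ℤ) :
    ∏ i ∈ S, a ^ f i = a ^ ∑ i ∈ S, f i := by
  classical
  induction S using Finset.induction_on with
  | empty => simp
  | insert i S hi ih => rw [prod_insert hi, sum_insert hi, ih, zpow_add₀ ha]

/-- The charges `θ` at `r` and `-θ` at `z` on one of the two arcs, at sites of the good parities. -/
structure Pair (q : ZMod N → ℤ × ℤ) (k r z : ℕ) : Prop where
  lt : r < z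
  le : z ≤ N
  arc : r < k ↔ z ≤ k
  pr : r < k ↔ ¬ Even ((q (r : ZMod N)).1 + (q (r : ZMod N)).2)
  pz : r < k ↔ Even ((q (z : ZMod N)).1 + (q (z : ZMod N)).2)

/-- The phases `ρ` are those of the pair, for the strands `In`; these strands do not end on both
arcs. -/
structure PhIn (θ : ℝ) (ω : Cfg) (D : Finset (ℤ × ℤ)) (q : ZMod N → ℤ × ℤ) (k r z : ℕ) (ρ : ℕ → ℝ)
    (In : Finset Ed → Prop) : Prop where
  ph : ∀ A ∈ pcs ω D, ¬ IsLp D A → In A → ρ (hi q A) - ρ (lo q A) =
    θ * ((if r ≤ hi q A ∧ hi q A < z then 1 else 0) - if r ≤ lo q A ∧ lo q A < z then 1 else 0)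
  arc : ∀ A ∈ pcs ω D, ¬ IsLp D A → In A → hi q A < k ∨ k ≤ lo q A

/-- An open strand over `r` which is not over `z` has the weight `0`. -/
theorem wP_open {θ β : ℝ} {ρ : ℕ → ℝ} {In : Finset Ed → Prop} (H : PhIn θ ω D q k r z ρ In)
    (hA : A ∈ pcs ω D) (hl : ¬ IsLp D A) (hI : In A) (hc : ¬ IsCl D q k A) (h1 : lo q A < r)
    (h2 : r ≤ hi q A) (h3 : hi q A < z) : wP θ β q D k ρ A = 0 := by
  have h4 := H.ph A hA hl hI
  have h5 := H.arc A hA hl hI
  rw [if_pos ⟨h2, h3⟩, if_neg (by omega), sub_zero, mul_one] at h4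
  unfold wP wB
  rw [if_neg hl, if_neg (by omega), if_neg hc, h4, sub_self, Real.sin_zero, zero_div]

section

variable (hq : IsPolygon q) (hD : Encloses q D)

include hq hD

/-- The weight of a strand which is over both or none of the charges. -/
theorem wP_both {θ β : ℝ} (hs : Real.sin θ ≠ 0) (hc : Real.cos θ ≠ 0)
    (hβ : Real.cos (θ / 2 + β) = Real.sin θ) {ρ : ℕ → ℝ} {In : Finset Ed → Prop}
    (H : PhIn θ ω D q k r z ρ In) (hA : A ∈ pcs ω D) (hl : ¬ IsLp D A) (hI : In A)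
    (h : ¬ One q r z A) : wP θ β q D k ρ A = 1 := by
  have h4 := H.ph A hA hl hI
  have h5 := lo_lt_hi hq hD hA hl
  unfold One at h
  refine QL.wP_one hs hc hβ ?_
  have h6 : ((if r ≤ hi q A ∧ hi q A < z then 1 else 0 : ℝ)) =
      if r ≤ lo q A ∧ lo q A < z then 1 else 0 := by
    by_cases h7 : r ≤ hi q A ∧ hi q A < z
    · rw [if_pos h7, if_pos (by omega)]
    · rw [if_neg h7, if_neg (by omega)]
  rw [h6, sub_self, mul_zero] at h4
  linarith

/-- The weight of a strand over `z` which is not over `r`. -/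
theorem wP_z {θ β : ℝ} (hs : Real.sin θ ≠ 0) (hc : Real.cos θ ≠ 0) {ρ : ℕ → ℝ}
    {In : Finset Ed → Prop} (H : PhIn θ ω D q k r z ρ In) (HP : Pair q k r z) (hA : A ∈ pcs ω D)
    (hl : ¬ IsLp D A) (hI : In A) (h1 : r ≤ lo q A) (h2 : lo q A < z) (h3 : z ≤ hi q A)
    {u : ℤ × ℤ → ℤ} (hu : PotD D A u) : wP θ β q D k ρ A =
      (2 * Real.cos θ) ^ (-((if z ≤ k then 1 else -1) *
        (u (q (z : ZMod N)) - u (q (r : ZMod N))))) := by
  have h4 := H.ph A hA hl hI
  have h5 := H.arc A hA hl hI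
  rw [if_neg (by omega), if_pos ⟨h1, h2⟩, zero_sub, mul_neg, mul_one] at h4
  rw [(jump_val hq hD hA hl hu HP.lt.le HP.le).2.2 h1 h2 h3 h5]
  unfold wP wB
  rw [if_neg hl, if_neg (by omega), h4]
  have e1 : 2 * θ + -θ = θ := by ring
  have e2 : θ - -θ = 2 * θ := by ring
  rw [e1, e2, Real.sin_two_mul]
  split_ifs
  · norm_num
    field_simp
  · norm_num
    field_simp
  · norm_num
    field_simp
  · norm_num
    field_simp

open Classical in
/-- **The product of the weights around the two charges.** -/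
theorem prod_pair {θ β : ℝ} (hs : Real.sin θ ≠ 0) (hc : Real.cos θ ≠ 0)
    (hβ : Real.cos (θ / 2 + β) = Real.sin θ) {ρ : ℕ → ℝ}
    {In : Finset Ed → Prop} (H : PhIn θ ω D q k r z ρ In) (HP : Pair q k r z)
    (hno : ∀ A ∈ pcs ω D, ¬ IsLp D A → In A → ¬ (lo q A < r ∧ r ≤ hi q A ∧ hi q A < z)) :
    ∃ s : ℤ, |s| ≤ (((pcs ω D).filter fun A => ¬ IsLp D A ∧ ¬ In A ∧ One q r z A).card : ℤ) ∧
      ∏ A ∈ (pcs ω D).filter In, wP θ β q D k ρ A = (2 * Real.cos θ) ^ (s - 1) := by
  obtain ⟨U, hU⟩ : ∃ U : Finset Ed → ℤ × ℤ → ℤ, ∀ B ∈ pcs ω D, PotD D B (U B) := by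
    refine ⟨fun B => if hB : B ∈ pcs ω D then (exists_pot hq hD hB).choose else 0, fun B hB => ?_⟩
    simp only [dif_pos hB]
    exact (exists_pot hq hD hB).choose_spec
  obtain ⟨ε, hε⟩ : ∃ ε : ℤ, ε = if z ≤ k then 1 else -1 := ⟨_, rfl⟩
  obtain ⟨d, hd⟩ : ∃ d : Finset Ed → ℤ, d = fun A =>
      ε * (U A (q (z : ZMod N)) - U A (q (r : ZMod N))) := ⟨_, rfl⟩
  have hε1 : |ε| = 1 := by rw [hε]; split_ifs <;> norm_num
  -- the total
  have htot : ∑ A ∈ (pcs ω D).filter (fun A => ¬ IsLp D A), d A = 1 := by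
    rw [hd, ← mul_sum, sum_jump hq hD hU r z]
    have h1 := HP.arc
    have h2 := HP.pr
    have h3 := HP.pz
    rw [hε]
    by_cases h4 : r < k
    · rw [if_pos (h1.1 h4), if_pos (h3.1 h4), if_neg (h2.1 h4)]
      norm_num
    · rw [if_neg (fun h => h4 (h1.2 h)), if_neg (fun h => h4 (h3.2 h)),
        if_pos (by by_contra h; exact h4 (h2.2 h))]
      norm_num
  obtain ⟨s, hs'⟩ : ∃ s, s = ∑ A ∈ (pcs ω D).filter (fun A => ¬ IsLp D A ∧ ¬ In A), d A :=
    ⟨_, rfl⟩
  have hsplit : ∑ A ∈ (pcs ω D).filter (fun A => ¬ IsLp D A ∧ In A), d A = 1 - s := by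
    have h1 := sum_filter_add_sum_filter_not ((pcs ω D).filter fun A => ¬ IsLp D A) In d
    rw [filter_filter, filter_filter, htot, ← hs'] at h1
    linarith
  have hval := fun (A : Finset Ed) (hA : A ∈ pcs ω D) (hl : ¬ IsLp D A) =>
    jump_val (k := k) hq hD hA hl (hU A hA) HP.lt.le HP.le
  refine ⟨s, ?_, ?_⟩
  · rw [hs']
    refine (abs_sum_le_sum_abs _ _).trans ?_
    have h1 : ∑ A ∈ (pcs ω D).filter (fun A => ¬ IsLp D A ∧ ¬ In A), |d A| ≤
        ∑ A ∈ (pcs ω D).filter (fun A => ¬ IsLp D A ∧ ¬ In A), if One q r z A then 1 else 0 := by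
      refine sum_le_sum fun A hA => ?_
      rw [mem_filter] at hA
      obtain ⟨h2, h3, -⟩ := hval A hA.1 hA.2.1
      rw [hd]
      simp only [abs_mul, hε1, one_mul]
      split_ifs with h4
      · exact h3
      · rw [h2 h4, abs_zero]
    refine h1.trans ?_
    rw [sum_ite, sum_const_zero, add_zero, sum_const, nsmul_eq_mul, mul_one, filter_filter]
    refine le_of_eq ?_
    congr 1
    congr 1
    ext A
    simp only [mem_filter, and_assoc]
  · have hc2 : (2 * Real.cos θ) ≠ 0 := mul_ne_zero two_ne_zero hc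
    have e2 : (pcs ω D).filter (fun A => ¬ IsLp D A ∧ In A) ⊆ (pcs ω D).filter In := by
      intro A hA
      rw [mem_filter] at *
      exact ⟨hA.1, hA.2.2⟩
    rw [← prod_subset e2 fun A hA hn => ?_, prod_congr rfl (g := fun A =>
      (2 * Real.cos θ) ^ (-d A)) fun A hA => ?_, zpow_sum' hc2, sum_neg_distrib, hsplit, neg_sub]
    · rw [mem_filter] at hA
      obtain ⟨hA1, hl, hI⟩ := hA
      rw [hd]
      by_cases h1 : One q r z A
      · rcases h1 with h1 | ⟨h1, h2, h3⟩
        · exact absurd h1 (hno A hA1 hl hI)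
        · rw [wP_z hq hD hs hc H HP hA1 hl hI h1 h2 h3 (hU A hA1), hε]
      · simp only [(hval A hA1 hl).1 h1, mul_zero, neg_zero, zpow_zero]
        refine wP_both hq hD hs hc hβ H hA1 hl hI h1
    · rw [mem_filter] at hA hn
      have hl : IsLp D A := by
        by_contra hl
        exact hn ⟨hA.1, hl, hA.2⟩
      exact QL.wP_lp hq hD hA.1 hl hc

end

end Vale.Agent.P167.N.H955
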