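import Vale.Agent.P167.N.H955.Clo
import Vale.Agent.P167.N.Base.ArmMDef
import Vale.Agent.P167.H365.Q.Defs
import Vale.Agent.P167.H975.LkB
import Vale.Agent.P167.H167.Q.Arm

/-!
# P167, `0 < q < 1`: functionals modified near some boundary points, pointwise facts

`w`: weights of the pieces, `v`: modified weights; they agree for the pieces which avoid the boxes of
radius `b0` around the points `z i`, and `w = 1` for the pieces in the boxes of radius `b1`.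
If no piece crosses the annuli `(b0, b1)`, the modified functional is the product of the local factors
times the functional (`xw_mod`, `gt_mod`). If no piece crosses the annuli `(b2, b3)`, then the
functional does not read the boxes of radius `b2` (`xw_off`, `gt_off`).
-/

set_option autoImplicit false

namespace Vale.Agent.P167.N.H955

open Finset Vale.Agent.P167 Vale.Agent.P167.BR Vale.Agent.P167.FK Vale.Agent.P167.FKA
open Vale.Agent.P145.FB (PStep)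
open Vale.Agent.P167.H365.NQ (XW TW XTW)
open Vale.Agent.P167.H632 (cs pr)
open Vale.Agent.P167.H635 (Ann mem_Ann)
open Vale.Agent.P167.N (ArmE armE_sub armE_mono armE_congr)
open Vale.Agent.P167.H975 (TX TX_loc mem_pcs_agree)

variable {D : Finset (ℤ × ℤ)} {ω ω' : Cfg} {A : Finset Ed} {x : ℤ × ℤ} {r R b0 b1 b2 b3 : ℤ}

/-- The arm event: every piece which crosses the annulus `(r, R)` is in it. -/
def Arm (D : Finset (ℤ × ℤ)) (x : ℤ × ℤ) (r R : ℤ) : Set Cfg :=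
  ArmE true x (r + 1) (R - 1) (D ∩ Ann x (r + 1) (R - 1))

theorem mem_BqX {v : ℤ × ℤ} : v ∈ Bq x R ↔ x.1 - R ≤ v.1 ∧ v.1 < x.1 + R ∧ x.2 - R ≤ v.2 ∧
    v.2 < x.2 + R := H635.mem_Bq

theorem nm_of_bq {v : ℤ × ℤ} (h : v ∈ Bq x R) : nm (v - x) ≤ R := by
  rw [mem_BqX] at h
  rw [H365.nm_le']
  simp only [Prod.fst_sub, Prod.snd_sub]
  omega

theorem bq_of_nm {v : ℤ × ℤ} (h : nm (v - x) < R) : v ∈ Bq x R := by
  have h1 : nm (v - x) ≤ R - 1 := by omega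
  rw [H365.nm_le'] at h1
  simp only [Prod.fst_sub, Prod.snd_sub] at h1
  rw [mem_BqX]
  omega

/-- **A piece which crosses the annulus.** -/
theorem arm_of_piece (hA : A ∈ pcs ω D) (hrR : r + 2 ≤ R) {a b : Ed} (ha : a ∈ A) (hb : b ∈ A)
    (h1 : nm (hdv a - x) ≤ r) (h2 : R ≤ nm (hdv b - x)) : ω ∈ Arm D x r R := by
  obtain ⟨s, t, h3, h4, h5, h6⟩ := (H167.Q.arm_of_pc hA (by omega : r < R) ha hb h1 h2).1
  have h7 : ω ∈ ArmE true x (r + 1) (R - 1) D := by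
    refine ⟨s, t, ?_, h4, h5, Relation.ReflTransGen.mono (fun a b k => ?_) s t h6⟩
    · rw [Int.even_iff] at h3
      simpa [pr] using h3
    · obtain ⟨k1, k2, k3⟩ := k
      refine ⟨k1, k2, ?_, ?_⟩
      · exact k3.2
      · have := k3.1
        exact Finset.mem_coe.2 (H167.Q.mem_oD.1 this).1
  exact armE_sub le_rfl (by omega) le_rfl h7

/-- Without arm, the pieces which visit the small box are in the large box. -/
theorem in_of_not (hA : A ∈ pcs ω D) (hrR : r + 2 ≤ R) (h : ω ∉ Arm D x r R) {a : Ed} (ha : a ∈ A)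
    (h1 : nm (hdv a - x) ≤ r) : ∀ e ∈ A, hdv e ∈ Bq x R := by
  intro e he
  refine bq_of_nm ?_
  by_contra hcon
  push Not at hcon
  exact h (arm_of_piece hA hrR ha he h1 hcon)

theorem arm_congr (h : ∀ v ∈ D \ Bq x r, ω v = ω' v) (hr : ω ∈ Arm D x r R) :
    ω' ∈ Arm D x r R := by
  refine armE_congr (fun v hv => ?_) hr
  rw [mem_inter, mem_Ann] at hv
  refine h v (mem_sdiff.2 ⟨hv.1, fun h' => hv.2.2 ?_⟩)
  rw [mem_BqX] at h' ⊢
  omega

/-- The functional with coefficients of the terms. -/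
noncomputable def GT (D : Finset (ℤ × ℤ)) (w w' g : Finset Ed → ℝ) (ω : Cfg) : ℝ :=
  ∑ A ∈ pcs ω D, g A * TW D w w' ω A

section mod

variable {ι : Type*} [DecidableEq ι] {I : Finset ι} {z : ι → ℤ × ℤ} {w w' v v' g : Finset Ed → ℝ}

/-- The local factor, on the event that no piece crosses the annulus. -/
noncomputable def Tl (v : Finset Ed → ℝ) (D : Finset (ℤ × ℤ)) (x : ℤ × ℤ) (b0 b1 : ℤ) (ω : Cfg) :
    ℝ := (Arm D x b0 b1)ᶜ.indicator 1 ω * TX v D x b1 ω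

open Classical in
theorem prod_split (S : Finset (Finset Ed))
    (h1 : ∀ A ∈ S, (∀ i ∈ I, ¬ ∀ e ∈ A, hdv e ∈ Bq (z i) b1) → v A = w A)
    (h2 : ∀ A ∈ S, ∀ i ∈ I, (∀ e ∈ A, hdv e ∈ Bq (z i) b1) → w A = 1)
    (h3 : ∀ A ∈ S, ∀ i ∈ I, ∀ j ∈ I, i ≠ j → (∀ e ∈ A, hdv e ∈ Bq (z i) b1) →
      ¬ ∀ e ∈ A, hdv e ∈ Bq (z j) b1) :
    ∏ A ∈ S, v A = (∏ i ∈ I, ∏ A ∈ S.filter (fun A => ∀ e ∈ A, hdv e ∈ Bq (z i) b1), v A) *
      ∏ A ∈ S, w A := by
  have hsub : (I.biUnion fun i => S.filter fun A => ∀ e ∈ A, hdv e ∈ Bq (z i) b1) ⊆ S := by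
    intro A hA
    rw [mem_biUnion] at hA
    obtain ⟨i, -, hA⟩ := hA
    exact (mem_filter.1 hA).1
  rw [← prod_biUnion]
  · have e1 : ∀ u : Finset Ed → ℝ, ∏ A ∈ S, u A =
        (∏ A ∈ S \ (I.biUnion fun i => S.filter fun A => ∀ e ∈ A, hdv e ∈ Bq (z i) b1), u A) *
        ∏ A ∈ I.biUnion (fun i => S.filter fun A => ∀ e ∈ A, hdv e ∈ Bq (z i) b1), u A :=
      fun u => (prod_sdiff hsub).symm
    have e2 : ∏ A ∈ I.biUnion (fun i => S.filter fun A => ∀ e ∈ A, hdv e ∈ Bq (z i) b1), w A = 1 := by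
      refine prod_eq_one fun A hA => ?_
      rw [mem_biUnion] at hA
      obtain ⟨i, hi, hA⟩ := hA
      rw [mem_filter] at hA
      exact h2 A hA.1 i hi hA.2
    have e3 : ∏ A ∈ S \ (I.biUnion fun i => S.filter fun A => ∀ e ∈ A, hdv e ∈ Bq (z i) b1), v A =
        ∏ A ∈ S \ (I.biUnion fun i => S.filter fun A => ∀ e ∈ A, hdv e ∈ Bq (z i) b1), w A := by
      refine prod_congr rfl fun A hA => ?_
      rw [mem_sdiff, mem_biUnion] at hA
      exact h1 A hA.1 fun i hi h => hA.2 ⟨i, hi, mem_filter.2 ⟨hA.1, h⟩⟩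
    rw [e1 v, e1 w, e2, e3]
    ring
  · intro i hi j hj hij
    rw [Function.onFun, Finset.disjoint_left]
    intro A hA hA'
    rw [mem_filter] at hA hA'
    exact h3 A hA.1 i hi j hj hij hA.2 hA'.2

/-- The hypotheses on the weights. -/
structure ModW (D : Finset (ℤ × ℤ)) (I : Finset ι) (z : ι → ℤ × ℤ) (w w' v v' : Finset Ed → ℝ)
    (b0 b3 : ℤ) : Prop where
  eq : ∀ (ω : Cfg), ∀ A ∈ pcs ω D, (∀ i ∈ I, ∀ e ∈ A, b0 < nm (hdv e - z i)) →
    v A = w A ∧ v' A = w' A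
  one : ∀ (ω : Cfg), ∀ A ∈ pcs ω D, ∀ i ∈ I, (∀ e ∈ A, hdv e ∈ Bq (z i) b3) → w A = 1
  far : ∀ i ∈ I, ∀ j ∈ I, i ≠ j → ∀ u ∈ Bq (z i) b3, u ∉ Bq (z j) b3

theorem Bq_mono' (h : r ≤ R) {u : ℤ × ℤ} (hu : u ∈ Bq x r) : u ∈ Bq x R := by
  rw [mem_BqX] at *
  omega

theorem ModW.h3 (h : ModW D I z w w' v v' b0 b3) (hA : A ∈ pcs ω D) (hb : b1 ≤ b3) : ∀ i ∈ I,
    ∀ j ∈ I, i ≠ j → (∀ e ∈ A, hdv e ∈ Bq (z i) b1) → ¬ ∀ e ∈ A, hdv e ∈ Bq (z j) b1 := by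
  intro i hi j hj hij h1 h2
  obtain ⟨e, he⟩ := pcs_nonempty hA
  exact h.far i hi j hj hij _ (Bq_mono' hb (h1 e he)) (Bq_mono' hb (h2 e he))

/-- Off the arms, the pieces which are not in the boxes of radius `b1` have the old weights. -/
theorem ModW.eq' (h : ModW D I z w w' v v' b0 b3) (hb : b0 + 2 ≤ b1)
    (hω : ∀ i ∈ I, ω ∉ Arm D (z i) b0 b1) (hA : A ∈ pcs ω D)
    (hA' : ∀ i ∈ I, ¬ ∀ e ∈ A, hdv e ∈ Bq (z i) b1) : v A = w A ∧ v' A = w' A := by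
  refine h.eq ω A hA fun i hi e he => ?_
  by_contra hcon
  push Not at hcon
  exact hA' i hi (in_of_not hA hb (hω i hi) he hcon)

theorem Tl_eq (hω : ω ∉ Arm D x b0 b1) : Tl v D x b0 b1 ω = TX v D x b1 ω := by
  unfold Tl
  rw [Set.indicator_of_mem (show ω ∈ (Arm D x b0 b1)ᶜ from hω), Pi.one_apply, one_mul]

theorem prod_Tl (hω : ∀ i ∈ I, ω ∉ Arm D (z i) b0 b1) :
    ∏ i ∈ I, Tl v D (z i) b0 b1 ω = ∏ i ∈ I, TX v D (z i) b1 ω :=
  prod_congr rfl fun i hi => Tl_eq (hω i hi)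

/-- **The product, off the arms.** -/
theorem xw_mod (h : ModW D I z w w' v v' b0 b3) (hb : b0 + 2 ≤ b1) (hb3 : b1 ≤ b3)
    (hω : ∀ i ∈ I, ω ∉ Arm D (z i) b0 b1) :
    XW D v ω = (∏ i ∈ I, Tl v D (z i) b0 b1 ω) * XW D w ω := by
  classical
  rw [prod_Tl hω]
  unfold XW TX
  have h4 := prod_split (I := I) (z := z) (b1 := b1) (v := v) (w := w) (pcs ω D)
    (fun A hA hA' => (h.eq' hb hω hA hA').1)
    (fun A hA i hi hA' => h.one ω A hA i hi fun e he => Bq_mono' hb3 (hA' e he))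
    (fun A hA => h.h3 hA hb3)
  rw [h4]

/-- **The terms, off the arms.** -/
theorem gt_mod (h : ModW D I z w w' v v' b0 b3) (hb : b0 + 2 ≤ b1) (hb3 : b1 ≤ b3)
    (hg : ∀ A ∈ pcs ω D, g A ≠ 0 → ∀ i ∈ I, ¬ ∀ e ∈ A, hdv e ∈ Bq (z i) b1)
    (hω : ∀ i ∈ I, ω ∉ Arm D (z i) b0 b1) :
    GT D v v' g ω = (∏ i ∈ I, Tl v D (z i) b0 b1 ω) * GT D w w' g ω := by
  classical
  rw [prod_Tl hω]
  unfold GT
  rw [mul_sum]
  refine sum_congr rfl fun A hA => ?_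
  by_cases hgA : g A = 0
  · rw [hgA]; ring
  have hA' := hg A hA hgA
  have h4 := prod_split (I := I) (z := z) (b1 := b1) (v := v) (w := w) ((pcs ω D).erase A)
    (fun B hB hB' => (h.eq' hb hω (mem_of_mem_erase hB) hB').1)
    (fun B hB i hi hB' => h.one ω B (mem_of_mem_erase hB) i hi fun e he => Bq_mono' hb3 (hB' e he))
    (fun B hB => h.h3 (mem_of_mem_erase hB) hb3)
  have h5 : ∀ i ∈ I, ((pcs ω D).erase A).filter (fun A => ∀ e ∈ A, hdv e ∈ Bq (z i) b1) =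
      (pcs ω D).filter fun A => ∀ e ∈ A, hdv e ∈ Bq (z i) b1 := by
    intro i hi
    ext B
    rw [mem_filter, mem_filter, mem_erase]
    constructor
    · rintro ⟨⟨-, h6⟩, h7⟩
      exact ⟨h6, h7⟩
    · rintro ⟨h6, h7⟩
      exact ⟨⟨fun h8 => hA' i hi (h8 ▸ h7), h6⟩, h7⟩
  have h6 : ∏ i ∈ I, ∏ B ∈ ((pcs ω D).erase A).filter (fun A => ∀ e ∈ A, hdv e ∈ Bq (z i) b1), v B =
      ∏ i ∈ I, TX v D (z i) b1 ω := by
    refine prod_congr rfl fun i hi => ?_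
    rw [h5 i hi]
    rfl
  unfold TW
  rw [h4, h6, (h.eq' hb hω hA hA').2]
  ring

/-- Locality of the local factor. -/
theorem Tl_loc (v : Finset Ed → ℝ) (D : Finset (ℤ × ℤ)) (x : ℤ × ℤ) (hb : b0 ≤ b1) :
    Loc (Bq x b1 ∩ D) (Tl v D x b0 b1) := by
  intro ω ω' h
  have key : ∀ ω ω' : Cfg, (∀ u, u ∈ Bq x b1 ∩ D → ω u = ω' u) → ω ∈ Arm D x b0 b1 →
      ω' ∈ Arm D x b0 b1 := by
    intro ω ω' h h1
    refine armE_congr (fun u hu => h u ?_) h1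
    rw [mem_inter, mem_Ann] at hu
    refine mem_inter.2 ⟨?_, hu.1⟩
    have := hu.2.1
    rw [mem_BqX] at this ⊢
    omega
  have e1 : TX v D x b1 ω = TX v D x b1 ω' := TX_loc v D x b1 ω ω' h
  unfold Tl
  rw [e1]
  congr 1
  by_cases h1 : ω ∈ Arm D x b0 b1
  · rw [Set.indicator_of_notMem (show ω ∉ (Arm D x b0 b1)ᶜ from fun h2 => h2 h1),
      Set.indicator_of_notMem (show ω' ∉ (Arm D x b0 b1)ᶜ from fun h2 => h2 (key ω ω' h h1))]
  · rw [Set.indicator_of_mem (show ω ∈ (Arm D x b0 b1)ᶜ from h1),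
      Set.indicator_of_mem (show ω' ∈ (Arm D x b0 b1)ᶜ from fun h2 =>
        h1 (key ω' ω (fun u hu => (h u hu).symm) h2))]
    rfl


open Classical in
/-- The pieces which avoid the boxes. -/
noncomputable def avo (D : Finset (ℤ × ℤ)) (I : Finset ι) (z : ι → ℤ × ℤ) (r : ℤ) (ω : Cfg) :
    Finset (Finset Ed) := (pcs ω D).filter fun A => ∀ e ∈ A, hdv e ∉ I.biUnion fun i => Bq (z i) r

theorem avo_congr (h : ∀ u ∈ D \ I.biUnion (fun i => Bq (z i) r), ω u = ω' u) :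
    avo D I z r ω = avo D I z r ω' := by
  classical
  have key : ∀ ω ω' : Cfg, (∀ u ∈ D \ I.biUnion (fun i => Bq (z i) r), ω u = ω' u) →
      avo D I z r ω ⊆ avo D I z r ω' := by
    intro ω ω' h A hA
    unfold avo at hA ⊢
    rw [mem_filter] at hA ⊢
    refine ⟨mem_pcs_agree hA.1 (fun _ _ => Iff.rfl) (fun _ _ => Iff.rfl) fun e he hd => ?_, hA.2⟩
    exact h _ (mem_sdiff.2 ⟨hd, hA.2 e he⟩)
  exact Finset.Subset.antisymm (key ω ω' h) (key ω' ω fun u hu => (h u hu).symm)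

theorem ModW.not_avo (h : ModW D I z w w' v v' b0 b3) (hb : b2 + 2 ≤ b3)
    (hω : ∀ i ∈ I, ω ∉ Arm D (z i) b2 b3) (hA : A ∈ pcs ω D) (hA' : A ∉ avo D I z b2 ω) :
    w A = 1 ∧ ∃ i ∈ I, ∀ e ∈ A, hdv e ∈ Bq (z i) b3 := by
  classical
  unfold avo at hA'
  rw [mem_filter] at hA'
  push Not at hA'
  obtain ⟨e, he, h1⟩ := hA' hA
  rw [mem_biUnion] at h1
  obtain ⟨i, hi, h1⟩ := h1
  have h2 := in_of_not hA hb (hω i hi) he (nm_of_bq h1)
  exact ⟨h.one ω A hA i hi h2, i, hi, h2⟩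

theorem avo_sub : avo D I z r ω ⊆ pcs ω D := by
  classical
  exact filter_subset _ _

theorem arms_congr (hb : ∀ u ∈ D \ I.biUnion (fun i => Bq (z i) b2), ω u = ω' u)
    (h : ∀ i ∈ I, ω ∉ Arm D (z i) b2 b3)
    (hfar : ∀ i ∈ I, ∀ j ∈ I, i ≠ j → ∀ u ∈ Bq (z i) b3, u ∉ Bq (z j) b3) (h23 : b2 ≤ b3) :
    ∀ i ∈ I, ω' ∉ Arm D (z i) b2 b3 := by
  intro i hi h1
  refine h i hi (armE_congr (fun u hu => ?_) h1)
  rw [mem_inter, mem_Ann] at hu
  refine (hb u (mem_sdiff.2 ⟨hu.1, fun h' => ?_⟩)).symm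
  rw [mem_biUnion] at h'
  obtain ⟨j, hj, h'⟩ := h'
  by_cases hij : i = j
  · subst hij
    refine hu.2.2 ?_
    rw [mem_BqX] at h' ⊢
    omega
  · refine hfar i hi j hj hij u ?_ (Bq_mono' h23 h')
    have := hu.2.1
    rw [mem_BqX] at this ⊢
    omega

/-- A function of the pieces which avoid the boxes, on the event without arms. -/
theorem off_loc (hfar : ∀ i ∈ I, ∀ j ∈ I, i ≠ j → ∀ u ∈ Bq (z i) b3, u ∉ Bq (z j) b3)
    (h23 : b2 ≤ b3) (Φ : Finset (Finset Ed) → ℝ) {X : Cfg → ℝ}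
    (hX : ∀ ω, (∀ i ∈ I, ω ∉ Arm D (z i) b2 b3) → X ω = Φ (avo D I z b2 ω)) :
    Loc (D \ I.biUnion fun i => Bq (z i) b2)
      (fun ω => X ω * {ω | ∀ i ∈ I, ω ∉ Arm D (z i) b2 b3}.indicator 1 ω) := by
  intro ω ω' h
  by_cases h1 : ∀ i ∈ I, ω ∉ Arm D (z i) b2 b3
  · have h2 := arms_congr h h1 hfar h23
    show X ω * _ = X ω' * _
    rw [Set.indicator_of_mem (show ω ∈ {ω | ∀ i ∈ I, ω ∉ Arm D (z i) b2 b3} from h1),
      Set.indicator_of_mem (show ω' ∈ {ω | ∀ i ∈ I, ω ∉ Arm D (z i) b2 b3} from h2), hX ω h1,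
      hX ω' h2, avo_congr h]
    rfl
  · have h2 : ¬ ∀ i ∈ I, ω' ∉ Arm D (z i) b2 b3 := fun h2 =>
      h1 (arms_congr (fun u hu => (h u hu).symm) h2 hfar h23)
    show X ω * _ = X ω' * _
    rw [Set.indicator_of_notMem (show ω ∉ {ω | ∀ i ∈ I, ω ∉ Arm D (z i) b2 b3} from h1),
      Set.indicator_of_notMem (show ω' ∉ {ω | ∀ i ∈ I, ω ∉ Arm D (z i) b2 b3} from h2)]
    ring

/-- The product over the pieces which avoid the boxes. -/
theorem ModW.prod_avo (h : ModW D I z w w' v v' b0 b3) (hb : b2 + 2 ≤ b3)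
    (hω : ∀ i ∈ I, ω ∉ Arm D (z i) b2 b3) : XW D w ω = ∏ A ∈ avo D I z b2 ω, w A := by
  unfold XW
  rw [← prod_sdiff (avo_sub (D := D) (I := I) (z := z) (r := b2) (ω := ω))]
  rw [prod_eq_one fun A hA => ?_, one_mul]
  rw [mem_sdiff] at hA
  exact (h.not_avo hb hω hA.1 hA.2).1

/-- **The product does not read the boxes.** -/
theorem xw_off (h : ModW D I z w w' v v' b0 b3) (hb : b2 + 2 ≤ b3) :
    Loc (D \ I.biUnion fun i => Bq (z i) b2)
      (fun ω => XW D w ω * {ω | ∀ i ∈ I, ω ∉ Arm D (z i) b2 b3}.indicator 1 ω) :=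
  off_loc h.far (by omega) (fun S => ∏ A ∈ S, w A) fun _ hω => h.prod_avo hb hω

/-- **The terms do not read the boxes.** -/
theorem gt_off (h : ModW D I z w w' v v' b0 b3) (hb : b2 + 2 ≤ b3)
    (hg : ∀ (ω : Cfg), ∀ A ∈ pcs ω D, g A ≠ 0 → ∀ i ∈ I, ¬ ∀ e ∈ A, hdv e ∈ Bq (z i) b3) :
    Loc (D \ I.biUnion fun i => Bq (z i) b2)
      (fun ω => GT D w w' g ω * {ω | ∀ i ∈ I, ω ∉ Arm D (z i) b2 b3}.indicator 1 ω) := by
  classical
  refine off_loc h.far (by omega) (fun S => ∑ A ∈ S, g A * (w' A * ∏ B ∈ S.erase A, w B))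
    fun ω hω => ?_
  unfold GT TW
  rw [← sum_sdiff (avo_sub (D := D) (I := I) (z := z) (r := b2) (ω := ω))]
  rw [sum_eq_zero fun A hA => ?_, zero_add]
  · refine sum_congr rfl fun A hA => ?_
    have hsub : (avo D I z b2 ω).erase A ⊆ (pcs ω D).erase A := erase_subset_erase _ avo_sub
    have e1 : ∏ B ∈ (pcs ω D).erase A, w B = ∏ B ∈ (avo D I z b2 ω).erase A, w B := by
      rw [← prod_sdiff hsub, prod_eq_one fun B hB => ?_, one_mul]
      rw [mem_sdiff, mem_erase, mem_erase] at hB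
      obtain ⟨⟨h1, h2⟩, h3⟩ := hB
      exact (h.not_avo hb hω h2 fun h4 => h3 ⟨h1, h4⟩).1
    rw [e1]
  · rw [mem_sdiff] at hA
    obtain ⟨-, i, hi, h1⟩ := h.not_avo hb hω hA.1 hA.2
    have : g A = 0 := by
      by_contra hcon
      exact hg ω A hA.1 hcon i hi h1
    rw [this, zero_mul]

end mod

end Vale.Agent.P167.N.H955
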