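import Vale.Agent.P167.N.H365.Q.Nredc
import Vale.Agent.P167.H760.Q.Two

/-!
# P167, `0 < q < 1`: transfer of the Neumann condition between two functionals of one domain

`w` is a functional which is natural near the side, `v` a modification of `w` which has a parity image,
and the means of `w` and of `v` are close (masses, and contributions of the large pieces to the stagger).
Then the flux of `w` is small. The majorants of the images are given at a smaller radius `R'`.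
-/

set_option autoImplicit false

namespace Vale.Agent.P167.N.H955

open Finset Vale.Agent.P167 Vale.Agent.P167.BR Vale.Agent.P167.FK Vale.Agent.P167.FKA
open Vale.Agent.P167.H365.NQ (EnvQ XW TW XTW SW NREDQ OF sx)
open Vale.Agent.P167.H365 (cells_mem cells_card)
open Vale.Agent.P167.H318 (CoConn)
open Vale.Agent.P167.H760.Q (TwoW two_le)
open Vale.Agent.P167.N.H365.NQ (NREDC StagQ)
open Vale.Agent.P167.H166 (bxx mem_bxx)

variable {Q : ℝ} {t : Fin 3 → ℝ} {K R R' m : ℤ} {D : Finset (ℤ × ℤ)} {η : Cfg} {p : ℤ × ℤ}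
  {w w' v v' r r' : Finset Ed → ℝ} {M M' ε ε' : ℝ} {k : ℕ} {a b : ℤ} {φ : ℤ → ℝ}

theorem envQ_mono {u : ℤ × ℤ} (h : EnvQ Q t K R D η p w w' M u) (hM : M ≤ M') :
    EnvQ Q t K R D η p w w' M' u := by
  obtain ⟨h1, h2, h3, h4, h5, h6, h7, h8, h9, Y, h10, h11, h12, h13⟩ := h
  exact ⟨h1, h2, h3, h4, h5, h6, h7, h8, h9, Y, h10, h11, h12, h13.trans hM⟩

/-- The local hypotheses at a smaller radius. -/
theorem envQ_R {u : ℤ × ℤ} (h : EnvQ Q t K R D η p w w' M u) (h1 : 1 ≤ R') (hR : R' ≤ R) :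
    EnvQ Q t K R' D η p w w' M u := by
  have hK := h.one_le
  have hKR : 8 * K * R' ≤ 8 * K * R := mul_le_mul_of_nonneg_left hR (by omega)
  have hsub : bxx u R' ⊆ bxx u R := fun v hv => by
    rw [mem_bxx] at hv ⊢
    omega
  obtain ⟨Y, y1, y2, y3, y4⟩ := h.Y
  refine ⟨hK, h1, h.good, ⟨fun v hv => h.fl.dom v (hv.trans hKR), fun v hv hv2 =>
    h.fl.out v (hv.trans hKR) hv2⟩, fun y s hs1 hs2 => h.gf y s hs1 (by omega),
    lt_of_le_of_lt hKR h.hp, h.pot, fun ω A hA hf => h.near ω A hA fun hf' => hf ?_,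
    fun y a m hy hy2 ha hm => h.cro y a m (by omega) hy2 ha (by omega),
    ⟨Y, y1.mono hsub, y2, fun ω A hA hv => y3 ω A hA ?_, y4⟩⟩
  · obtain ⟨e, he, h3⟩ := hf'
    exact ⟨e, he, h3.imp (fun h4 => ⟨h4.1, by omega⟩) fun h4 => ⟨h4.1, by omega⟩⟩
  · obtain ⟨e, he, h3, h4⟩ := hv
    exact ⟨e, he, h3, by omega⟩

/-- The flux of a functional at height `k`. -/
noncomputable def flW (Q : ℝ) (D : Finset (ℤ × ℤ)) (η : Cfg) (p : ℤ × ℤ) (w w' : Finset Ed → ℝ)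
    (k : ℕ) (x : ℤ) : ℝ :=
  Ex Q D η (XTW D p w w' (x, k)) - Ex Q D η (XTW D p w w' (x, 0))

/-- Two functionals of one domain are close. -/
structure CloQ (Q : ℝ) (D : Finset (ℤ × ℤ)) (η : Cfg) (p : ℤ × ℤ) (w w' v v' : Finset Ed → ℝ)
    (m a b : ℤ) (ε : ℝ) : Prop where
  V : |Ex Q D η (XW D w) - Ex Q D η (XW D v)| ≤ ε
  S : ∀ (c : ℤ) (ψ : ℤ → ℝ), c ∈ Icc a b → (∀ x, |ψ x| ≤ 1) → (∀ x, ψ x ≠ 0 → |x - c| ≤ m / 4) →
      |∑ x ∈ Icc a b, ψ x * (Ex Q D η (OF D (c, 0) m w w' (sx D p x)) -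
        Ex Q D η (OF D (c, 0) m v v' (sx D p x)))| ≤ ε

/-- The functional `v` has a parity image. -/
structure ImgQ (Q : ℝ) (t : Fin 3 → ℝ) (K R : ℤ) (D : Finset (ℤ × ℤ)) (η : Cfg) (p : ℤ × ℤ)
    (v v' : Finset Ed → ℝ) (M : ℝ) (k : ℕ) (a b : ℤ) : Prop where
  ex : ∃ (D1 : Finset (ℤ × ℤ)) (η1 : Cfg) (p1 : ℤ × ℤ) (w1 w1' : Finset Ed → ℝ), CoConn D1 ∧
    (∀ x ∈ Icc (a + 1) (b + 1), EnvQ Q t K R D1 η1 p1 w1 w1' M (x, 0)) ∧
    (∀ x ∈ Icc a b, Ex Q D1 η1 (XTW D1 p1 w1 w1' (x + 1, k)) -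
      Ex Q D1 η1 (XTW D1 p1 w1 w1' (x + 1, 0)) = - flW Q D η p v v' k x) ∧
    Ex Q D1 η1 (XW D1 w1) = Ex Q D η (XW D v) ∧
    ∀ x ∈ Icc a b, Ex Q D1 η1 (SW D1 p1 w1 w1' (x + 1)) = Ex Q D η (SW D p v v' x)

/-- The input of `two_le`. -/
theorem ImgQ.twoW (h : ImgQ Q t K R D η p v v' M' k a b) (hco : CoConn D)
    (hE : ∀ x ∈ Icc a b, EnvQ Q t K R D η p v v' M (x, 0)) (hM : M ≤ M') :
    TwoW Q t K R M' 1 k (flW Q D η p v v' k) a b := by
  obtain ⟨D1, η1, p1, w1, w1', h1, h2, h3, h4, h5⟩ := h.ex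
  exact ⟨⟨D, η, p, v, v', D1, η1, p1, w1, w1', hco, h1, fun x hx => envQ_mono (hE x hx) hM, h2,
    fun x _ => rfl, fun x hx => by rw [h3 x hx, one_mul], by rw [h4, one_mul],
    fun x hx => by rw [h5 x hx, one_mul]⟩⟩

/-- The center of the block of `x`. -/
def cen (W x : ℤ) : ℤ := x / W * W

theorem cen_le {W x : ℤ} (hW : 1 ≤ W) : |x - cen W x| ≤ W := by
  have e1 : x / W * W ≤ x := Int.ediv_mul_le _ (by omega)
  have e2 : x < (x / W + 1) * W := Int.lt_ediv_add_one_mul_self _ (by omega)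
  have e3 : (x / W + 1) * W = x / W * W + W := by ring
  unfold cen
  rw [abs_le]
  constructor <;> omega

theorem cen_mem {W x : ℤ} (hW : 1 ≤ W) (hWR : W ≤ R) (h1 : a + R ≤ x) (h2 : x ≤ b - R) :
    cen W x ∈ Icc a b := by
  have := abs_le.1 (cen_le (x := x) hW)
  have e1 : x / W * W ≤ x := Int.ediv_mul_le _ (by omega)
  rw [mem_Icc]
  unfold cen at this ⊢
  omega

/-- Decomposition of a sum into blocks. -/
theorem block_sum {W : ℤ} (hW : 1 ≤ W) (hWR : W ≤ R)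
    (hφs : ∀ x, φ x ≠ 0 → a + R ≤ x ∧ x ≤ b - R) (g : ℤ → ℤ → ℝ) :
    ∑ x ∈ Icc a b, φ x * g (cen W x) x = ∑ j ∈ Icc (a / W + 1) (b / W), ∑ x ∈ Icc a b,
      (if x / W = j then φ x else 0) * g (j * W) x := by
  rw [Finset.sum_comm]
  refine Finset.sum_congr rfl fun x _ => ?_
  by_cases hx : φ x = 0
  · rw [hx, zero_mul]
    symm
    refine Finset.sum_eq_zero fun j _ => ?_
    simp
  · have hs := hφs x hx
    have h0 : a / W + 1 ≤ x / W := by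
      have e1 : (a / W) * W ≤ a := Int.ediv_mul_le _ (by omega)
      have : a / W < x / W := by
        rw [Int.lt_iff_add_one_le, Int.le_ediv_iff_mul_le (by omega)]
        nlinarith
      omega
    have h1 : x / W ≤ b / W := Int.ediv_le_ediv (by omega) (by omega)
    rw [Finset.sum_eq_single_of_mem (x / W) (mem_Icc.2 ⟨h0, h1⟩)]
    · rw [if_pos rfl]
      rfl
    · intro j _ hj
      rw [if_neg (Ne.symm hj), zero_mul]

theorem card_Icc_le (hab : a ≤ b) (hR : 1 ≤ R) :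
    ((Icc a b).card : ℝ) ≤ R * (((b - a : ℤ) : ℝ) / R + 1) := by
  have hR' : (1 : ℝ) ≤ R := by exact_mod_cast hR
  have h1 : ((Icc a b).card : ℤ) = b - a + 1 := by
    rw [Int.card_Icc, Int.toNat_of_nonneg (by omega)]
    ring
  have h2 : ((Icc a b).card : ℝ) = ((b - a : ℤ) : ℝ) + 1 := by
    have : (((Icc a b).card : ℤ) : ℝ) = ((b - a + 1 : ℤ) : ℝ) := by rw [h1]
    push_cast at this ⊢
    linarith
  have h3 : (R : ℝ) * (((b - a : ℤ) : ℝ) / R + 1) = ((b - a : ℤ) : ℝ) + R := by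
    field_simp
  rw [h2, h3]
  linarith

theorem card_blocks (hab : a ≤ b) (hR : 1 ≤ R) (hm : 32 ≤ m) (hmR : 4 * m ≤ R) :
    ((Icc (a / (m / 4) + 1) (b / (m / 4))).card : ℝ) ≤
      8 * ((R : ℝ) / m) * (((b - a : ℤ) : ℝ) / R + 1) := by
  have hR' : (1 : ℝ) ≤ R := by exact_mod_cast hR
  have hm' : (32 : ℝ) ≤ m := by exact_mod_cast hm
  have h1 := cells_card (w := m / 4) (by omega) hab
  obtain ⟨N, hN⟩ : ∃ N : ℝ, N = ((Icc (a / (m / 4) + 1) (b / (m / 4))).card : ℝ) := ⟨_, rfl⟩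
  rw [← hN] at h1 ⊢
  have hN0 : 0 ≤ N := by rw [hN]; positivity
  have h2 : (m : ℝ) ≤ 8 * ((m / 4 : ℤ) : ℝ) := by exact_mod_cast (by omega : m ≤ 8 * (m / 4))
  have h3 : ((m / 4 : ℤ) : ℝ) ≤ R := by exact_mod_cast (by omega : m / 4 ≤ R)
  have h4 : N * m ≤ 8 * (((b - a : ℤ) : ℝ) + R) := by nlinarith
  have h5 : 8 * ((R : ℝ) / m) * (((b - a : ℤ) : ℝ) / R + 1) =
      8 * (((b - a : ℤ) : ℝ) + R) / m := by
    field_simp
  rw [h5, le_div_iff₀ (by linarith)]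
  exact h4

theorem sum_le_card {I : Finset ℤ} {F : ℤ → ℝ} {B : ℝ} (hB : 0 ≤ B)
    (h : ∀ x ∈ I, φ x ≠ 0 → |F x| ≤ B) (hφ : ∀ x, |φ x| ≤ 1) :
    |∑ x ∈ I, φ x * F x| ≤ I.card * B := by
  refine (abs_sum_le_sum_abs _ _).trans ?_
  rw [← nsmul_eq_mul]
  refine sum_le_card_nsmul _ _ _ fun x hx => ?_
  rw [abs_mul]
  by_cases h0 : φ x = 0
  · rw [h0, abs_zero, zero_mul]
    exact hB
  · calc |φ x| * |F x| ≤ 1 * B := mul_le_mul (hφ x) (h x hx h0) (abs_nonneg _) zero_le_one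
      _ = B := one_mul _

/-- The numerical estimate. -/
theorem tr_num {C₀ Cs M M' ε ε' k L G ρ : ℝ} (hC₀ : 0 ≤ C₀) (hCs : 0 ≤ Cs) (hM : 0 ≤ M)
    (hM' : 0 ≤ M') (hε' : 0 ≤ ε') (hk : 0 ≤ k) (hL : 0 ≤ L) (hG0 : 0 ≤ G) (hG1 : G ≤ 1)
    (hρ : 1 ≤ ρ) (hε : 0 ≤ ε) :
    3 * (ε / 4 * k * ((M' + 1) * L)) + ε' * (2 * (ε / 4 * k * ((M' + 1) * L)) +
      C₀ * k * ((Cs * M * G + Cs * M * ρ) * L)) +
      C₀ * k * (8 * ρ * L * ε' + 2 * (Cs * M * G) * L) ≤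
    k * L * (ε * (M' + 1) * (1 + ε') + C₀ * (8 + 4 * Cs) * ((M + 1) * (ε' * ρ + G))) := by
  have hkL : 0 ≤ k * L := mul_nonneg hk hL
  have hρ0 : 0 ≤ ρ := by linarith
  have a1 : 3 * (ε / 4 * k * ((M' + 1) * L)) + ε' * (2 * (ε / 4 * k * ((M' + 1) * L))) ≤
      k * L * (ε * (M' + 1) * (1 + ε')) := by
    have h1 : 0 ≤ k * L * (ε * (M' + 1)) := by positivity
    have h2 : 0 ≤ k * L * (ε * (M' + 1)) * ε' := by positivity
    nlinarith
  have a2 : Cs * M * G + Cs * M * ρ ≤ 2 * Cs * M * ρ := by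
    have : Cs * M * G ≤ Cs * M * ρ := mul_le_mul_of_nonneg_left (hG1.trans hρ) (by positivity)
    linarith
  have a3 : ε' * (C₀ * k * ((Cs * M * G + Cs * M * ρ) * L)) ≤
      k * L * (C₀ * (2 * (Cs * (M * (ε' * ρ))))) := by
    have h1 : ε' * (C₀ * k * ((Cs * M * G + Cs * M * ρ) * L)) ≤
        ε' * (C₀ * k * ((2 * Cs * M * ρ) * L)) := by
      refine mul_le_mul_of_nonneg_left ?_ hε'
      refine mul_le_mul_of_nonneg_left ?_ (by positivity)
      exact mul_le_mul_of_nonneg_right a2 hL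
    refine h1.trans (le_of_eq ?_)
    ring
  obtain ⟨x, hx⟩ : ∃ x, x = ε' * ρ := ⟨_, rfl⟩
  have hx0 : 0 ≤ x := by rw [hx]; positivity
  have a4 : 2 * (Cs * (M * x)) + (8 * x + 2 * (Cs * (M * G))) ≤
      (8 + 4 * Cs) * ((M + 1) * (x + G)) := by
    have e : (8 + 4 * Cs) * ((M + 1) * (x + G)) = 8 * x + 8 * G + 8 * (M * x) + 8 * (M * G) +
      4 * (Cs * (M * x)) + 4 * (Cs * (M * G)) + 4 * (Cs * x) + 4 * (Cs * G) := by ring
    rw [e]
    have h1 : 0 ≤ M * x := by positivity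
    have h2 : 0 ≤ M * G := by positivity
    have h3 : 0 ≤ Cs * (M * x) := by positivity
    have h4 : 0 ≤ Cs * (M * G) := by positivity
    have h5 : 0 ≤ Cs * x := by positivity
    have h6 : 0 ≤ Cs * G := by positivity
    linarith
  calc _ = (3 * (ε / 4 * k * ((M' + 1) * L)) + ε' * (2 * (ε / 4 * k * ((M' + 1) * L)))) +
        ε' * (C₀ * k * ((Cs * M * G + Cs * M * ρ) * L)) +
        k * L * (C₀ * (8 * (ε' * ρ) + 2 * (Cs * (M * G)))) := by ring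
    _ ≤ k * L * (ε * (M' + 1) * (1 + ε')) + k * L * (C₀ * (2 * (Cs * (M * (ε' * ρ))))) +
        k * L * (C₀ * (8 * (ε' * ρ) + 2 * (Cs * (M * G)))) :=
        add_le_add (add_le_add a1 a3) le_rfl
    _ = k * L * (ε * (M' + 1) * (1 + ε') + C₀ * (2 * (Cs * (M * x)) +
        (8 * x + 2 * (Cs * (M * G))))) := by rw [hx]; ring
    _ ≤ k * L * (ε * (M' + 1) * (1 + ε') + C₀ * ((8 + 4 * Cs) * ((M + 1) * (x + G)))) := by
        refine mul_le_mul_of_nonneg_left (add_le_add le_rfl ?_) hkL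
        exact mul_le_mul_of_nonneg_left a4 hC₀
    _ = _ := by rw [hx]; ring

/-- **The transfer inequality.** The majorants of the images are given at the radius `R' ≤ R`. -/
theorem tr_le (hQ : 0 < Q) (hN : NREDC Q t K) (hS : StagQ Q t K) : ∃ (C γ : ℝ), 0 ≤ C ∧ 0 < γ ∧
    ∀ ε : ℝ, 0 < ε → ∃ κ : ℝ, ∃ k0 : ℕ, 0 < κ ∧ ∀ (R R' m : ℤ) (k : ℕ), k0 ≤ k →
    (k : ℝ) ≤ κ * R' → 1 ≤ R' → R' ≤ R →
    32 ≤ m → 4 * m ≤ R → ∀ (D : Finset (ℤ × ℤ)) (η : Cfg) (p : ℤ × ℤ)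
      (w w' v v' r r' : Finset Ed → ℝ) (M M' ε' : ℝ) (a b : ℤ) (φ : ℤ → ℝ), CoConn D → a ≤ b →
    (∀ x ∈ Icc a b, EnvQ Q t K R D η p w w' M (x, 0)) →
    (∀ x ∈ Icc a b, EnvQ Q t K R D η p v v' M (x, 0)) →
    (∀ x ∈ Icc a b, EnvQ Q t K R D η p r r' M (x, 0)) →
    ImgQ Q t K R' D η p v v' M' k a b → ImgQ Q t K R' D η p r r' M' k a b → M ≤ M' →
    CloQ Q D η p w w' v v' m a b ε' → Ex Q D η (XW D r) = 1 →
    (∀ x, |φ x| ≤ 1) → (∀ x x' : ℤ, |φ x - φ x'| ≤ |(x : ℝ) - x'| / R) →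
    (∀ x, φ x ≠ 0 → a + R ≤ x ∧ x ≤ b - R) →
    |∑ x ∈ Icc a b, φ x * flW Q D η p w w' k x| ≤ k * (((b - a : ℤ) : ℝ) / R + 1) *
      (ε * ((M' + 1) * (R / R')) * (1 + ε') +
        C * ((M + 1) * (ε' * (R / m) + ((m : ℝ) / R) ^ γ))) := by
  classical
  obtain ⟨C₀, hC₀, hN'⟩ := id hN
  obtain ⟨Cs, γ, s, hCs, hγ, hS⟩ := hS
  refine ⟨C₀ * (8 + 4 * Cs), γ, by positivity, hγ, fun ε hε => ?_⟩
  obtain ⟨κ1, k1, hκ1, H1⟩ := hN' (ε / 4) (by positivity)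
  obtain ⟨κ2, k2, hκ2, H2⟩ := two_le hQ hN.nred 1 zero_le_one (ε / 4) (by positivity)
  refine ⟨min κ1 κ2, max k1 k2, by positivity, ?_⟩
  intro R R₁ m k hk hkR hR₁ hR₁R hm hmR D η p w w' v v' r r' M M' ε' a b φ hco hab hw hv hr hiv hir
    hMM hclo hVr hφ1 hφ2 hφ3
  have hEw := hw a (mem_Icc.2 ⟨le_rfl, hab⟩)
  have hR1 := hEw.R1
  have hR' : (1 : ℝ) ≤ R := by exact_mod_cast hR1
  have hm' : (32 : ℝ) ≤ m := by exact_mod_cast hm
  have hmRr : 4 * (m : ℝ) ≤ R := by exact_mod_cast hmR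
  have hM0 : 0 ≤ M := H365.NQ.EnvQ.M0 hQ hEw
  have hR₁' : (1 : ℝ) ≤ R₁ := by exact_mod_cast hR₁
  have hR₁R' : (R₁ : ℝ) ≤ R := by exact_mod_cast hR₁R
  have hkκ1 : (k : ℝ) ≤ κ1 * R := (hkR.trans (mul_le_mul_of_nonneg_right (min_le_left _ _)
    (by linarith))).trans (mul_le_mul_of_nonneg_left hR₁R' hκ1.le)
  have hkκ2 : (k : ℝ) ≤ κ2 * R₁ := hkR.trans (mul_le_mul_of_nonneg_right (min_le_right _ _)
    (by linarith))
  obtain ⟨n, nb, c, hc, hnb, H1⟩ := H1 R k ((le_max_left _ _).trans hk) hkκ1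
  have H2 := H2 R₁ k ((le_max_right _ _).trans hk) hkκ2
  have hk0 : (0 : ℝ) ≤ k := Nat.cast_nonneg _
  -- notation
  obtain ⟨L, hL⟩ : ∃ L : ℝ, L = ((b - a : ℤ) : ℝ) / R + 1 := ⟨_, rfl⟩
  have hL1 : 1 ≤ L := by
    have : (0 : ℝ) ≤ ((b - a : ℤ) : ℝ) := by exact_mod_cast (by omega : 0 ≤ b - a)
    rw [hL]
    have : (0 : ℝ) ≤ ((b - a : ℤ) : ℝ) / R := by positivity
    linarith
  have hcard : ((Icc a b).card : ℝ) ≤ R * L := by rw [hL]; exact card_Icc_le hab hR1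
  have hblocks : ((Icc (a / (m / 4) + 1) (b / (m / 4))).card : ℝ) ≤ 8 * ((R : ℝ) / m) * L := by
    rw [hL]; exact card_blocks hab hR1 hm hmR
  obtain ⟨G, hG⟩ : ∃ G : ℝ, G = ((m : ℝ) / R) ^ γ := ⟨_, rfl⟩
  have hG0 : 0 ≤ G := by rw [hG]; positivity
  have hG1 : G ≤ 1 := by
    rw [hG]
    refine Real.rpow_le_one (by positivity) ?_ hγ.le
    rw [div_le_one (by linarith)]
    linarith
  have hRm : 1 ≤ (R : ℝ) / m := by rw [le_div_iff₀ (by linarith)]; linarith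
  set sx' : ℤ → ℝ := fun x => s R m (cen (m / 4) x) x with hsx'
  set Vw := Ex Q D η (XW D w) with hVw
  set Vv := Ex Q D η (XW D v) with hVv
  have hε'0 : 0 ≤ ε' := (abs_nonneg _).trans hclo.V
  have hVd := hclo.V
  rw [← hVw, ← hVv] at hVd
  -- the three applications of the reduction
  have N1 := H1 D η p w w' M hco a b φ hab hw hφ1 hφ2 hφ3
  have N2 := H1 D η p v v' M hco a b φ hab hv hφ1 hφ2 hφ3
  have N3 := H1 D η p r r' M hco a b φ hab hr hφ1 hφ2 hφ3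
  have hφ2' : ∀ x x' : ℤ, |φ x - φ x'| ≤ |(x : ℝ) - x'| / R₁ := fun x x' =>
    (hφ2 x x').trans (div_le_div_of_nonneg_left (abs_nonneg _) (by linarith) hR₁R')
  have hφ3' : ∀ x, φ x ≠ 0 → a + R₁ ≤ x ∧ x ≤ b - R₁ := fun x hx => by
    have := hφ3 x hx
    omega
  have T2 := H2 M' 1 (flW Q D η p v v' k) a b one_pos (by rw [inv_one]) hab
    (hiv.twoW hco (fun x hx => envQ_R (hv x hx) hR₁ hR₁R) hMM) φ hφ1 hφ2' hφ3'
  have T3 := H2 M' 1 (flW Q D η p r r' k) a b one_pos (by rw [inv_one]) hab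
    (hir.twoW hco (fun x hx => envQ_R (hr x hx) hR₁ hR₁R) hMM) φ hφ1 hφ2' hφ3'
  rw [← hL] at N1 N2 N3 ⊢
  -- the factor of the radii
  obtain ⟨M₁, hM₁⟩ : ∃ M₁ : ℝ, M₁ + 1 = (M' + 1) * (R / R₁) := ⟨_, sub_add_cancel _ 1⟩
  have hRR : 1 ≤ (R : ℝ) / R₁ := by rw [le_div_iff₀ (by linarith)]; linarith
  have hM'0 : 0 ≤ M' := hM0.trans hMM
  have hMM₁ : M' ≤ M₁ := by nlinarith
  have hL₁ : (M' + 1) * (((b - a : ℤ) : ℝ) / R₁ + 1) ≤ (M₁ + 1) * L := by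
    have h1 : ((b - a : ℤ) : ℝ) / R₁ + 1 ≤ R / R₁ * L := by
      have h2 : (R : ℝ) / R₁ * L = ((b - a : ℤ) : ℝ) / R₁ + R / R₁ := by
        rw [hL]
        field_simp
      linarith
    rw [hM₁, mul_assoc]
    exact mul_le_mul_of_nonneg_left h1 (by linarith)
  have T2 := T2.trans (mul_le_mul_of_nonneg_left hL₁ (by positivity))
  have T3 := T3.trans (mul_le_mul_of_nonneg_left hL₁ (by positivity))
  rw [← hM₁]
  -- the blocks
  have hcx : ∀ x, φ x ≠ 0 → cen (m / 4) x ∈ Icc a b := fun x hx => by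
    obtain ⟨h1, h2⟩ := hφ3 x hx
    exact cen_mem (by omega) (by omega) h1 h2
  have hcl : ∀ x, |x - cen (m / 4) x| ≤ m / 4 := fun x => cen_le (by omega)
  obtain ⟨E, hE⟩ : ∃ E : ℝ, E = Cs * M * (((1 : ℝ) / R) * G) := ⟨_, rfl⟩
  have hE0 : 0 ≤ E := by rw [hE]; positivity
  have hRE : R * E = Cs * M * G := by rw [hE]; field_simp
  have Sw : ∀ x, φ x ≠ 0 → |Ex Q D η (SW D p w w' x) -
      Ex Q D η (OF D (cen (m / 4) x, 0) m w w' (sx D p x)) - sx' x * Vw| ≤ E := fun x hx => by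
    rw [hE, hG]
    exact (hS R D η p w w' M _ (hw _ (hcx x hx)) m x hm hmR (hcl x)).1
  have Sv : ∀ x, φ x ≠ 0 → |Ex Q D η (SW D p v v' x) -
      Ex Q D η (OF D (cen (m / 4) x, 0) m v v' (sx D p x)) - sx' x * Vv| ≤ E := fun x hx => by
    rw [hE, hG]
    exact (hS R D η p v v' M _ (hv _ (hcx x hx)) m x hm hmR (hcl x)).1
  have Sr : ∀ x, φ x ≠ 0 → |Ex Q D η (SW D p r r' x) - sx' x| ≤
      E + Cs * M * (1 / (m : ℝ)) := fun x hx => by
    have h := hS R D η p r r' M _ (hr _ (hcx x hx)) m x hm hmR (hcl x)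
    rw [hVr, mul_one, ← hG, ← hE] at h
    have h3 := abs_add_le (Ex Q D η (SW D p r r' x) -
      Ex Q D η (OF D (cen (m / 4) x, 0) m r r' (sx D p x)) - s R m (cen (m / 4) x) x)
      (Ex Q D η (OF D (cen (m / 4) x, 0) m r r' (sx D p x)))
    have e : Ex Q D η (SW D p r r' x) -
      Ex Q D η (OF D (cen (m / 4) x, 0) m r r' (sx D p x)) - s R m (cen (m / 4) x) x +
      Ex Q D η (OF D (cen (m / 4) x, 0) m r r' (sx D p x)) =
      Ex Q D η (SW D p r r' x) - sx' x := by simp only [hsx']; ring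
    rw [e] at h3
    linarith [h.1, h.2]
  -- the differences of the staggers
  have D1 : |∑ x ∈ Icc a b, φ x * (Ex Q D η (OF D (cen (m / 4) x, 0) m w w' (sx D p x)) -
      Ex Q D η (OF D (cen (m / 4) x, 0) m v v' (sx D p x)))| ≤ 8 * ((R : ℝ) / m) * L * ε' := by
    rw [block_sum (R := R) (W := m / 4) (by omega) (by omega) hφ3 fun c x =>
      Ex Q D η (OF D (c, 0) m w w' (sx D p x)) - Ex Q D η (OF D (c, 0) m v v' (sx D p x))]
    refine (abs_sum_le_sum_abs _ _).trans ?_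
    refine le_trans (sum_le_card_nsmul _ _ ε' fun j hj => ?_) ?_
    · refine hclo.S (j * (m / 4)) (fun x => if x / (m / 4) = j then φ x else 0)
        (cells_mem (by omega) hj) (fun x => ?_) fun x hx => ?_
      · split_ifs
        · exact hφ1 x
        · rw [abs_zero]; exact zero_le_one
      · have hj' : x / (m / 4) = j := by
          by_contra hcon
          exact hx (if_neg hcon)
        rw [← hj']
        exact hcl x
    · rw [nsmul_eq_mul]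
      exact mul_le_mul_of_nonneg_right hblocks hε'0
  have D2 : |∑ x ∈ Icc a b, φ x * (Ex Q D η (SW D p w w' x) - Ex Q D η (SW D p v v' x) -
      sx' x * (Vw - Vv))| ≤ 8 * ((R : ℝ) / m) * L * ε' + 2 * (Cs * M * G) * L := by
    have e : ∑ x ∈ Icc a b, φ x * (Ex Q D η (SW D p w w' x) - Ex Q D η (SW D p v v' x) -
      sx' x * (Vw - Vv)) =
      ∑ x ∈ Icc a b, φ x * (Ex Q D η (OF D (cen (m / 4) x, 0) m w w' (sx D p x)) -
        Ex Q D η (OF D (cen (m / 4) x, 0) m v v' (sx D p x))) +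
      ∑ x ∈ Icc a b, φ x * ((Ex Q D η (SW D p w w' x) -
        Ex Q D η (OF D (cen (m / 4) x, 0) m w w' (sx D p x)) - sx' x * Vw) -
        (Ex Q D η (SW D p v v' x) -
        Ex Q D η (OF D (cen (m / 4) x, 0) m v v' (sx D p x)) - sx' x * Vv)) := by
      rw [← sum_add_distrib]
      exact sum_congr rfl fun x _ => by ring
    rw [e]
    refine (abs_add_le _ _).trans (add_le_add D1 ?_)
    refine (sum_le_card (B := 2 * E) (by linarith) (fun x _ hx => ?_) hφ1).trans ?_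
    · refine (abs_sub _ _).trans ?_
      linarith [Sw x hx, Sv x hx]
    · calc ((Icc a b).card : ℝ) * (2 * E) ≤ (R * L) * (2 * E) :=
            mul_le_mul_of_nonneg_right hcard (by linarith)
        _ = 2 * (R * E) * L := by ring
        _ = _ := by rw [hRE]
  -- the reference
  have D3 : |∑ x ∈ Icc a b, φ x * (Ex Q D η (SW D p r r' x) - sx' x)| ≤
      (Cs * M * G + Cs * M * (R / m)) * L := by
    refine (sum_le_card (B := E + Cs * M * (1 / (m : ℝ))) (by positivity)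
      (fun x _ hx => Sr x hx) hφ1).trans ?_
    calc ((Icc a b).card : ℝ) * (E + Cs * M * (1 / (m : ℝ)))
        ≤ (R * L) * (E + Cs * M * (1 / (m : ℝ))) :=
          mul_le_mul_of_nonneg_right hcard (by positivity)
      _ = (R * E + Cs * M * (R / m)) * L := by ring
      _ = _ := by rw [hRE]
  have hVrr : Ex Q D η (XW D r) = 1 := hVr
  have e3 : ∑ x ∈ Icc a b, φ x * (n x + c * sx' x) =
      - ∑ x ∈ Icc a b, φ x * (Ex Q D η (XTW D p r r' (x, k)) - Ex Q D η (XTW D p r r' (x, 0)) -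
        n x * Ex Q D η (XW D r) - c * Ex Q D η (SW D p r r' x)) +
      ∑ x ∈ Icc a b, φ x * flW Q D η p r r' k x -
      c * ∑ x ∈ Icc a b, φ x * (Ex Q D η (SW D p r r' x) - sx' x) := by
    rw [hVrr, mul_sum, ← sum_neg_distrib, ← sum_add_distrib, ← sum_sub_distrib]
    refine sum_congr rfl fun x _ => ?_
    unfold flW
    ring
  have hBM : ε / 4 * k * ((M + 1) * L) ≤ ε / 4 * k * ((M₁ + 1) * L) := by
    refine mul_le_mul_of_nonneg_left ?_ (by positivity)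
    exact mul_le_mul_of_nonneg_right (by linarith) (by linarith)
  obtain ⟨X, hX⟩ : ∃ X : ℝ, X = ε / 4 * k * ((M₁ + 1) * L) := ⟨_, rfl⟩
  rw [← hX] at T2 T3 hBM
  have D4 : |∑ x ∈ Icc a b, φ x * (n x + c * sx' x)| ≤ 2 * X +
      C₀ * k * ((Cs * M * G + Cs * M * (R / m)) * L) := by
    rw [e3]
    refine (abs_sub _ _).trans ?_
    refine add_le_add ((abs_add_le _ _).trans ?_) ?_
    · rw [abs_neg]
      linarith [N3.trans hBM, T3]
    · rw [abs_mul]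
      exact mul_le_mul hc D3 (abs_nonneg _) (by positivity)
  -- the final decomposition
  have key : ∑ x ∈ Icc a b, φ x * flW Q D η p w w' k x =
      ∑ x ∈ Icc a b, φ x * (Ex Q D η (XTW D p w w' (x, k)) - Ex Q D η (XTW D p w w' (x, 0)) -
        n x * Vw - c * Ex Q D η (SW D p w w' x)) -
      ∑ x ∈ Icc a b, φ x * (Ex Q D η (XTW D p v v' (x, k)) - Ex Q D η (XTW D p v v' (x, 0)) -
        n x * Vv - c * Ex Q D η (SW D p v v' x)) +
      ∑ x ∈ Icc a b, φ x * flW Q D η p v v' k x +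
      (Vw - Vv) * ∑ x ∈ Icc a b, φ x * (n x + c * sx' x) +
      c * ∑ x ∈ Icc a b, φ x * (Ex Q D η (SW D p w w' x) - Ex Q D η (SW D p v v' x) -
      sx' x * (Vw - Vv)) := by
    rw [mul_sum, mul_sum, ← sum_sub_distrib, ← sum_add_distrib, ← sum_add_distrib,
      ← sum_add_distrib]
    refine sum_congr rfl fun x _ => ?_
    unfold flW
    ring
  have b1 := N1.trans hBM
  have b2 := N2.trans hBM
  have b4 : |(Vw - Vv) * ∑ x ∈ Icc a b, φ x * (n x + c * sx' x)| ≤ ε' * (2 * X +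
      C₀ * k * ((Cs * M * G + Cs * M * (R / m)) * L)) := by
    rw [abs_mul]
    exact mul_le_mul hVd D4 (abs_nonneg _) hε'0
  have b5 : |c * ∑ x ∈ Icc a b, φ x * (Ex Q D η (SW D p w w' x) - Ex Q D η (SW D p v v' x) -
      sx' x * (Vw - Vv))| ≤ C₀ * k * (8 * ((R : ℝ) / m) * L * ε' + 2 * (Cs * M * G) * L) := by
    rw [abs_mul]
    exact mul_le_mul hc D2 (abs_nonneg _) (by positivity)
  have tot : |∑ x ∈ Icc a b, φ x * flW Q D η p w w' k x| ≤ X + X + X + ε' * (2 * X +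
      C₀ * k * ((Cs * M * G + Cs * M * (R / m)) * L)) +
      C₀ * k * (8 * ((R : ℝ) / m) * L * ε' + 2 * (Cs * M * G) * L) := by
    rw [key]
    refine (abs_add_le _ _).trans (add_le_add ((abs_add_le _ _).trans (add_le_add
      ((abs_add_le _ _).trans (add_le_add ((abs_sub _ _).trans (add_le_add b1 b2)) T2)) b4)) b5)
  refine tot.trans ?_
  rw [← hG]
  refine (tr_num hC₀ hCs hM0 (hM'0.trans hMM₁) hε'0 hk0 (by linarith) hG0 hG1 hRm
    hε.le).trans' (le_of_eq ?_)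
  rw [hX]
  ring

end Vale.Agent.P167.N.H955
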