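import Vale.Agent.P167.N.H955.Cor
import Vale.Agent.P167.N.H955.Pt
import Vale.Agent.P167.N.QL.MajC
import Vale.Agent.P167.N.QL.Pr3

/-!
# P167, `0 < q < 1`: uniform majorants of the functionals with pairs of charges at the corners

`v`: the natural weights with the interior charge `h` and the phases `phP`; the charges at a corner are
at distance `m`. Off the event `NS` at a corner the functional vanishes, on this event the local factor
is at most `(2 * cos θ)⁻¹`. The constants do not depend on `m`.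
-/

set_option autoImplicit false

namespace Vale.Agent.P167.N.H955

open Finset Filter Topology Relation Vale.Agent.P167 Vale.Agent.P167.BR Vale.Agent.P167.FK
open Vale.Agent.P167.E6 (IsPolygon Encloses)
open Vale.Agent.P167.H562.SML
open Vale.Agent.P167.H562.MAJ (Sm Sm_eq sum_G bigs near_site fsum_eq mem_fat_iff)
open Vale.Agent.P167.H562.QM (BumpsQ MajA YQ YQ_pos)
open Vale.Agent.P167.H542.Q (cB)
open Vale.Agent.P167.H365.NQ (XW TW)
open Vale.Agent.P167.H718 (Dob wn wn' wn_eq)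
open Vale.Agent.P167.H601.LG (nm_of_Bq nm_tri' nm_comm)
open Vale.Agent.P167.H760.Q (MajY)
open Vale.Agent.P167.H975 (TX)
open Vale.Agent.P167.H852.Q (ZG TIn mass_zero bump_one vz_self Sm_congr im_mom)
open Vale.Agent.P167.N.H852.Q (PtW abs_wn_le abs_wn'_le)
open Vale.Agent.P167.N.QL (wP cP rI rI_or phP GeoP Wn NS NZ GdR PhZ TX_nz NZ_sub_NS wn_cP wn_cP_lp)
open Vale.Agent.P167.QX (lo hi)

variable {Z D : Finset (ℤ × ℤ)} {h : ℤ × ℤ → ℝ} {κ κ0 Mf R1 θ β M : ℝ} {n N k m L : ℕ}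
  {kz r R g : ℤ} {q : ZMod N → ℤ × ℤ} {I : Finset ℕ} {ω : Cfg} {A : Finset Ed}

/-- The pieces in the boxes around the corners. -/
def InC (q : ZMod N → ℤ × ℤ) (I : Finset ℕ) (r : ℤ) (A : Finset Ed) : Prop :=
  ∃ c ∈ I, ∀ e ∈ A, hdv e ∈ Bq (q (c : ZMod N)) r

/-- The indicator of the events at the corners. -/
noncomputable def KI (q : ZMod N → ℤ × ℤ) (D : Finset (ℤ × ℤ)) (k : ℕ) (I : Finset ℕ) (m : ℕ)
    (ω : Cfg) : ℝ := ∏ c ∈ I, (NS q D c (rI q k c) m).indicator 1 ω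

theorem KI_nonneg : 0 ≤ KI q D k I m ω :=
  prod_nonneg fun _ _ => Set.indicator_nonneg (fun _ _ => zero_le_one) _

/-- **The windows at the corners.** -/
structure CrW (q : ZMod N → ℤ × ℤ) (k : ℕ) (I : Finset ℕ) (R : ℤ) : Prop where
  win : ∀ c ∈ I, Wn q c R
  arc : ∀ c ∈ I, (c : ℤ) + R ≤ k ∨ (k : ℤ) ≤ c - R

/-- The good parity of the first charge. -/
theorem Cr.gdR (H : Cr n L g q D k I) {c : ℕ} (hc : c ∈ I) (hL : 2 < L) :
    GdR q k (rI q k c) := by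
  have hp := (H.pair (m := 1) hc (by decide) (by omega)).pr
  unfold GdR
  tauto

/-- The phases in the window. -/
theorem Cr.phZ (H : Cr n L g q D k I) {c : ℕ} (hc : c ∈ I) (hm : 0 < m) (hR : R + m + 1 < L)
    (hmR : (m : ℤ) + 1 ≤ R) :
    PhZ θ c (rI q k c) (rI q k c + m) R (phP θ q k I m) := by
  have hr := rI_or q k c
  obtain ⟨w, hw⟩ : ∃ w : ℕ, (w : ℤ) = R := ⟨R.toNat, by omega⟩
  refine ⟨by omega, by omega, phP θ q k I m c -
    θ * (if rI q k c ≤ c ∧ c < rI q k c + m then 1 else 0), fun j h1 h2 => ?_⟩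
  have h3 := H.phase (θ := θ) (m := m) (w := w) (i := c) (j := j) hc (by omega) (by omega) (by omega)
    (by omega) (by omega)
  have e : (if rI q k c ≤ j ∧ j < rI q k c + m then θ else 0) =
      θ * (if rI q k c ≤ j ∧ j < rI q k c + m then 1 else 0) := by
    split_ifs <;> ring
  rw [e]
  linarith

section

variable (H : Cr n L g q D k I) (HW : CrW q k I R)

include H HW

/-- **The local factor at a corner.** -/
theorem tx_le (h1 : Ang θ) (hβ : Real.cos (θ / 2 + β) = Real.sin θ) {c : ℕ} (hc : c ∈ I)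
    (hm : 0 < m) (hR : R + m + 1 < L) (hmr : (m : ℤ) ≤ r) (hmR : (m : ℤ) + 1 ≤ R)
    (hrR : r + 1 ≤ R) :
    |TX (wP θ β q D k (phP θ q k I m)) D (q (c : ZMod N)) r ω| ≤
      (2 * Real.cos θ)⁻¹ * (NS q D c (rI q k c) m).indicator 1 ω := by
  have hQ := h1.kit.pos
  have hQ1 : 2 * Real.cos θ < 1 := h1.kit.lt
  have hr := rI_or q k c
  have h3 := TX_nz H.poly H.enc h1.sin_pos.ne' h1.cos_pos.ne' hβ (HW.win c hc) (r := r) (by omega)
    hrR (H.phZ (θ := θ) hc hm hR hmR) (H.gdR hc (by omega)) (by omega) (HW.arc c hc) (ω := ω)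
  by_cases hω : ω ∈ NZ q D c (rI q k c) (rI q k c + m) r
  · obtain ⟨e, he, h4⟩ := h3.2 hω
    have h5 : ω ∈ NS q D c (rI q k c) m := NZ_sub_NS H.poly H.enc (HW.win c hc) (by omega)
      (by push_cast; omega) hmr hω
    rw [h4, Set.indicator_of_mem h5, Pi.one_apply, mul_one, abs_of_pos (zpow_pos hQ _),
      ← zpow_neg_one]
    exact zpow_le_zpow_right_of_le_one₀ hQ hQ1.le (by have := abs_le.1 he; omega)
  · rw [h3.1 hω, abs_zero]
    exact mul_nonneg (inv_nonneg.2 hQ.le) (Set.indicator_nonneg (fun _ _ => zero_le_one) _)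

end

/-- A piece in a box has no interior mass. -/
theorem mass_inC (HZ : ZG D h κ κ0 Mf R1 n Z kz) (hq : IsPolygon q) (hD : Encloses q D)
    (hrk : (r : ℝ) + 1 + 1 ≤ kz) (hI : InC q I r A) : mass D (q 0) h A = 0 := by
  refine mass_zero HZ.sub HZ.econ HZ.supp HZ.tot ?_
  rintro ⟨e, he, hZ⟩
  obtain ⟨j, -, hj⟩ := hI
  have h1 := hj e he
  rcases mem_eds.1 hZ with h2 | h2
  · have h3 := HZ.far_q hq hD hrk (m := 1) h2 h1
    rw [sub_self] at h3
    have : (nm (0 : ℤ × ℤ) : ℝ) = 0 := by simp [nm]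
    linarith
  · have h3 := HZ.far_q hq hD hrk (m := 1) h2 h1
    have h4 := H945.nm_step e
    have h5 : (nm (hdv e - tlv e) : ℝ) ≤ 1 := by exact_mod_cast h4
    linarith

/-- A small strand with a weight different from one is in a box. -/
theorem Cr.inC (H : Cr n L g q D k I) (hs : Real.sin θ ≠ 0) (hc : Real.cos θ ≠ 0)
    (hβ : Real.cos (θ / 2 + β) = Real.sin θ) (hA : A ∈ pcs ω D) (hl : ¬ IsLp D A)
    (hw : wP θ β q D k (phP θ q k I m) A ≠ 1) {d : ℝ} (hsm : Small d A)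
    (hr : (m : ℝ) + 2 + d < r) : InC q I r A := by
  have h1 : phP θ q k I m (hi q A) ≠ phP θ q k I m (lo q A) := fun h => hw (QL.wP_one hs hc hβ h)
  obtain ⟨c, hcI, h2⟩ := H.of_ne hA hl h1
  obtain ⟨e, he, h3⟩ := H.one_vis hA hl h2
  refine ⟨c, hcI, fun e' he' => bq_of_nm ?_⟩
  have h4 := hsm _ (mem_image_of_mem _ he') _ (mem_image_of_mem _ he)
  have h5 := nm_tri' (hdv e') (hdv e) (q (c : ZMod N))
  have h6 : (nm (hdv e' - q (c : ZMod N)) : ℝ) ≤ nm (hdv e' - hdv e) + nm (hdv e - q (c : ZMod N)) := by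
    exact_mod_cast h5
  have h7 : (nm (hdv e - q (c : ZMod N)) : ℝ) ≤ m + 2 := by exact_mod_cast h3
  have h8 : (nm (hdv e' - q (c : ZMod N)) : ℝ) < r := by linarith
  exact_mod_cast h8

/-- **The pointwise bounds.** -/
theorem ptwC (HZ : ZG D h κ κ0 Mf R1 n Z kz) (h1 : Ang θ)
    (hβ : Real.cos (θ / 2 + β) = Real.sin θ) (hMf : 0 ≤ Mf) (H : Cr n L g q D k I)
    (hdw : Mf / (n : ℝ) ^ 2 * (κ * n) ^ 2 ≤ dw θ) (hM : (cB θ)⁻¹ ≤ M)
    (hmr : (m : ℝ) + 2 + κ * n < r) (hrk : (r : ℝ) + (κ * n + 1) + 1 ≤ kz) :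
    PtW D (q 0) Z D h (κ * n) θ M (wn θ β q D k (cP q (phP θ q k I m) h))
      (wn' θ β q D k (cP q (phP θ q k I m) h)) (InC q I r) := by
  have h0 := h1.pos
  have h1_lt := h1.lt
  have hq := H.poly
  have hD := H.enc
  have hs : 0 < Real.sin θ := h1.sin_pos
  have hc : 0 < Real.cos θ := h1.cos_pos
  have hn1 := HZ.n1
  have hκn := HZ.κn
  have hκn2 := HZ.κ0n
  have hk2 := HZ.k2
  have hbas := H542.Q.bas_poly hq hD
  have hB : BumpsQ ({()} : Finset Unit) D (q 0) (fun _ => Z) (fun _ => D)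
      (fun _ => h) (fun _ => κ * n) (fun _ => True) :=
    bump_one HZ.sub HZ.sub HZ.econ HZ.econD hbas.mem (fun ω A hA hl => XDL.W_base hq hD hA hl)
      HZ.supp (fun v hv w hw => HZ.near v hv w (by linarith)) (by positivity) HZ.bd HZ.sml HZ.tot
  have hM2 : (Real.cos θ)⁻¹ ≤ M :=
    (inv_anti₀ (Vale.Agent.P167.N.H542.Q.cB_pos h0 h1) (min_le_left _ _)).trans hM
  refine ⟨hB, h0, h1, hM2, fun ω ℓ h1 h2 => (H542.G_bound' (by positivity) HZ.bd h1 h2).trans hdw,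
    fun ω A hA hl => wn_cP_lp hq hD h0 h1_lt hβ hA hl,
    fun ω A hA => (abs_wn_le h0 h1 hβ hq hD hA).trans hM,
    fun ω A hA => (abs_wn'_le h0 h1 hβ hq hD hA).trans hM, fun ω A hA hl hs hGA hI => ?_,
    fun ω A hA hI hl hV => ?_⟩
  · obtain ⟨v, hv, hw⟩ := hB.near (mem_singleton_self ()) (BR.IsLp.isLoop hA hl) hs hGA
    obtain ⟨j, -, hj⟩ := hI
    obtain ⟨e, he⟩ := pcs_nonempty hA
    have h2 := HZ.far_q hq hD hrk hv (hj e he)
    have h3 := hw _ (mem_image_of_mem _ he)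
    linarith
  · have hsm : Small (κ * n) A := by
      by_contra hc
      exact hV ⟨vz_self hA, hc⟩
    have hV' : ¬ Vz Z A := fun h' => hB.strand (mem_singleton_self ()) hA hl h' hsm
    rw [wn_cP hq hD h0 h1_lt hβ hA (mass_zero HZ.sub HZ.econ HZ.supp HZ.tot hV')]
    by_contra hcon
    have hne : wP θ β q D k (phP θ q k I m) A ≠ 1 := fun h' => hcon (by rw [h', abs_one])
    exact hI (H.inC hs.ne' hc.ne' hβ hA hl hne hsm hmr)

/-- The boxes are disjoint. -/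
theorem inC_disj (H : Cr n L g q D k I) (hrn : 6 * r < n) (hrL : 4 * r ≤ L)
    {i j : ℕ} (hi : i ∈ I) (hj : j ∈ I) (hij : i ≠ j) (hA : A ∈ pcs ω D)
    (h2 : ∀ e ∈ A, hdv e ∈ Bq (q (i : ZMod N)) r) :
    ¬ ∀ e ∈ A, hdv e ∈ Bq (q (j : ZMod N)) r := by
  have key : ∀ i j : ℕ, i < j → i ∈ I → j ∈ I →
      (∀ e ∈ A, hdv e ∈ Bq (q (i : ZMod N)) r) →
      ¬ ∀ e ∈ A, hdv e ∈ Bq (q (j : ZMod N)) r := by
    intro i j hij hi hj h2 h3
    obtain ⟨e, he⟩ := pcs_nonempty hA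
    obtain ⟨r1, r2, r3⟩ := H.rng j hj
    obtain ⟨t1, t2, t3⟩ := H.rng i hi
    have h4 := nm_of_Bq (h2 e he)
    have h5 := nm_of_Bq (h3 e he)
    have h6 : nm (q (i : ZMod N) - q (j : ZMod N)) ≤ 2 * r := by
      have h7 := nm_tri' (q (i : ZMod N)) (hdv e) (q (j : ZMod N))
      rw [nm_comm (q (i : ZMod N)) (hdv e)] at h7
      linarith
    have s1 := H.sep i hi j hj hij
    rcases H.geo.near (by omega) (by omega) (d := 2 * r) (by linarith) h6 with h7 | h7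
    · rcases abs_cases ((i : ℤ) - j) with ⟨a1, a2⟩ | ⟨a1, a2⟩ <;> rw [a1] at h7 <;> omega
    · rcases abs_cases ((i : ℤ) - j) with ⟨a1, a2⟩ | ⟨a1, a2⟩ <;> rw [a1] at h7 <;> omega
  rcases Nat.lt_or_gt_of_ne hij with h5 | h5
  · exact key i j h5 hi hj h2
  · exact fun h3 => key j i h5 hj hi h3 h2

open Classical in
/-- The product over the boxes. -/
theorem tIn_eq (HZ : ZG D h κ κ0 Mf R1 n Z kz) (h1 : Ang θ)
    (hβ : Real.cos (θ / 2 + β) = Real.sin θ) (H : Cr n L g q D k I)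
    (hrn : 6 * r < n) (hrL : 4 * r ≤ L) (hrk : (r : ℝ) + 1 + 1 ≤ kz) (ω : Cfg) :
    TIn D (wn θ β q D k (cP q (phP θ q k I m) h)) (InC q I r) ω =
      ∏ c ∈ I, |TX (wP θ β q D k (phP θ q k I m)) D (q (c : ZMod N)) r ω| := by
  have h1_lt := h1.lt
  unfold TIn TX
  simp only [abs_prod]
  rw [← prod_biUnion]
  · have e1 : (pcs ω D).filter (InC q I r) = I.biUnion fun j =>
        (pcs ω D).filter fun A => ∀ e ∈ A, hdv e ∈ Bq (q (j : ZMod N)) r := by
      ext A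
      rw [mem_filter, mem_biUnion]
      constructor
      · rintro ⟨hA, j, hj, hin⟩
        exact ⟨j, hj, mem_filter.2 ⟨hA, hin⟩⟩
      · rintro ⟨j, hj, hA⟩
        obtain ⟨hA1, hA2⟩ := mem_filter.1 hA
        exact ⟨hA1, j, hj, hA2⟩
    rw [← e1]
    refine prod_congr ?_ fun A hA => ?_
    · ext A
      simp only [mem_filter]
    obtain ⟨hA1, hA2⟩ := mem_filter.1 hA
    rw [wn_cP H.poly H.enc h1.pos h1_lt hβ hA1 (mass_inC HZ H.poly H.enc hrk hA2)]
  · intro i hi j hj hij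
    rw [Function.onFun, Finset.disjoint_left]
    intro A hA hA'
    obtain ⟨h2, h3⟩ := mem_filter.1 hA
    obtain ⟨-, h4⟩ := mem_filter.1 hA'
    exact inC_disj H hrn hrL hi hj hij h2 h3 h4

section

variable (HZ : ZG D h κ κ0 Mf R1 n Z kz) (h1 : Ang θ)
    (hβ : Real.cos (θ / 2 + β) = Real.sin θ) (hMf : 0 ≤ Mf) (H : Cr n L g q D k I)
    (HW : CrW q k I R)
    (hdw : Mf / (n : ℝ) ^ 2 * (κ * n) ^ 2 ≤ dw θ) (hM : (cB θ)⁻¹ ≤ M) (hm : 0 < m)
    (hmr : (m : ℝ) + 2 + κ * n < r) (hrk : (r : ℝ) + (κ * n + 1) + 1 ≤ kz)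
    (hrn : 6 * r < n) (hrL : 4 * r ≤ L) (hrR : r + 1 ≤ R) (hRL : R + m + 1 < L)

include h1 hβ H HW hm hRL hrR hmr HZ hrn hrL hrk

/-- The product over the boxes. -/
theorem tIn_le (ω : Cfg) : TIn D (wn θ β q D k (cP q (phP θ q k I m) h)) (InC q I r) ω ≤
    (2 * Real.cos θ)⁻¹ ^ I.card * KI q D k I m ω := by
  have hκn := HZ.κn
  have hmr' : (m : ℤ) ≤ r := by
    have : ((m : ℤ) : ℝ) ≤ r := by push_cast; linarith
    exact_mod_cast this
  rw [tIn_eq HZ h1 hβ H hrn hrL (by linarith)]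
  unfold KI
  rw [← prod_const, ← prod_mul_distrib]
  exact prod_le_prod (fun _ _ => abs_nonneg _) fun c hc =>
    tx_le H HW h1 hβ hc hm hRL hmr' (by omega) hrR

include hMf hdw hM

/-- **The bound of the functional.** -/
theorem xw_um {Nc : Cfg → ℕ} (hN : ∀ ω, (bigs D D (κ * n) ω).card ≤ Nc ω) (ω : Cfg) :
    |XW D (wn θ β q D k (cP q (phP θ q k I m) h)) ω| ≤
      (2 * Real.cos θ)⁻¹ ^ I.card * KI q D k I m ω * YQ M (Real.tan θ) Nc h (κ * n) ω := by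
  have hP := ptwC HZ h1 hβ hMf H hdw hM hmr hrk
  refine (hP.XW_le hN ω).trans (mul_le_mul_of_nonneg_right
    (tIn_le HZ h1 hβ H HW hm hmr hrk hrn hrL hrR hRL ω) (YQ_pos ?_ _ _ _ _ _).le)
  have := hP.M1
  linarith

/-- **The bound of the terms.** -/
theorem tw_um {Nc : Cfg → ℕ} (hN : ∀ ω, (bigs D D (κ * n) ω).card ≤ Nc ω)
    (hA : A ∈ pcs ω D) (hIn : ¬ InC q I r A) :
    |TW D (wn θ β q D k (cP q (phP θ q k I m) h)) (wn' θ β q D k (cP q (phP θ q k I m) h)) ω A| ≤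
      3 * M * ((2 * Real.cos θ)⁻¹ ^ I.card * KI q D k I m ω *
        YQ M (Real.tan θ) Nc h (κ * n) ω) := by
  have hP := ptwC HZ h1 hβ hMf H hdw hM hmr hrk
  have hM1 := hP.M1
  refine (hP.TW_le hN hA hIn).trans (mul_le_mul_of_nonneg_left (mul_le_mul_of_nonneg_right
    (tIn_le HZ h1 hβ H HW hm hmr hrk hrn hrL hrR hRL ω) (YQ_pos ?_ _ _ _ _ _).le) (by linarith))
  linarith

end

end Vale.Agent.P167.N.H955
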